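import Vale.Agent.P016.FE.F

/-!
# Module A: all `x` in a long range at once
-/

open Finset Real Filter

namespace Vale.Agent.P016.FE

/-- all but `C (1 + log (log X / log X₀))` primes `l ≤ (log X₀)^A` satisfy
`artinCount l x ≥ x^(1 - ε)` for all `X₀ ≤ x ≤ X` -/
def AllStmt : Prop := ∀ A ε : ℝ, 0 < A → 0 < ε → ε < 1 → ∃ C : ℝ, 0 < C ∧ ∃ x₀ : ℕ,
  ∀ X₀ X : ℕ, x₀ ≤ X₀ → X₀ ≤ X →
  (by classical exact (((range (⌊(log X₀) ^ A⌋₊ + 1)).filter (fun l : ℕ => l.Prime ∧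
    ∃ x : ℕ, X₀ ≤ x ∧ x ≤ X ∧ (artinCount l x : ℝ) < (x : ℝ) ^ (1 - ε))).card : ℝ)) ≤
    C * (1 + log (log X / log X₀))

lemma artinCount_mono (a : ℤ) {x y : ℕ} (h : x ≤ y) : artinCount a x ≤ artinCount a y := by
  classical
  unfold artinCount
  apply Finset.card_le_card
  intro p hp
  rw [mem_filter, mem_range] at hp ⊢
  exact ⟨by omega, hp.2⟩

open FM in
theorem allx (hF : FewStmt) : AllStmt := by
  classical
  obtain ⟨c, C, hc, hC, hF⟩ := hF
  intro A ε hA hε hε1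
  obtain ⟨x1, hF⟩ := hF A hA
  obtain ⟨θ, hθ⟩ : ∃ θ, θ = 1 + ε / 2 := ⟨_, rfl⟩
  have hθ1 : 1 < θ := by rw [hθ]; linarith
  have hθ0 : 0 < θ := by linarith
  have hlθ : 0 < log θ := Real.log_pos hθ1
  have hθε : 1 - ε / 2 ≤ 1 / θ := by
    rw [hθ, le_div_iff₀ (by linarith)]
    nlinarith
  obtain ⟨x2, hx2⟩ := eventually_atTop.1 (((ev_log_rpow 2 (2 / c) (ε / 2) (by positivity)).and
    (ev_log_ge 1)).and (eventually_ge_atTop 3))
  refine ⟨C * (1 / log θ + 1), by positivity, max x1 x2, ?_⟩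
  intro X₀ X hX₀ hX
  obtain ⟨⟨-, f2⟩, f3⟩ := hx2 X₀ ((le_max_right _ _).trans hX₀)
  have hX₀3 : (3 : ℝ) ≤ X₀ := by exact_mod_cast f3
  have hX₀0 : (0 : ℝ) < X₀ := by linarith
  have hX₀1 : (1 : ℝ) ≤ X₀ := by linarith
  have hl0 : 0 < log (X₀ : ℝ) := by linarith
  have hXX : (X₀ : ℝ) ≤ X := by exact_mod_cast hX
  have hX0 : (0 : ℝ) < X := by linarith
  have hlX : log (X₀ : ℝ) ≤ log X := Real.log_le_log hX₀0 hXX
  obtain ⟨Λ, hΛ⟩ : ∃ Λ, Λ = log (log X / log X₀) := ⟨_, rfl⟩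
  have hΛ0 : 0 ≤ Λ := by
    rw [hΛ]
    apply Real.log_nonneg
    rw [one_le_div hl0]
    exact hlX
  obtain ⟨J, hJ⟩ : ∃ J, J = ⌊Λ / log θ⌋₊ := ⟨_, rfl⟩
  -- the scales
  obtain ⟨xs, hxs⟩ : ∃ xs : ℕ → ℕ, xs = fun j => ⌊(X₀ : ℝ) ^ (θ ^ j)⌋₊ := ⟨_, rfl⟩
  have hxsge : ∀ j, X₀ ≤ xs j := by
    intro j
    rw [hxs]
    apply Nat.le_floor
    calc (X₀ : ℝ) = (X₀ : ℝ) ^ (1 : ℝ) := (Real.rpow_one _).symm
      _ ≤ (X₀ : ℝ) ^ (θ ^ j) := Real.rpow_le_rpow_of_exponent_le hX₀1 (one_le_pow₀ hθ1.le)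
  obtain ⟨Bj, hBj⟩ : ∃ Bj : ℕ → Finset ℕ, Bj = fun j => (range (⌊(log (xs j)) ^ A⌋₊ + 1)).filter
    (fun l : ℕ => l.Prime ∧ ¬ (l : ℤ) ∣ (1 : ℤ) ∧ (artinCount ((1 : ℤ) * l) (xs j) : ℝ) <
      c * 1 * ((xs j : ℝ) / (log (xs j)) ^ 2)) := ⟨_, rfl⟩
  have hBcard : ∀ j, ((Bj j).card : ℝ) ≤ C := by
    intro j
    have h1 : x1 ≤ xs j := ((le_max_left _ _).trans hX₀).trans (hxsge j)
    have h2 : x2 ≤ xs j := ((le_max_right _ _).trans hX₀).trans (hxsge j)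
    obtain ⟨⟨-, g2⟩, -⟩ := hx2 (xs j) h2
    have h3 := hF (xs j) h1 1 le_rfl (by
      rw [Real.le_sqrt (by norm_num) (by linarith)]
      linarith) 1 one_ne_zero (by
        simp only [Int.cast_one, abs_one]
        exact Real.one_le_rpow g2 hA.le)
    rw [hBj]
    refine h3.trans (le_of_eq ?_)
    rw [mul_one]
  have hsub : ((range (⌊(log X₀) ^ A⌋₊ + 1)).filter (fun l : ℕ => l.Prime ∧
      ∃ x : ℕ, X₀ ≤ x ∧ x ≤ X ∧ (artinCount l x : ℝ) < (x : ℝ) ^ (1 - ε))) ⊆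
      (range (J + 1)).biUnion Bj := by
    intro l hl
    rw [mem_filter, mem_range, Nat.lt_succ_iff] at hl
    obtain ⟨hlA, hlp, x, hx1, hx2', hx3⟩ := hl
    have hxx : (X₀ : ℝ) ≤ x := by exact_mod_cast hx1
    have hx0 : (0 : ℝ) < x := by linarith
    have hlx : log (X₀ : ℝ) ≤ log x := Real.log_le_log hX₀0 hxx
    have hlx0 : 0 < log (x : ℝ) := by linarith
    -- the scale
    obtain ⟨μ, hμ⟩ : ∃ μ, μ = log (log x / log X₀) := ⟨_, rfl⟩
    have hμ0 : 0 ≤ μ := by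
      rw [hμ]
      apply Real.log_nonneg
      rw [one_le_div hl0]
      exact hlx
    have hμΛ : μ ≤ Λ := by
      rw [hμ, hΛ]
      apply Real.log_le_log (by positivity)
      apply div_le_div_of_nonneg_right _ hl0.le
      apply Real.log_le_log hx0
      exact_mod_cast hx2'
    obtain ⟨j, hj⟩ : ∃ j, j = ⌊μ / log θ⌋₊ := ⟨_, rfl⟩
    have hjJ : j ≤ J := by
      rw [hj, hJ]
      apply Nat.floor_le_floor
      gcongr
    have hj1 : (j : ℝ) ≤ μ / log θ := by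
      rw [hj]
      exact Nat.floor_le (by positivity)
    have hj2 : μ / log θ < j + 1 := by
      rw [hj]
      exact Nat.lt_floor_add_one _
    have hexpμ : exp μ = log x / log X₀ := by
      rw [hμ, Real.exp_log (by positivity)]
    have hθj : (θ : ℝ) ^ j = exp (j * log θ) := by
      rw [mul_comm, Real.exp_mul, Real.exp_log hθ0, Real.rpow_natCast]
    have hθ1' : θ ^ j * log X₀ ≤ log x := by
      have h1 : θ ^ j ≤ log x / log X₀ := by
        rw [hθj, ← hexpμ]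
        apply Real.exp_le_exp.2
        rwa [le_div_iff₀ hlθ] at hj1
      rwa [le_div_iff₀ hl0] at h1
    have hθ2' : log x ≤ θ * (θ ^ j * log X₀) := by
      have h1 : log x / log X₀ ≤ θ * θ ^ j := by
        rw [← hexpμ]
        have h2 : θ * θ ^ j = exp ((j + 1) * log θ) := by
          rw [add_mul, one_mul, Real.exp_add, ← hθj, Real.exp_log hθ0]
          ring
        rw [h2]
        apply Real.exp_le_exp.2
        rw [div_lt_iff₀ hlθ] at hj2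
        exact hj2.le
      rw [div_le_iff₀ hl0] at h1
      linarith
    -- sizes
    have hpw : (X₀ : ℝ) ^ (θ ^ j) = exp (θ ^ j * log X₀) := by
      rw [Real.rpow_def_of_pos hX₀0, mul_comm]
    have hup : (X₀ : ℝ) ^ (θ ^ j) ≤ x := by
      rw [hpw, ← Real.exp_log hx0]
      exact Real.exp_le_exp.2 hθ1'
    have hlo : (x : ℝ) ^ (1 / θ) ≤ (X₀ : ℝ) ^ (θ ^ j) := by
      rw [hpw, Real.rpow_def_of_pos hx0]
      apply Real.exp_le_exp.2
      rw [mul_one_div, div_le_iff₀ hθ0]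
      linarith
    have hxsx : xs j ≤ x := by
      have h1 : (xs j : ℝ) ≤ (X₀ : ℝ) ^ (θ ^ j) := by
        rw [hxs]
        exact Nat.floor_le (by positivity)
      exact_mod_cast h1.trans hup
    have hxsj : (X₀ : ℝ) ^ (θ ^ j) ≤ 2 * xs j := by
      have h1 : (X₀ : ℝ) ^ (θ ^ j) < (xs j : ℝ) + 1 := by
        rw [hxs]
        exact Nat.lt_floor_add_one _
      have h2 : (1 : ℝ) ≤ xs j := by
        have : 1 ≤ xs j := by
          have := hxsge j
          omega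
        exact_mod_cast this
      linarith
    rw [mem_biUnion]
    refine ⟨j, mem_range.2 (by omega), ?_⟩
    have hxsR : (X₀ : ℝ) ≤ xs j := by exact_mod_cast hxsge j
    have hlxs : log (X₀ : ℝ) ≤ log (xs j) := Real.log_le_log hX₀0 hxsR
    have hlxs0 : 0 < log (xs j : ℝ) := by linarith
    have hlxsx : log (xs j : ℝ) ≤ log x := Real.log_le_log (by linarith) (by exact_mod_cast hxsx)
    rw [hBj]
    simp only
    rw [mem_filter, mem_range, Nat.lt_succ_iff]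
    refine ⟨?_, hlp, ?_, ?_⟩
    · refine hlA.trans ?_
      apply Nat.floor_le_floor
      exact Real.rpow_le_rpow hl0.le hlxs hA.le
    · intro h
      have h1 : (l : ℤ) ∣ ((1 : ℕ) : ℤ) := by exact_mod_cast h
      have h2 : l ∣ 1 := by exact_mod_cast h1
      exact hlp.one_lt.ne' (Nat.dvd_one.1 h2)
    · rw [one_mul, mul_one]
      have h1 : (artinCount (l : ℤ) (xs j) : ℝ) ≤ artinCount (l : ℤ) x := by
        exact_mod_cast artinCount_mono _ hxsx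
      refine lt_of_le_of_lt h1 (lt_of_lt_of_le hx3 ?_)
      obtain ⟨⟨g1, -⟩, -⟩ := hx2 x ((le_max_right _ _).trans (hX₀.trans hx1))
      have h2 : (x : ℝ) ^ (1 - ε) * ((x : ℝ) ^ (ε / 2)) ≤ (x : ℝ) ^ (1 / θ) := by
        rw [← Real.rpow_add hx0]
        apply Real.rpow_le_rpow_of_exponent_le (by linarith)
        linarith
      have h3 : (x : ℝ) ^ (1 - ε) * ((x : ℝ) ^ (ε / 2)) ≤ 2 * xs j := h2.trans (hlo.trans hxsj)
      have h4 : (2 : ℝ) / c * (log (xs j)) ^ 2 ≤ (x : ℝ) ^ (ε / 2) := by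
        refine le_trans ?_ g1
        apply mul_le_mul_of_nonneg_left _ (by positivity)
        rw [show (2 : ℝ) = ((2 : ℕ) : ℝ) by norm_num, Real.rpow_natCast]
        exact pow_le_pow_left₀ hlxs0.le hlxsx 2
      have h5 : (x : ℝ) ^ (1 - ε) * ((2 : ℝ) / c * (log (xs j)) ^ 2) ≤ 2 * xs j :=
        (mul_le_mul_of_nonneg_left h4 (Real.rpow_nonneg hx0.le _)).trans h3
      rw [← mul_div_assoc, le_div_iff₀ (by positivity)]
      have h6 : (x : ℝ) ^ (1 - ε) * ((2 : ℝ) / c * (log (xs j)) ^ 2) =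
          2 / c * ((x : ℝ) ^ (1 - ε) * (log (xs j)) ^ 2) := by ring
      rw [h6, div_mul_eq_mul_div, div_le_iff₀ hc] at h5
      linarith
  have hcard : (((range (⌊(log X₀) ^ A⌋₊ + 1)).filter (fun l : ℕ => l.Prime ∧
      ∃ x : ℕ, X₀ ≤ x ∧ x ≤ X ∧ (artinCount l x : ℝ) < (x : ℝ) ^ (1 - ε))).card : ℝ) ≤
      (J + 1) * C := by
    have h1 := (Finset.card_le_card hsub).trans Finset.card_biUnion_le
    have h2 : (((range (⌊(log X₀) ^ A⌋₊ + 1)).filter (fun l : ℕ => l.Prime ∧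
      ∃ x : ℕ, X₀ ≤ x ∧ x ≤ X ∧ (artinCount l x : ℝ) < (x : ℝ) ^ (1 - ε))).card : ℝ) ≤
      ∑ j ∈ range (J + 1), ((Bj j).card : ℝ) := by exact_mod_cast h1
    refine h2.trans ((Finset.sum_le_sum fun j _ => hBcard j).trans ?_)
    rw [sum_const, card_range, nsmul_eq_mul]
    push_cast
    exact le_rfl
  refine hcard.trans ?_
  have hJle : (J : ℝ) ≤ Λ / log θ := by
    rw [hJ]
    exact Nat.floor_le (by positivity)
  rw [← hΛ]
  have h1 : (J : ℝ) + 1 ≤ (1 / log θ + 1) * (1 + Λ) := by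
    have h2 : Λ / log θ = 1 / log θ * Λ := by ring
    have h3 : 0 < 1 / log θ := by positivity
    nlinarith
  calc ((J : ℝ) + 1) * C ≤ ((1 / log θ + 1) * (1 + Λ)) * C := mul_le_mul_of_nonneg_right h1 hC.le
    _ = _ := by ring

end Vale.Agent.P016.FE
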