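import Mathlib
import Vale.Agent.P016.Defs

/-!
# Few exceptional bases: definitions and statements of the modules

`L = log x`.  For a base `a`, `artinCount a x` is the number of primes `p ≤ x` with primitive
root `a`.
-/

open Finset Real

namespace Vale.Agent.P016.FE

/-- primes `p ≤ x`, `p ≡ 3 (mod 4)`, such that `p - 1` has no odd prime factor `< z` -/
noncomputable def Pz (x : ℕ) (z : ℝ) : Finset ℕ := by
  classical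
  exact (range (x + 1)).filter (fun p => p.Prime ∧ p % 4 = 3 ∧
    ∀ q : ℕ, q.Prime → 3 ≤ q → (q : ℝ) < z → ¬ q ∣ p - 1)

/-- those of them for which `a` is not a square mod `p` -/
noncomputable def Pa (x : ℕ) (z : ℝ) (a : ℤ) : Finset ℕ := by
  classical
  exact (Pz x z).filter (fun p => ¬ IsSquare (a : ZMod p))

/-- for `r ∣ p - 1`: `a` is a nonzero `r`-th power mod `p` -/
def Res (p r : ℕ) (a : ℤ) : Prop := (a : ZMod p) ^ ((p - 1) / r) = 1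

/-- `p` kills `a`: `a` is an `r`-th power for some prime `r ≥ z` dividing `p - 1` -/
def Kd (z : ℝ) (p : ℕ) (a : ℤ) : Prop := ∃ r : ℕ, r.Prime ∧ z ≤ r ∧ r ∣ p - 1 ∧ Res p r a

/-- number of `a ∈ E` that are `r`-th powers mod `p` -/
noncomputable def mres (E : Finset ℤ) (p r : ℕ) : ℕ := by
  classical
  exact (E.filter (fun a => Res p r a)).card

/-- the integers in `E` are multiplicatively independent (distinct monomials have distinct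
values) -/
def Indep (E : Finset ℤ) : Prop := ∀ u v : ℤ → ℕ,
  ∏ a ∈ E, a ^ u a = ∏ a ∈ E, a ^ v a → ∀ a ∈ E, u a = v a

/-- primes `p ≤ x` for which at least `k` elements of `E` are `r`-th powers, `r ≥ ρ` prime -/
noncomputable def Gb (x : ℕ) (ρ : ℝ) (E : Finset ℤ) (k : ℕ) : Finset ℕ := by
  classical
  exact (range (x + 1)).filter (fun p => p.Prime ∧
    ∃ r : ℕ, r.Prime ∧ ρ ≤ r ∧ r ∣ p - 1 ∧ k ≤ mres E p r)

/-- module K (easy): a nonsquare which is not killed is a primitive root -/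
def KStmt : Prop := ∀ (x : ℕ) (z : ℝ) (a : ℤ),
  (Pa x z a).card ≤ artinCount a x +
    (by classical exact ((Pz x z).filter (fun p => Kd z p a)).card)

/-- module G (Gupta-Murty counting): exponent vectors in `[-L, L]^m` -/
def GMStmt : Prop := ∀ (E : Finset ℤ) (Y : ℕ), (∀ a ∈ E, a.natAbs ≤ Y) → Indep E →
  ∀ (x m L : ℕ) (ρ : ℝ), 1 ≤ m → 0 < ρ → (x : ℝ) / ρ < ((L : ℝ) + 1) ^ m →
    ((Gb x ρ E m).card : ℝ) ≤
      2 ^ E.card * (2 * (L : ℝ) + 1) ^ m * (m * L * ((Nat.log 2 Y : ℝ) + 1) + 1)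

/-- module G3: products of distinct elements of `E` -/
def GM3Stmt : Prop := ∀ (E : Finset ℤ) (Y : ℕ), (∀ a ∈ E, a.natAbs ≤ Y) → Indep E →
  ∀ (x m α : ℕ) (ρ : ℝ), 1 ≤ m → 0 < ρ → 2 * (x : ℝ) / ρ ≤ (α.choose m : ℝ) →
    ((Gb x ρ E α).card : ℝ) * (α.choose m : ℝ) ^ 2 * ρ ≤
      2 * x * (E.card.choose m : ℝ) ^ 2 * (m * ((Nat.log 2 Y : ℝ) + 1) + 1)

/-- module U: upper bounds for `Pz` (upper bound sieve) -/
def UStmt : Prop := ∃ κ K : ℝ, 0 < κ ∧ 0 < K ∧ ∃ x₀ : ℕ, ∀ x : ℕ, x₀ ≤ x → ∀ z : ℝ,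
  (log x) ^ 3 ≤ z → z ≤ (x : ℝ) ^ κ →
    ((Pz x z).card : ℝ) ≤ K * (x / (log x * log z)) ∧
    ∀ r : ℕ, r.Prime → z ≤ r → (r : ℝ) ≤ (x : ℝ) ^ (0.6 : ℝ) →
      (((Pz x z).filter (fun p => r ∣ p - 1)).card : ℝ) ≤ K * (x / (r * (log x * log z)))

/-- module L: lower bound for `Pa` (lower bound sieve, small-level Bombieri-Vinogradov),
bases `m l` with a prime `l ≥ 5` -/
def LStmt : Prop := ∃ κ c₁ : ℝ, 0 < κ ∧ 0 < c₁ ∧ ∀ A : ℝ, 0 < A → ∃ x₀ : ℕ, ∀ x : ℕ, x₀ ≤ x →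
  ∀ z : ℝ, (log x) ^ (A + 2) ≤ z → z ≤ (x : ℝ) ^ κ → ∀ (m : ℤ) (l : ℕ), m ≠ 0 → l.Prime →
    5 ≤ l → ¬ (l : ℤ) ∣ m → |(m : ℝ)| * l ≤ (log x) ^ A →
      c₁ * (x / (log x * log z)) ≤ ((Pa x z (m * l)).card : ℝ)

/-- module Q: the quadratic condition for large prime bases (large sieve) -/
def QStmt : Prop := ∀ A : ℝ, 0 < A → ∃ C : ℝ, 0 < C ∧ ∃ x₀ : ℕ, ∀ x : ℕ, x₀ ≤ x →
  ∀ P : Finset ℕ, (∀ p ∈ P, p.Prime ∧ p % 4 = 3 ∧ p ≤ x) → (x : ℝ) / (log x) ^ 2 ≤ P.card →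
    (by classical exact (((range (⌊(x : ℝ) ^ A⌋₊ + 1)).filter (fun l : ℕ => l.Prime ∧
      4 * (P.filter (fun p => ¬ IsSquare (l : ZMod p))).card < P.card)).card : ℝ)) ≤
      (log x) ^ C

/-- module CP (core): few bad bases in an independent set -/
def CPStmt : Prop := ∀ c₁ : ℝ, 0 < c₁ → ∃ κ C C₀ : ℝ, 0 < κ ∧ 0 < C ∧ 0 < C₀ ∧
  ∀ A : ℝ, 0 < A → ∃ x₀ : ℕ, ∀ x : ℕ, x₀ ≤ x → ∀ z : ℝ, 0 < z → C₀ * √(log x) ≤ log z →
  z ≤ (x : ℝ) ^ κ → ∀ E : Finset ℤ, (∀ a ∈ E, |(a : ℝ)| ≤ (x : ℝ) ^ A) → Indep E →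
  (∀ a ∈ E, c₁ * (x / (log x * log z)) ≤ ((Pa x z a).card : ℝ) ∧
    (artinCount a x : ℝ) ≤ c₁ / 2 * (x / (log x * log z))) →
  (E.card : ℝ) ≤ C * (log x / log z)

/-- module S (subpower exceptional set, almost full order of magnitude) -/
def SubStmt : Prop := ∀ A η : ℝ, 0 < A → 0 < η → η < 1 → ∃ x₀ : ℕ, ∀ x : ℕ, x₀ ≤ x →
  (by classical exact (((range (⌊(x : ℝ) ^ A⌋₊ + 1)).filter (fun l : ℕ => l.Prime ∧
    (artinCount l x : ℝ) < x / (log x) ^ (1 + η))).card : ℝ)) ≤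
    exp ((log x) ^ (1 - η / 2))

/-- module P (polylogarithmic exceptional set) -/
def PolyStmt : Prop := ∃ c : ℝ, 0 < c ∧ ∀ A : ℝ, 0 < A → ∃ C : ℝ, 0 < C ∧ ∃ x₀ : ℕ, ∀ x : ℕ,
  x₀ ≤ x →
  (by classical exact (((range (⌊(x : ℝ) ^ A⌋₊ + 1)).filter (fun l : ℕ => l.Prime ∧
    (artinCount l x : ℝ) < c * (x / (log x) ^ (3 / 2 : ℝ)))).card : ℝ)) ≤ (log x) ^ C

/-- module F (few exceptions, small bases `m l`) -/
def FewStmt : Prop := ∃ c C : ℝ, 0 < c ∧ 0 < C ∧ ∀ A : ℝ, 0 < A → ∃ x₀ : ℕ, ∀ x : ℕ, x₀ ≤ x →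
  ∀ s : ℝ, 1 ≤ s → s ≤ √(log x) → ∀ m : ℤ, m ≠ 0 → |(m : ℝ)| ≤ (log x) ^ A →
  (by classical exact (((range (⌊(log x) ^ A⌋₊ + 1)).filter (fun l : ℕ => l.Prime ∧
    ¬ (l : ℤ) ∣ m ∧ (artinCount (m * l) x : ℝ) < c * s * (x / (log x) ^ 2))).card : ℝ)) ≤ C * s

/-- module I (almost all integers) -/
def IntStmt : Prop := ∀ δ A : ℝ, 0 < δ → 0 < A → ∃ c : ℝ, 0 < c ∧ ∃ y₀ x₀ : ℕ, ∀ x : ℕ, x₀ ≤ x →
  ∀ y : ℕ, y₀ ≤ y → (y : ℝ) ≤ (log x) ^ A →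
  (by classical exact (((Icc (-(y : ℤ)) (y : ℤ)).filter (fun a : ℤ =>
    (artinCount a x : ℝ) < c * min ((y : ℝ) ^ c) √(log x) * (x / (log x) ^ 2))).card : ℝ)) ≤
    δ * y

/-- module D (fixed prime bases): for all but `C M / δ` primes `l`, the lower bound
`M x / (log x)²` holds for `x = 2^j` except for a set of `j` of lower density `< δ` -/
def DensStmt : Prop := ∃ C : ℝ, 0 < C ∧ ∀ M δ : ℝ, 1 ≤ M → 0 < δ → δ ≤ 1 →
  ∀ S : Finset ℕ, (∀ l ∈ S, l.Prime ∧ ∃ J₀ : ℕ, ∀ J : ℕ, J₀ ≤ J →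
    δ * J ≤ (by classical exact (((range J).filter (fun j : ℕ =>
      (artinCount l (2 ^ j) : ℝ) < M * (2 ^ j / (j : ℝ) ^ 2))).card : ℝ))) →
  (S.card : ℝ) ≤ C * M / δ

end Vale.Agent.P016.FE
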