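import Mathlib
import Vale.Agent.P016.FE.Defs

/-!
# Module CP: few bad bases in an independent set
-/

open Finset Real Filter

namespace Vale.Agent.P016.FE

/-! ### a prime sum -/

theorem cp_block (j : ℕ) (hj : 1 ≤ j) (S : Finset ℕ) (hS : ∀ r ∈ S, r.Prime ∧ Nat.log 2 r = j) :
    ∑ r ∈ S, 1 / ((r : ℝ) * log r) ≤ 8 * ((j : ℝ) ^ 2)⁻¹ := by
  have hl2 : (1 : ℝ) / 2 < log 2 := by linarith [Real.log_two_gt_d9]
  have hjpos : (0 : ℝ) < j := by exact_mod_cast hj
  have hb : ∀ r ∈ S, (2 : ℝ) ^ j ≤ r ∧ (r : ℝ) < 2 ^ (j + 1) := by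
    intro r hr
    obtain ⟨hp, hlog⟩ := hS r hr
    constructor
    · have := Nat.pow_log_le_self 2 hp.ne_zero
      rw [hlog] at this
      exact_mod_cast this
    · have := Nat.lt_pow_succ_log_self (b := 2) (by norm_num) r
      rw [hlog] at this
      exact_mod_cast this
  have h1 : ∀ r ∈ S, 1 / ((r : ℝ) * log r) ≤ log r * (1 / (2 ^ j * (j * log 2) ^ 2)) := by
    intro r hr
    have hr1 := (hb r hr).1
    have h2j : (0 : ℝ) < 2 ^ j := by positivity
    have hrpos : (0 : ℝ) < r := lt_of_lt_of_le h2j hr1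
    have hlogr : (j : ℝ) * log 2 ≤ log r := by
      rw [← Real.log_pow]
      exact Real.log_le_log h2j hr1
    have hjl : 0 < (j : ℝ) * log 2 := by positivity
    have hlpos : 0 < log r := lt_of_lt_of_le hjl hlogr
    rw [mul_one_div, div_le_div_iff₀ (by positivity) (by positivity)]
    have e1 : (2 : ℝ) ^ j * (j * log 2) ^ 2 ≤ r * (log r) ^ 2 :=
      mul_le_mul hr1 (pow_le_pow_left₀ hjl.le hlogr 2) (by positivity) hrpos.le
    calc 1 * ((2 : ℝ) ^ j * (j * log 2) ^ 2) ≤ r * (log r) ^ 2 := by rw [one_mul]; exact e1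
      _ = log r * (r * log r) := by ring
  have h2 : ∑ r ∈ S, log r ≤ log 4 * 2 ^ (j + 1) := by
    refine le_trans ?_ (Chebyshev.theta_le_log4_mul_x (x := 2 ^ (j + 1)) (by positivity))
    unfold Chebyshev.theta
    apply Finset.sum_le_sum_of_subset_of_nonneg
    · intro r hr
      rw [Finset.mem_filter, Finset.mem_Ioc]
      refine ⟨⟨(hS r hr).1.pos, ?_⟩, (hS r hr).1⟩
      exact Nat.le_floor (hb r hr).2.le
    · intro r _ _
      exact Real.log_natCast_nonneg r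
  calc ∑ r ∈ S, 1 / ((r : ℝ) * log r) ≤ ∑ r ∈ S, log r * (1 / (2 ^ j * (j * log 2) ^ 2)) :=
        Finset.sum_le_sum h1
    _ = (∑ r ∈ S, log r) * (1 / (2 ^ j * (j * log 2) ^ 2)) := by rw [Finset.sum_mul]
    _ ≤ (log 4 * 2 ^ (j + 1)) * (1 / (2 ^ j * (j * log 2) ^ 2)) :=
        mul_le_mul_of_nonneg_right h2 (by positivity)
    _ = 4 / (j ^ 2 * log 2) := by
        have : log 4 = 2 * log 2 := by
          rw [show (4 : ℝ) = 2 ^ 2 by norm_num, Real.log_pow]; norm_num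
        rw [this, pow_succ]
        have : (0 : ℝ) < log 2 := by linarith
        field_simp
        norm_num
    _ ≤ 8 * ((j : ℝ) ^ 2)⁻¹ := by
        rw [← div_eq_mul_inv, div_le_div_iff₀ (by positivity) (by positivity)]
        nlinarith [mul_lt_mul_of_pos_left hl2 (by positivity : (0 : ℝ) < (j : ℝ) ^ 2)]

theorem cp_prime_sum (t : ℝ) (ht : 2 ≤ t) (S : Finset ℕ) (hS : ∀ r ∈ S, r.Prime ∧ t ≤ log r) :
    ∑ r ∈ S, 1 / ((r : ℝ) * log r) ≤ 32 / t := by
  have hc1 : 1 ≤ ⌈t / 2⌉₊ := Nat.one_le_ceil_iff.2 (by linarith)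
  have hmaps : ∀ r ∈ S, Nat.log 2 r ∈ Finset.Ioo (⌈t / 2⌉₊ - 1) (S.sup (fun r => Nat.log 2 r) + 1) := by
    intro r hr
    rw [Finset.mem_Ioo]
    constructor
    · have hlt := Nat.lt_pow_succ_log_self (b := 2) (by norm_num) r
      have hlt' : (r : ℝ) < 2 ^ (Nat.log 2 r + 1) := by exact_mod_cast hlt
      have hrpos : (0 : ℝ) < r := by exact_mod_cast (hS r hr).1.pos
      have h1 : log r < (Nat.log 2 r + 1 : ℕ) * log 2 := by
        rw [← Real.log_pow]
        exact Real.log_lt_log hrpos hlt'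
      push_cast at h1
      have h2 := (hS r hr).2
      have h3 : log 2 < 0.7 := by linarith [Real.log_two_lt_d9]
      have h4 : (0 : ℝ) ≤ Nat.log 2 r := Nat.cast_nonneg _
      have h5 : t / 2 ≤ (Nat.log 2 r : ℝ) := by nlinarith
      have h6 : ⌈t / 2⌉₊ ≤ Nat.log 2 r := Nat.ceil_le.2 h5
      omega
    · exact Nat.lt_succ_of_le (Finset.le_sup (f := fun r => Nat.log 2 r) hr)
  rw [← Finset.sum_fiberwise_of_maps_to hmaps]
  calc _ ≤ ∑ j ∈ Finset.Ioo (⌈t / 2⌉₊ - 1) (S.sup (fun r => Nat.log 2 r) + 1),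
        8 * ((j : ℝ) ^ 2)⁻¹ := by
        apply Finset.sum_le_sum
        intro j hj
        apply cp_block j
        · rw [Finset.mem_Ioo] at hj; omega
        · intro r hr
          rw [Finset.mem_filter] at hr
          exact ⟨(hS r hr.1).1, hr.2⟩
    _ = 8 * ∑ j ∈ Finset.Ioo (⌈t / 2⌉₊ - 1) (S.sup (fun r => Nat.log 2 r) + 1),
        ((j : ℝ) ^ 2)⁻¹ := by rw [Finset.mul_sum]
    _ ≤ 8 * (2 / (((⌈t / 2⌉₊ - 1 : ℕ) : ℝ) + 1)) :=
        mul_le_mul_of_nonneg_left (sum_Ioo_inv_sq_le _ _) (by norm_num)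
    _ ≤ 8 * (2 / (t / 2)) := by
        apply mul_le_mul_of_nonneg_left _ (by norm_num)
        apply div_le_div_of_nonneg_left (by norm_num) (by linarith)
        have h := Nat.le_ceil (t / 2)
        have h2 : ((⌈t / 2⌉₊ - 1 : ℕ) : ℝ) + 1 = (⌈t / 2⌉₊ : ℝ) := by
          rw [Nat.cast_sub hc1]; push_cast; ring
        rw [h2]; exact h
    _ = 32 / t := by
        have : t ≠ 0 := by linarith
        field_simp
        norm_num

/-! ### independence -/

theorem Indep.subset {E F : Finset ℤ} (h : Indep E) (hF : F ⊆ E) : Indep F := by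
  classical
  intro u v huv a ha
  have key : ∀ w : ℤ → ℕ, ∏ a ∈ E, a ^ (if a ∈ F then w a else 0) = ∏ a ∈ F, a ^ w a := by
    intro w
    rw [← Finset.prod_subset hF (fun b _ hb => by simp [hb])]
    apply Finset.prod_congr rfl
    intro b hb
    simp [hb]
  have := h (fun b => if b ∈ F then u b else 0) (fun b => if b ∈ F then v b else 0)
    (by rw [key u, key v]; exact huv) a (hF ha)
  simpa [ha] using this

/-! ### counting with one value of `m` -/

theorem cp_term (hG : GMStmt) (E : Finset ℤ) (hE : Indep E) (A : ℝ) (hA : 0 < A) (x : ℕ)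
    (hx : 1 ≤ x) (hEA : ∀ a ∈ E, |(a : ℝ)| ≤ (x : ℝ) ^ A) (m : ℕ) (hm : 2 ≤ m) :
    ((Gb x ((x : ℝ) ^ (2 / (m : ℝ))) E m).card : ℝ) ≤
      2 ^ E.card * (3 ^ m * (m * (2 * A * log x + 2))) * (x * exp (-(log x / m))) := by
  have hx1 : (1 : ℝ) ≤ x := by exact_mod_cast hx
  have hx0 : (0 : ℝ) < x := by linarith
  have hL0 : 0 ≤ log x := Real.log_nonneg hx1
  have hm0 : (0 : ℝ) < m := by exact_mod_cast (by omega : 0 < m)
  have hm2 : (2 : ℝ) ≤ m := by exact_mod_cast hm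
  set w : ℝ := (x : ℝ) ^ ((1 - 2 / (m : ℝ)) / m) with hw
  have hexp0 : 0 ≤ (1 - 2 / (m : ℝ)) / m := by
    apply div_nonneg _ hm0.le
    rw [sub_nonneg, div_le_one hm0]; exact hm2
  have hw1 : 1 ≤ w := Real.one_le_rpow hx1 hexp0
  have hw0 : 0 ≤ w := by linarith
  have hwm : w ^ m = (x : ℝ) ^ (1 - 2 / (m : ℝ)) := by
    rw [hw, ← Real.rpow_natCast, ← Real.rpow_mul hx0.le, div_mul_cancel₀ _ hm0.ne']
  have hw2 : w ≤ (x : ℝ) ^ (1 / (m : ℝ)) := by
    apply Real.rpow_le_rpow_of_exponent_le hx1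
    apply div_le_div_of_nonneg_right _ hm0.le
    have : 0 ≤ 2 / (m : ℝ) := by positivity
    linarith
  have hY1 : (1 : ℝ) ≤ (x : ℝ) ^ A := Real.one_le_rpow hx1 hA.le
  have hYne : ⌊(x : ℝ) ^ A⌋₊ ≠ 0 := by
    have := Nat.floor_pos.2 hY1
    omega
  have hB : (Nat.log 2 ⌊(x : ℝ) ^ A⌋₊ : ℝ) ≤ 2 * A * log x := by
    have h1 := Nat.pow_log_le_self 2 hYne
    have h2 : ((2 : ℝ)) ^ (Nat.log 2 ⌊(x : ℝ) ^ A⌋₊) ≤ (x : ℝ) ^ A :=
      le_trans (by exact_mod_cast h1) (Nat.floor_le (by positivity))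
    have h3 := Real.log_le_log (by positivity) h2
    rw [Real.log_pow, Real.log_rpow hx0] at h3
    have h4 : (1 : ℝ) / 2 < log 2 := by linarith [Real.log_two_gt_d9]
    have h5 : (0 : ℝ) ≤ (Nat.log 2 ⌊(x : ℝ) ^ A⌋₊ : ℝ) := Nat.cast_nonneg _
    nlinarith
  have hgm := hG E ⌊(x : ℝ) ^ A⌋₊ (by
      intro a ha
      apply Nat.le_floor
      rw [Nat.cast_natAbs]
      push_cast
      exact hEA a ha) hE x m ⌊w⌋₊ ((x : ℝ) ^ (2 / (m : ℝ))) (by omega)
      (Real.rpow_pos_of_pos hx0 _) (by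
        have h1 : (x : ℝ) / (x : ℝ) ^ (2 / (m : ℝ)) = w ^ m := by
          rw [hwm, Real.rpow_sub hx0, Real.rpow_one]
        rw [h1]
        exact pow_lt_pow_left₀ (Nat.lt_floor_add_one w) hw0 (by omega))
  refine hgm.trans ?_
  have hfl : (⌊w⌋₊ : ℝ) ≤ w := Nat.floor_le hw0
  have hfl0 : (0 : ℝ) ≤ (⌊w⌋₊ : ℝ) := Nat.cast_nonneg _
  have h1 : (2 * (⌊w⌋₊ : ℝ) + 1) ^ m ≤ 3 ^ m * w ^ m := by
    rw [← mul_pow]
    apply pow_le_pow_left₀ (by positivity)
    linarith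
  have hB0 : (0 : ℝ) ≤ (Nat.log 2 ⌊(x : ℝ) ^ A⌋₊ : ℝ) := Nat.cast_nonneg _
  have h2 : (m : ℝ) * (⌊w⌋₊ : ℝ) * ((Nat.log 2 ⌊(x : ℝ) ^ A⌋₊ : ℝ) + 1) + 1 ≤
      (m * (2 * A * log x + 2)) * w := by
    have e1 : (m : ℝ) * (⌊w⌋₊ : ℝ) * ((Nat.log 2 ⌊(x : ℝ) ^ A⌋₊ : ℝ) + 1) ≤
        m * w * (2 * A * log x + 1) := by
      apply mul_le_mul _ (by linarith) (by positivity) (by positivity)
      exact mul_le_mul_of_nonneg_left hfl hm0.le
    have e2 : 1 ≤ (m : ℝ) * w := by nlinarith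
    calc _ ≤ m * w * (2 * A * log x + 1) + m * w := add_le_add e1 e2
      _ = (m * (2 * A * log x + 2)) * w := by ring
  have h3 : (2 * (⌊w⌋₊ : ℝ) + 1) ^ m *
      ((m : ℝ) * (⌊w⌋₊ : ℝ) * ((Nat.log 2 ⌊(x : ℝ) ^ A⌋₊ : ℝ) + 1) + 1) ≤
      (3 ^ m * w ^ m) * ((m * (2 * A * log x + 2)) * w) :=
    mul_le_mul h1 h2 (by positivity) (by positivity)
  have h4 : w ^ m * w ≤ x * exp (-(log x / m)) := by
    calc w ^ m * w ≤ (x : ℝ) ^ (1 - 2 / (m : ℝ)) * (x : ℝ) ^ (1 / (m : ℝ)) := by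
          rw [hwm]
          exact mul_le_mul_of_nonneg_left hw2 (Real.rpow_nonneg hx0.le _)
      _ = x * exp (-(log x / m)) := by
          rw [← Real.rpow_add hx0]
          have : (1 - 2 / (m : ℝ) + 1 / (m : ℝ)) = 1 + (-(1 / (m : ℝ))) := by ring
          rw [this, Real.rpow_add hx0, Real.rpow_one, Real.rpow_def_of_pos hx0 (-(1 / (m : ℝ)))]
          congr 2
          ring
  calc 2 ^ E.card * (2 * (⌊w⌋₊ : ℝ) + 1) ^ m *
      ((m : ℝ) * (⌊w⌋₊ : ℝ) * ((Nat.log 2 ⌊(x : ℝ) ^ A⌋₊ : ℝ) + 1) + 1)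
      = 2 ^ E.card * ((2 * (⌊w⌋₊ : ℝ) + 1) ^ m *
      ((m : ℝ) * (⌊w⌋₊ : ℝ) * ((Nat.log 2 ⌊(x : ℝ) ^ A⌋₊ : ℝ) + 1) + 1)) := by ring
    _ ≤ 2 ^ E.card * ((3 ^ m * w ^ m) * ((m * (2 * A * log x + 2)) * w)) :=
        mul_le_mul_of_nonneg_left h3 (by positivity)
    _ = 2 ^ E.card * (3 ^ m * (m * (2 * A * log x + 2))) * (w ^ m * w) := by ring
    _ ≤ _ := mul_le_mul_of_nonneg_left h4 (by positivity)

/-! ### asymptotics -/

theorem cp_ev (c C C₀ A : ℝ) (hc : 0 < c) (hC : 0 < C) (hC₀ : 1 ≤ C₀) (hCC : 12 * (C + 6) ≤ C₀ ^ 2)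
    (hA : 0 < A) : ∃ L₀ : ℝ, ∀ L : ℝ, L₀ ≤ L → 4 ≤ L ∧ L ^ 3 ≤ exp (C₀ * √L) ∧
      ∀ t : ℝ, C₀ * √L ≤ t → t ≤ L → ∀ e M : ℕ, (e : ℝ) ≤ C * (L / t) + 1 →
        (M : ℝ) ≤ 3 * (L / t) →
        M * (2 ^ e * (3 ^ M * (M * (2 * A * L + 2)))) * exp (-(t / 3)) ≤ c / (L * t) := by
  have hs : Tendsto (fun L : ℝ => √L) atTop atTop := tendsto_sqrt_atTop
  have hC0pos : 0 < C₀ := by linarith
  have e2 : ∀ᶠ L : ℝ in atTop, L ^ 3 ≤ exp (C₀ * √L) := by
    have := (isLittleO_pow_exp_pos_mul_atTop (k := 6) hC0pos).bound (one_pos)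
    have h := hs.eventually this
    filter_upwards [h, eventually_ge_atTop (0 : ℝ)] with L hL hL0
    rw [Real.norm_eq_abs, Real.norm_eq_abs, abs_of_nonneg (by positivity),
      abs_of_pos (exp_pos _), one_mul] at hL
    have : (√L) ^ 6 = L ^ 3 := by
      calc (√L) ^ 6 = ((√L) ^ 2) ^ 3 := by ring
        _ = L ^ 3 := by rw [Real.sq_sqrt hL0]
    rw [this] at hL
    exact hL
  have e3 : ∀ᶠ L : ℝ in atTop, exp 1 * 9 * (2 * A + 2) * L ^ 4 ≤ c * exp (√L / 4) := by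
    have := (isLittleO_pow_exp_pos_mul_atTop (k := 8) (b := 1 / 4) (by norm_num)).bound
      (c := c / (exp 1 * 9 * (2 * A + 2))) (by positivity)
    have h := hs.eventually this
    filter_upwards [h, eventually_ge_atTop (0 : ℝ)] with L hL hL0
    rw [Real.norm_eq_abs, Real.norm_eq_abs, abs_of_nonneg (by positivity),
      abs_of_pos (exp_pos _)] at hL
    have : (√L) ^ 8 = L ^ 4 := by
      calc (√L) ^ 8 = ((√L) ^ 2) ^ 4 := by ring
        _ = L ^ 4 := by rw [Real.sq_sqrt hL0]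
    rw [this] at hL
    have h2 : 1 / 4 * √L = √L / 4 := by ring
    rw [h2, div_mul_eq_mul_div, le_div_iff₀ (by positivity)] at hL
    linarith
  obtain ⟨L₀, hL₀⟩ := eventually_atTop.1 (e2.and (e3.and (eventually_ge_atTop (4 : ℝ))))
  refine ⟨L₀, fun L hL => ?_⟩
  obtain ⟨h2, h3, h4⟩ := hL₀ L hL
  refine ⟨h4, h2, fun t ht htL e M he hM => ?_⟩
  have hLpos : 0 < L := by linarith
  have hsq : 0 < √L := sqrt_pos.2 hLpos
  have htpos : 0 < t := lt_of_lt_of_le (by positivity) ht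
  have hst : √L ≤ t := by nlinarith
  have hsqL : √L * √L = L := Real.mul_self_sqrt hLpos.le
  have hLt : C₀ ^ 2 * L ≤ t * t := by
    calc C₀ ^ 2 * L = C₀ ^ 2 * (√L * √L) := by rw [hsqL]
      _ = (C₀ * √L) * (C₀ * √L) := by ring
      _ ≤ t * t := mul_le_mul ht ht (by positivity) htpos.le
  have hLt2 : (C + 6) * (L / t) ≤ t / 12 := by
    rw [mul_div_assoc', div_le_div_iff₀ htpos (by norm_num)]
    nlinarith
  have hM2 : (M : ℝ) * M ≤ 9 * L := by
    have h5 : (L / t) * (L / t) ≤ L := by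
      rw [div_mul_div_comm, div_le_iff₀ (by positivity)]
      have : L ≤ t * t := by nlinarith
      nlinarith
    calc (M : ℝ) * M ≤ (3 * (L / t)) * (3 * (L / t)) :=
          mul_le_mul hM hM (Nat.cast_nonneg _) (by positivity)
      _ = 9 * ((L / t) * (L / t)) := by ring
      _ ≤ 9 * L := by linarith
  have he2 : (2 : ℝ) ^ e ≤ exp e := by
    calc (2 : ℝ) ^ e ≤ (exp 1) ^ e := pow_le_pow_left₀ (by norm_num)
          (by linarith [Real.add_one_le_exp (1 : ℝ)]) e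
      _ = exp e := by rw [← Real.exp_nat_mul]; simp
  have hM3 : (3 : ℝ) ^ M ≤ exp (2 * M) := by
    calc (3 : ℝ) ^ M ≤ (exp 2) ^ M := pow_le_pow_left₀ (by norm_num)
          (by linarith [Real.add_one_le_exp (2 : ℝ)]) M
      _ = exp (2 * M) := by rw [← Real.exp_nat_mul]; congr 1; ring
  have hexp : exp e * exp (2 * M) * exp (-(t / 3)) ≤ exp 1 * exp (-(√L / 4)) := by
    rw [← Real.exp_add, ← Real.exp_add, ← Real.exp_add]
    apply exp_le_exp.2
    have : (C + 6) * (L / t) = C * (L / t) + 2 * (3 * (L / t)) := by ring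
    linarith
  have hpoly : (2 * A * L + 2) ≤ (2 * A + 2) * L := by nlinarith
  have hLt3 : c / (L * L) ≤ c / (L * t) := by
    apply div_le_div_of_nonneg_left hc.le (by positivity)
    exact mul_le_mul_of_nonneg_left htL hLpos.le
  refine le_trans ?_ hLt3
  calc (M : ℝ) * (2 ^ e * (3 ^ M * (M * (2 * A * L + 2)))) * exp (-(t / 3))
      = (2 ^ e * 3 ^ M * exp (-(t / 3))) * ((M * M) * (2 * A * L + 2)) := by ring
    _ ≤ (exp e * exp (2 * M) * exp (-(t / 3))) * ((9 * L) * ((2 * A + 2) * L)) := by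
        apply mul_le_mul
        · apply mul_le_mul_of_nonneg_right _ (exp_pos _).le
          exact mul_le_mul he2 hM3 (by positivity) (exp_pos _).le
        · exact mul_le_mul hM2 hpoly (by positivity) (by positivity)
        · positivity
        · positivity
    _ ≤ (exp 1 * exp (-(√L / 4))) * ((9 * L) * ((2 * A + 2) * L)) :=
        mul_le_mul_of_nonneg_right hexp (by positivity)
    _ = (exp 1 * 9 * (2 * A + 2) * L ^ 4) * exp (-(√L / 4)) / (L * L) := by
        field_simp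
    _ ≤ (c * exp (√L / 4)) * exp (-(√L / 4)) / (L * L) := by
        apply div_le_div_of_nonneg_right _ (by positivity)
        exact mul_le_mul_of_nonneg_right h3 (exp_pos _).le
    _ = c / (L * L) := by
        rw [mul_assoc, ← Real.exp_add, add_neg_cancel, Real.exp_zero, mul_one]

/-! ### the exceptional primes -/

theorem cp_exc (hG : GMStmt) (E : Finset ℤ) (hE : Indep E) (A : ℝ) (hA : 0 < A) (x : ℕ)
    (hx : 2 ≤ x) (hEA : ∀ a ∈ E, |(a : ℝ)| ≤ (x : ℝ) ^ A) (z : ℝ) (hz0 : 0 < z)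
    (hlz : 0 < log z) (hzL : log z ≤ log x) (S : Finset ℕ)
    (hS : ∀ p ∈ S, p.Prime ∧ p ≤ x ∧ ∃ r : ℕ, r.Prime ∧ z ≤ r ∧ r ∣ p - 1 ∧
      2 * log x / log r ≤ (mres E p r : ℝ)) :
    (S.card : ℝ) ≤ (⌊3 * (log x / log z)⌋₊ : ℝ) *
      (2 ^ E.card * (3 ^ ⌊3 * (log x / log z)⌋₊ * (⌊3 * (log x / log z)⌋₊ *
        (2 * A * log x + 2)))) * exp (-(log z / 3)) * x := by
  classical
  set L : ℝ := log x with hLdef
  set t : ℝ := log z with htdef
  set M : ℕ := ⌊3 * (L / t)⌋₊ with hM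
  have hx0 : (0 : ℝ) < x := by exact_mod_cast (by omega : 0 < x)
  have hLpos : 0 < L := lt_of_lt_of_le hlz hzL
  have hLt1 : 1 ≤ L / t := by rw [le_div_iff₀ hlz, one_mul]; exact hzL
  have hsub : S ⊆ (Finset.Icc 2 M).biUnion (fun m : ℕ => Gb x ((x : ℝ) ^ (2 / (m : ℝ))) E m) := by
    intro p hp
    obtain ⟨hpp, hpx, r, hr, hzr, hrd, hmr⟩ := hS p hp
    have hp2 := hpp.two_le
    have hr0 : (0 : ℝ) < r := by exact_mod_cast hr.pos
    have hrx : r < x := by
      have := Nat.le_of_dvd (by omega) hrd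
      omega
    have hlr : t ≤ log r := Real.log_le_log hz0 hzr
    have hlr0 : 0 < log r := lt_of_lt_of_le hlz hlr
    have hlrx : log r < L := Real.log_lt_log hr0 (by exact_mod_cast hrx)
    rw [Finset.mem_biUnion]
    refine ⟨⌈2 * L / log r⌉₊, ?_, ?_⟩
    · rw [Finset.mem_Icc]
      constructor
      · have h1 : (2 : ℝ) < 2 * L / log r := by
          rw [lt_div_iff₀ hlr0]; linarith
        have h2 : (2 : ℝ) < ⌈2 * L / log r⌉₊ := lt_of_lt_of_le h1 (Nat.le_ceil _)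
        have h3 : 2 < ⌈2 * L / log r⌉₊ := by exact_mod_cast h2
        omega
      · apply Nat.le_floor
        have h1 : (⌈2 * L / log r⌉₊ : ℝ) < 2 * L / log r + 1 := Nat.ceil_lt_add_one (by positivity)
        have h2 : 2 * L / log r ≤ 2 * (L / t) := by
          rw [mul_div_assoc]
          apply mul_le_mul_of_nonneg_left _ (by norm_num)
          exact div_le_div_of_nonneg_left hLpos.le hlz hlr
        linarith
    · unfold Gb
      rw [Finset.mem_filter, Finset.mem_range]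
      refine ⟨by omega, hpp, r, hr, ?_, hrd, ?_⟩
      · have hmpos : (0 : ℝ) < ⌈2 * L / log r⌉₊ :=
          lt_of_lt_of_le (by positivity) (Nat.le_ceil (2 * L / log r))
        rw [← Real.log_le_log_iff (Real.rpow_pos_of_pos hx0 _) hr0, Real.log_rpow hx0]
        rw [div_mul_eq_mul_div, div_le_iff₀ hmpos]
        have h1 := Nat.le_ceil (2 * L / log r)
        rw [div_le_iff₀ hlr0] at h1
        rw [← hLdef]
        linarith
      · exact Nat.ceil_le.2 hmr
  have h1 : (S.card : ℝ) ≤ ∑ m ∈ Finset.Icc 2 M,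
      ((Gb x ((x : ℝ) ^ (2 / (m : ℝ))) E m).card : ℝ) := by
    exact_mod_cast (Finset.card_le_card hsub).trans Finset.card_biUnion_le
  refine h1.trans ?_
  have h2 : ∀ m ∈ Finset.Icc 2 M, ((Gb x ((x : ℝ) ^ (2 / (m : ℝ))) E m).card : ℝ) ≤
      2 ^ E.card * (3 ^ M * (M * (2 * A * L + 2))) * (x * exp (-(t / 3))) := by
    intro m hm
    rw [Finset.mem_Icc] at hm
    refine (cp_term hG E hE A hA x (by omega) hEA m hm.1).trans ?_
    have hm0 : (0 : ℝ) < m := by exact_mod_cast (by omega : 0 < m)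
    have hmM : (m : ℝ) ≤ M := by exact_mod_cast hm.2
    have hM3 : (M : ℝ) ≤ 3 * (L / t) := Nat.floor_le (by positivity)
    apply mul_le_mul
    · apply mul_le_mul_of_nonneg_left _ (by positivity)
      apply mul_le_mul _ _ (by positivity) (by positivity)
      · exact pow_le_pow_right₀ (by norm_num) hm.2
      · exact mul_le_mul_of_nonneg_right hmM (by positivity)
    · apply mul_le_mul_of_nonneg_left _ hx0.le
      apply exp_le_exp.2
      rw [neg_le_neg_iff, div_le_div_iff₀ (by norm_num) hm0]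
      have h5 : (m : ℝ) ≤ 3 * (L / t) := hmM.trans hM3
      have h6 : (m : ℝ) * t ≤ 3 * L := by
        calc (m : ℝ) * t ≤ 3 * (L / t) * t := mul_le_mul_of_nonneg_right h5 hlz.le
          _ = 3 * L := by field_simp
      linarith
    · positivity
    · positivity
  calc _ ≤ ∑ m ∈ Finset.Icc 2 M,
        2 ^ E.card * (3 ^ M * (M * (2 * A * L + 2))) * (x * exp (-(t / 3))) :=
        Finset.sum_le_sum h2
    _ = ((Finset.Icc 2 M).card : ℝ) *
        (2 ^ E.card * (3 ^ M * (M * (2 * A * L + 2))) * (x * exp (-(t / 3)))) := by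
        rw [Finset.sum_const, nsmul_eq_mul]
    _ ≤ (M : ℝ) * (2 ^ E.card * (3 ^ M * (M * (2 * A * L + 2))) * (x * exp (-(t / 3)))) := by
        apply mul_le_mul_of_nonneg_right _ (by positivity)
        rw [Nat.card_Icc]
        exact_mod_cast (by omega : M + 1 - 2 ≤ M)
    _ = _ := by ring

/-! ### the non-exceptional primes -/

/-- primes `r ≥ z`, `r ≤ x` -/
noncomputable def Rz (x : ℕ) (z : ℝ) : Finset ℕ := by
  classical
  exact (range (x + 1)).filter (fun r => r.Prime ∧ z ≤ r)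

theorem mem_Rz {x : ℕ} {z : ℝ} {r : ℕ} : r ∈ Rz x z ↔ r ≤ x ∧ r.Prime ∧ z ≤ r := by
  classical
  unfold Rz
  rw [Finset.mem_filter, Finset.mem_range]
  constructor
  · rintro ⟨h1, h2, h3⟩; exact ⟨by omega, h2, h3⟩
  · rintro ⟨h1, h2, h3⟩; exact ⟨by omega, h2, h3⟩

open Classical in
theorem cp_point (x : ℕ) (z : ℝ) (E : Finset ℤ) (p : ℕ) (hp : p ∈ Pz x z) (L : ℝ)
    (hne : ¬ ∃ r : ℕ, r.Prime ∧ z ≤ r ∧ r ∣ p - 1 ∧ 2 * L / log r ≤ (mres E p r : ℝ)) :
    ((E.filter (fun a => Kd z p a)).card : ℝ) ≤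
      ∑ r ∈ (Rz x z).filter (fun r => r ∣ p - 1), 2 * L / log r := by
  have hpx : p ≤ x ∧ p.Prime := by
    unfold Pz at hp
    rw [Finset.mem_filter, Finset.mem_range] at hp
    exact ⟨by omega, hp.2.1⟩
  have hp2 := hpx.2.two_le
  have hsub : E.filter (fun a => Kd z p a) ⊆ ((Rz x z).filter (fun r => r ∣ p - 1)).biUnion
      (fun r => E.filter (fun a => Res p r a)) := by
    intro a ha
    rw [Finset.mem_filter] at ha
    obtain ⟨haE, r, hr, hzr, hrd, hres⟩ := ha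
    rw [Finset.mem_biUnion]
    refine ⟨r, ?_, ?_⟩
    · rw [Finset.mem_filter, mem_Rz]
      have := Nat.le_of_dvd (by omega) hrd
      exact ⟨⟨by omega, hr, hzr⟩, hrd⟩
    · rw [Finset.mem_filter]; exact ⟨haE, hres⟩
  have h1 : ((E.filter (fun a => Kd z p a)).card : ℝ) ≤
      ∑ r ∈ (Rz x z).filter (fun r => r ∣ p - 1), (mres E p r : ℝ) := by
    have h := (Finset.card_le_card hsub).trans Finset.card_biUnion_le
    have h' : ((E.filter (fun a => Kd z p a)).card : ℝ) ≤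
        ∑ r ∈ (Rz x z).filter (fun r => r ∣ p - 1),
          ((E.filter (fun a => Res p r a)).card : ℝ) := by exact_mod_cast h
    refine h'.trans (le_of_eq ?_)
    apply Finset.sum_congr rfl
    intro r _
    unfold mres
    rfl
  refine h1.trans (Finset.sum_le_sum ?_)
  intro r hr
  rw [Finset.mem_filter, mem_Rz] at hr
  by_contra hlt
  exact hne ⟨r, hr.1.2.1, hr.1.2.2, hr.2, (not_le.1 hlt).le⟩

open Classical in
/-- at most one prime factor of `p - 1` is larger than `x^0.6` -/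
theorem cp_one (x : ℕ) (z : ℝ) (p : ℕ) (hp : p ∈ Pz x z) (hx : 1 ≤ x) :
    ((Rz x z).filter (fun r => r ∣ p - 1 ∧ (x : ℝ) ^ (0.6 : ℝ) < r)).card ≤ 1 := by
  have hpx : p ≤ x ∧ p.Prime := by
    unfold Pz at hp
    rw [Finset.mem_filter, Finset.mem_range] at hp
    exact ⟨by omega, hp.2.1⟩
  have hp2 := hpx.2.two_le
  rw [Finset.card_le_one]
  intro r hr r' hr'
  rw [Finset.mem_filter, mem_Rz] at hr hr'
  by_contra hne
  have hcop : Nat.Coprime r r' := (Nat.coprime_primes hr.1.2.1 hr'.1.2.1).2 hne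
  have hdvd := hcop.mul_dvd_of_dvd_of_dvd hr.2.1 hr'.2.1
  have hle := Nat.le_of_dvd (by omega) hdvd
  have hlt : r * r' < x := by omega
  have hx1 : (1 : ℝ) ≤ x := by exact_mod_cast hx
  have h1 : (x : ℝ) ≤ (x : ℝ) ^ (0.6 : ℝ) * (x : ℝ) ^ (0.6 : ℝ) := by
    rw [← Real.rpow_add (by linarith)]
    calc (x : ℝ) = (x : ℝ) ^ (1 : ℝ) := (Real.rpow_one _).symm
      _ ≤ (x : ℝ) ^ ((0.6 : ℝ) + 0.6) := Real.rpow_le_rpow_of_exponent_le hx1 (by norm_num)
  have h2 : (x : ℝ) ^ (0.6 : ℝ) * (x : ℝ) ^ (0.6 : ℝ) ≤ (r : ℝ) * r' :=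
    mul_le_mul hr.2.2.le hr'.2.2.le (Real.rpow_nonneg (by linarith) _) (Nat.cast_nonneg _)
  have h3 : (r : ℝ) * r' < x := by exact_mod_cast hlt
  linarith

open Classical in
theorem cp_sum (x : ℕ) (z K : ℝ) (hx : 2 ≤ x) (hz0 : 0 < z) (hlz : 2 ≤ log z)
    (hzL : log z ≤ log x) (hK : 0 < K)
    (h1 : ((Pz x z).card : ℝ) ≤ K * (x / (log x * log z)))
    (h2 : ∀ r : ℕ, r.Prime → z ≤ r → (r : ℝ) ≤ (x : ℝ) ^ (0.6 : ℝ) →
      (((Pz x z).filter (fun p => r ∣ p - 1)).card : ℝ) ≤ K * (x / (r * (log x * log z)))) :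
    ∑ p ∈ Pz x z, ∑ r ∈ (Rz x z).filter (fun r => r ∣ p - 1), 2 * log x / log r ≤
      68 * K * (x / (log x * log z)) * (log x / log z) := by
  set L : ℝ := log x with hLdef
  set t : ℝ := log z with htdef
  have htpos : 0 < t := by linarith
  have hLpos : 0 < L := by linarith
  have hLt1 : 1 ≤ L / t := by rw [le_div_iff₀ htpos, one_mul]; exact hzL
  have hx0 : (0 : ℝ) < x := by exact_mod_cast (by omega : 0 < x)
  have hX : 0 < (x : ℝ) / (L * t) := by positivity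
  have hlogr : ∀ r ∈ Rz x z, t ≤ log r := by
    intro r hr
    rw [mem_Rz] at hr
    exact Real.log_le_log hz0 hr.2.2
  -- split
  have hsplit : ∀ p ∈ Pz x z, ∑ r ∈ (Rz x z).filter (fun r => r ∣ p - 1), 2 * L / log r ≤
      (∑ r ∈ (Rz x z).filter (fun r : ℕ => (r : ℝ) ≤ (x : ℝ) ^ (0.6 : ℝ)),
        if r ∣ p - 1 then 2 * L / log r else 0) + 4 := by
    intro p hp
    rw [← Finset.sum_filter_add_sum_filter_not ((Rz x z).filter (fun r => r ∣ p - 1))
      (fun r : ℕ => (r : ℝ) ≤ (x : ℝ) ^ (0.6 : ℝ))]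
    apply add_le_add
    · rw [← Finset.sum_filter]
      apply le_of_eq
      apply Finset.sum_congr _ (fun _ _ => rfl)
      ext r
      simp only [Finset.mem_filter]
      tauto
    · have hle : ∀ r ∈ ((Rz x z).filter (fun r => r ∣ p - 1)).filter
          (fun r : ℕ => ¬ (r : ℝ) ≤ (x : ℝ) ^ (0.6 : ℝ)), 2 * L / log r ≤ 4 := by
        intro r hr
        rw [Finset.mem_filter, Finset.mem_filter, not_le] at hr
        have hr0 : (0 : ℝ) < (x : ℝ) ^ (0.6 : ℝ) := Real.rpow_pos_of_pos hx0 _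
        have h5 := Real.log_lt_log hr0 hr.2
        rw [Real.log_rpow hx0, ← hLdef] at h5
        rw [div_le_iff₀ (by nlinarith)]
        linarith
      refine (Finset.sum_le_card_nsmul _ _ 4 hle).trans ?_
      rw [nsmul_eq_mul]
      have hc : (((Rz x z).filter (fun r => r ∣ p - 1)).filter
          (fun r : ℕ => ¬ (r : ℝ) ≤ (x : ℝ) ^ (0.6 : ℝ))).card ≤ 1 := by
        refine le_trans (Finset.card_le_card ?_) (cp_one x z p hp (by omega))
        intro r hr
        rw [Finset.mem_filter, Finset.mem_filter, not_le] at hr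
        rw [Finset.mem_filter]
        exact ⟨hr.1.1, hr.1.2, hr.2⟩
      have hc' : ((((Rz x z).filter (fun r => r ∣ p - 1)).filter
          (fun r : ℕ => ¬ (r : ℝ) ≤ (x : ℝ) ^ (0.6 : ℝ))).card : ℝ) ≤ 1 := by exact_mod_cast hc
      linarith
  refine (Finset.sum_le_sum hsplit).trans ?_
  rw [Finset.sum_add_distrib, Finset.sum_comm, Finset.sum_const, nsmul_eq_mul]
  have hin : ∀ r ∈ (Rz x z).filter (fun r : ℕ => (r : ℝ) ≤ (x : ℝ) ^ (0.6 : ℝ)),
      (∑ p ∈ Pz x z, if r ∣ p - 1 then 2 * L / log r else 0) ≤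
        2 * L * K * (x / (L * t)) * (1 / ((r : ℝ) * log r)) := by
    intro r hr
    rw [Finset.mem_filter] at hr
    have hlr := hlogr r hr.1
    have hlr0 : 0 < log r := by linarith
    have hr' := mem_Rz.1 hr.1
    have hr0 : (0 : ℝ) < r := by exact_mod_cast hr'.2.1.pos
    have h5 := h2 r hr'.2.1 hr'.2.2 hr.2
    rw [← Finset.sum_filter, Finset.sum_const, nsmul_eq_mul]
    calc (((Pz x z).filter (fun p => r ∣ p - 1)).card : ℝ) * (2 * L / log r)
        ≤ (K * (x / (r * (L * t)))) * (2 * L / log r) :=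
          mul_le_mul_of_nonneg_right h5 (by positivity)
      _ = 2 * L * K * (x / (L * t)) * (1 / ((r : ℝ) * log r)) := by
          field_simp
  have hs := cp_prime_sum t hlz ((Rz x z).filter (fun r : ℕ => (r : ℝ) ≤ (x : ℝ) ^ (0.6 : ℝ)))
    (fun r hr => by
      rw [Finset.mem_filter] at hr
      exact ⟨(mem_Rz.1 hr.1).2.1, hlogr r hr.1⟩)
  have hA : (∑ r ∈ (Rz x z).filter (fun r : ℕ => (r : ℝ) ≤ (x : ℝ) ^ (0.6 : ℝ)),
      ∑ p ∈ Pz x z, if r ∣ p - 1 then 2 * L / log r else 0) ≤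
      64 * K * (x / (L * t)) * (L / t) := by
    refine (Finset.sum_le_sum hin).trans ?_
    rw [← Finset.mul_sum]
    calc _ ≤ 2 * L * K * (x / (L * t)) * (32 / t) :=
          mul_le_mul_of_nonneg_left hs (by positivity)
      _ = _ := by ring
  have hB : ((Pz x z).card : ℝ) * 4 ≤ 4 * K * (x / (L * t)) * (L / t) := by
    calc ((Pz x z).card : ℝ) * 4 ≤ (K * (x / (L * t))) * 4 := by linarith
      _ = 4 * K * (x / (L * t)) * 1 := by ring
      _ ≤ 4 * K * (x / (L * t)) * (L / t) := mul_le_mul_of_nonneg_left hLt1 (by positivity)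
  calc _ ≤ 64 * K * (x / (L * t)) * (L / t) + 4 * K * (x / (L * t)) * (L / t) := add_le_add hA hB
    _ = _ := by ring

/-- **Module CP.** -/
theorem cp (hK : KStmt) (hG : GMStmt) (hU : UStmt) : CPStmt := by
  classical
  intro c₁ hc₁
  obtain ⟨κU, K, hκU, hKpos, xU, hU⟩ := hU
  set C : ℝ := 272 * K / c₁ + 1 with hC
  have hCpos : 0 < C := by positivity
  set C₀ : ℝ := √(12 * (C + 6)) + 1 with hC₀
  have hC₀1 : 1 ≤ C₀ := by
    have := Real.sqrt_nonneg (12 * (C + 6))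
    linarith
  have hCC : 12 * (C + 6) ≤ C₀ ^ 2 := by
    have h1 := Real.sqrt_nonneg (12 * (C + 6))
    have h2 := Real.sq_sqrt (show 0 ≤ 12 * (C + 6) by positivity)
    rw [hC₀]
    nlinarith
  refine ⟨min κU 1, C, C₀, lt_min hκU one_pos, hCpos, by linarith, fun A hA => ?_⟩
  obtain ⟨L₀, hL₀⟩ := cp_ev (c₁ / 4) C C₀ A (by positivity) hCpos hC₀1 hCC hA
  have ht : Tendsto (fun x : ℕ => log (x : ℝ)) atTop atTop :=
    Real.tendsto_log_atTop.comp tendsto_natCast_atTop_atTop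
  obtain ⟨x₁, hx₁⟩ := eventually_atTop.1 (ht.eventually (eventually_ge_atTop L₀))
  refine ⟨max xU (max x₁ 2), fun x hx z hz0 hz hzκ E hEA hind hbad => ?_⟩
  have hxU : xU ≤ x := le_trans (le_max_left _ _) hx
  have hxx : x₁ ≤ x := le_trans (le_max_left _ _) (le_trans (le_max_right _ _) hx)
  have hx2 : 2 ≤ x := le_trans (le_max_right _ _) (le_trans (le_max_right _ _) hx)
  obtain ⟨h4, h3, hev⟩ := hL₀ (log x) (hx₁ x hxx)
  set L : ℝ := log x with hLdef
  set t : ℝ := log z with htdef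
  have hLpos : 0 < L := by linarith
  have hx1 : (1 : ℝ) ≤ x := by exact_mod_cast (by omega : 1 ≤ x)
  have hx0 : (0 : ℝ) < x := by linarith
  have hsq2 : 2 ≤ √L := by
    rw [show (2 : ℝ) = √4 by
      rw [show (4 : ℝ) = 2 ^ 2 by norm_num, Real.sqrt_sq (by norm_num)]]
    exact Real.sqrt_le_sqrt h4
  have ht2 : 2 ≤ t := by nlinarith
  have htpos : 0 < t := by linarith
  have htL : t ≤ L := by
    have h5 := Real.log_le_log hz0 hzκ
    rw [Real.log_rpow hx0] at h5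
    have h6 : min κU 1 * log x ≤ 1 * log x := mul_le_mul_of_nonneg_right (min_le_right _ _) hLpos.le
    linarith
  have hUx := hU x hxU z (by
      calc (log (x : ℝ)) ^ 3 ≤ exp (C₀ * √L) := h3
        _ ≤ exp (log z) := exp_le_exp.2 hz
        _ = z := exp_log hz0)
    (hzκ.trans (Real.rpow_le_rpow_of_exponent_le hx1 (min_le_left _ _)))
  have hX : 0 < (x : ℝ) / (L * t) := by positivity
  by_contra hcon
  rw [not_le] at hcon
  -- a subset of the right size
  obtain ⟨E', hE', hcard⟩ := Finset.exists_subset_card_eq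
    (show ⌈C * (L / t)⌉₊ ≤ E.card from Nat.ceil_le.2 hcon.le)
  have he1 : C * (L / t) ≤ (E'.card : ℝ) := by rw [hcard]; exact Nat.le_ceil _
  have he2 : (E'.card : ℝ) ≤ C * (L / t) + 1 := by
    rw [hcard]; exact (Nat.ceil_lt_add_one (by positivity)).le
  have hind' := hind.subset hE'
  have hEA' : ∀ a ∈ E', |(a : ℝ)| ≤ (x : ℝ) ^ A := fun a ha => hEA a (hE' ha)
  -- lower bound
  have hlow : ∀ a ∈ E', c₁ / 2 * (x / (L * t)) ≤
      (((Pz x z).filter (fun p => Kd z p a)).card : ℝ) := by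
    intro a ha
    obtain ⟨h5, h6⟩ := hbad a (hE' ha)
    have h7 := hK x z a
    have h8 : ((Pa x z a).card : ℝ) ≤ (artinCount a x : ℝ) +
        (((Pz x z).filter (fun p => Kd z p a)).card : ℝ) := by exact_mod_cast h7
    linarith
  have hlow2 : (E'.card : ℝ) * (c₁ / 2 * (x / (L * t))) ≤
      ∑ a ∈ E', (((Pz x z).filter (fun p => Kd z p a)).card : ℝ) := by
    rw [← nsmul_eq_mul]
    exact Finset.card_nsmul_le_sum _ _ _ hlow
  -- double counting
  have hswap : ∑ a ∈ E', (((Pz x z).filter (fun p => Kd z p a)).card : ℝ) =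
      ∑ p ∈ Pz x z, ((E'.filter (fun a => Kd z p a)).card : ℝ) := by
    have h5 : ∀ a ∈ E', (((Pz x z).filter (fun p => Kd z p a)).card : ℝ) =
        ∑ p ∈ Pz x z, if Kd z p a then (1 : ℝ) else 0 := by
      intro a _
      rw [Finset.card_filter]; push_cast; rfl
    have h6 : ∀ p ∈ Pz x z, ((E'.filter (fun a => Kd z p a)).card : ℝ) =
        ∑ a ∈ E', if Kd z p a then (1 : ℝ) else 0 := by
      intro p _
      rw [Finset.card_filter]; push_cast; rfl
    rw [Finset.sum_congr rfl h5, Finset.sum_congr rfl h6, Finset.sum_comm]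
  rw [hswap] at hlow2
  -- exceptional primes
  set Ex : Finset ℕ := (Pz x z).filter (fun p => ∃ r : ℕ, r.Prime ∧ z ≤ r ∧ r ∣ p - 1 ∧
    2 * L / log r ≤ (mres E' p r : ℝ)) with hEx
  have hpt : ∀ p ∈ Pz x z, ((E'.filter (fun a => Kd z p a)).card : ℝ) ≤
      (if p ∈ Ex then (E'.card : ℝ) else 0) +
        ∑ r ∈ (Rz x z).filter (fun r => r ∣ p - 1), 2 * L / log r := by
    intro p hp
    have hnn : 0 ≤ ∑ r ∈ (Rz x z).filter (fun r => r ∣ p - 1), 2 * L / log r := by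
      apply Finset.sum_nonneg
      intro r hr
      exact div_nonneg (by positivity) (Real.log_natCast_nonneg r)
    by_cases hpe : p ∈ Ex
    · rw [if_pos hpe]
      have : ((E'.filter (fun a => Kd z p a)).card : ℝ) ≤ E'.card := by
        exact_mod_cast Finset.card_le_card (Finset.filter_subset _ _)
      linarith
    · rw [if_neg hpe, zero_add]
      apply cp_point x z E' p hp L
      intro hex
      exact hpe (Finset.mem_filter.2 ⟨hp, hex⟩)
  have hup : ∑ p ∈ Pz x z, ((E'.filter (fun a => Kd z p a)).card : ℝ) ≤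
      (E'.card : ℝ) * Ex.card + 68 * K * (x / (L * t)) * (L / t) := by
    refine (Finset.sum_le_sum hpt).trans ?_
    rw [Finset.sum_add_distrib]
    apply add_le_add
    · rw [← Finset.sum_filter, Finset.sum_const, nsmul_eq_mul, mul_comm]
      apply mul_le_mul_of_nonneg_left _ (Nat.cast_nonneg _)
      exact_mod_cast Finset.card_le_card (fun p hp => (Finset.mem_filter.1 hp).2)
    · exact cp_sum x z K hx2 hz0 ht2 htL hKpos hUx.1 hUx.2
  have hEx1 := cp_exc hG E' hind' A hA x hx2 hEA' z hz0 htpos htL Ex (by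
    intro p hp
    rw [hEx, Finset.mem_filter] at hp
    have hp' := hp.1
    unfold Pz at hp'
    rw [Finset.mem_filter, Finset.mem_range] at hp'
    exact ⟨hp'.2.1, by omega, hp.2⟩)
  have hEx2 : (Ex.card : ℝ) ≤ c₁ / 4 * (x / (L * t)) := by
    have h5 := hev t hz htL E'.card ⌊3 * (L / t)⌋₊ he2 (Nat.floor_le (by positivity))
    calc (Ex.card : ℝ) ≤ _ := hEx1
      _ ≤ c₁ / 4 / (L * t) * x := mul_le_mul_of_nonneg_right h5 hx0.le
      _ = c₁ / 4 * (x / (L * t)) := by ring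
  have h9 : (E'.card : ℝ) * (c₁ / 2 * (x / (L * t))) ≤
      (E'.card : ℝ) * (c₁ / 4 * (x / (L * t))) + 68 * K * (x / (L * t)) * (L / t) := by
    refine (hlow2.trans hup).trans ?_
    have := mul_le_mul_of_nonneg_left hEx2 (Nat.cast_nonneg E'.card : (0 : ℝ) ≤ E'.card)
    linarith
  have h10 : (E'.card : ℝ) * (c₁ / 4) * (x / (L * t)) ≤ 68 * K * (L / t) * (x / (L * t)) := by
    nlinarith
  have h11 : (E'.card : ℝ) * (c₁ / 4) ≤ 68 * K * (L / t) := le_of_mul_le_mul_right h10 hX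
  have h12 : 272 * K / c₁ * (L / t) + L / t ≤ (E'.card : ℝ) := by
    calc _ = C * (L / t) := by rw [hC]; ring
      _ ≤ _ := he1
  have hLt : 0 < L / t := by positivity
  have h13 : (272 * K / c₁ * (L / t) + L / t) * (c₁ / 4) ≤ 68 * K * (L / t) :=
    (mul_le_mul_of_nonneg_right h12 (by positivity)).trans h11
  have h14 : (272 * K / c₁ * (L / t) + L / t) * (c₁ / 4) = 68 * K * (L / t) + L / t * (c₁ / 4) := by
    field_simp
    ring
  rw [h14] at h13
  have : 0 < L / t * (c₁ / 4) := by positivity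
  linarith

end Vale.Agent.P016.FE
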