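import Vale.Agent.P016.FE.Defs

/-!
# Few exceptional bases: module D (fixed prime bases), helper122

`FewStmt` for `m = 1`, `A = 1`, `x = 2^j` and double counting over `j < J`.
-/

open Finset Real

namespace Vale.Agent.P016.FE

/-- for large `j` at most `C s` elements of `S` are bad -/
theorem dens_aux {c C : ℝ} (hc : 0 < c)
    (hF : ∃ x₀ : ℕ, ∀ x : ℕ, x₀ ≤ x →
      ∀ s : ℝ, 1 ≤ s → s ≤ √(log x) → ∀ m : ℤ, m ≠ 0 → |(m : ℝ)| ≤ (log x) ^ (1 : ℝ) →
      (by classical exact (((range (⌊(log x) ^ (1 : ℝ)⌋₊ + 1)).filter (fun l : ℕ => l.Prime ∧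
        ¬ (l : ℤ) ∣ m ∧ (artinCount (m * l) x : ℝ) < c * s * (x / (log x) ^ 2))).card : ℝ)) ≤
        C * s)
    {M : ℝ} {s : ℝ} (hs1 : 1 ≤ s) (hsM : M * (log 2) ^ 2 / c ≤ s)
    (S : Finset ℕ) (hS : ∀ l ∈ S, l.Prime) :
    ∃ j₀ : ℕ, ∀ j : ℕ, j₀ ≤ j →
      (by classical exact ((S.filter (fun l : ℕ =>
        (artinCount l (2 ^ j) : ℝ) < M * (2 ^ j / (j : ℝ) ^ 2))).card : ℝ)) ≤ C * s := by
  classical
  obtain ⟨x₀, hx₀⟩ := hF
  have hl2 : 0 < log 2 := log_pos (by norm_num)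
  obtain ⟨N, hN⟩ := exists_nat_ge ((s ^ 2 + (S.sup id : ℕ) + 1) / log 2)
  refine ⟨N + x₀ + 1, fun j hj => ?_⟩
  have hjN : (N : ℝ) ≤ j := by exact_mod_cast (show N ≤ j by omega)
  have hj1 : (1 : ℝ) ≤ j := by exact_mod_cast (show 1 ≤ j by omega)
  have hj0 : (0 : ℝ) < j := by linarith
  have hjx : x₀ ≤ 2 ^ j := by
    have := Nat.lt_two_pow_self (n := j)
    omega
  have hlog : log ((2 ^ j : ℕ) : ℝ) = j * log 2 := by
    push_cast
    rw [log_pow]
  have hbig : s ^ 2 + (S.sup id : ℕ) + 1 ≤ j * log 2 := by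
    have := hN.trans hjN
    rwa [div_le_iff₀ hl2] at this
  have hsup0 : (0 : ℝ) ≤ (S.sup id : ℕ) := Nat.cast_nonneg _
  have key := hx₀ (2 ^ j) hjx s hs1 (by
    rw [hlog]
    refine Real.le_sqrt_of_sq_le ?_
    linarith) 1 one_ne_zero (by
    rw [hlog, rpow_one]
    simp only [Int.cast_one, abs_one]
    nlinarith [sq_nonneg s])
  refine le_trans ?_ key
  have hsub : (S.filter (fun l : ℕ => (artinCount l (2 ^ j) : ℝ) < M * (2 ^ j / (j : ℝ) ^ 2))) ⊆
      ((range (⌊(log ((2 ^ j : ℕ) : ℝ)) ^ (1 : ℝ)⌋₊ + 1)).filter (fun l : ℕ => l.Prime ∧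
        ¬ (l : ℤ) ∣ (1 : ℤ) ∧ (artinCount (1 * l) (2 ^ j) : ℝ) <
          c * s * (((2 ^ j : ℕ) : ℝ) / (log ((2 ^ j : ℕ) : ℝ)) ^ 2))) := by
    intro l hl
    rw [Finset.mem_filter] at hl
    obtain ⟨hlS, hlb⟩ := hl
    rw [Finset.mem_filter, Finset.mem_range]
    refine ⟨?_, hS l hlS, ?_, ?_⟩
    · have h1 : l ≤ S.sup id := Finset.le_sup (f := id) hlS
      have h2 : (l : ℝ) ≤ (log ((2 ^ j : ℕ) : ℝ)) ^ (1 : ℝ) := by
        rw [hlog, rpow_one]
        have : (l : ℝ) ≤ (S.sup id : ℕ) := by exact_mod_cast h1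
        nlinarith [sq_nonneg s]
      exact Nat.lt_succ_of_le (Nat.le_floor h2)
    · intro hd
      have h1 : IsUnit (l : ℤ) := isUnit_of_dvd_one hd
      have h2 := (Nat.prime_iff_prime_int.1 (hS l hlS)).not_isUnit
      exact h2 h1
    · rw [one_mul, hlog]
      refine lt_of_lt_of_le hlb ?_
      push_cast
      have h1 : c * s * (2 ^ j / ((j : ℝ) * log 2) ^ 2) =
          (c * s / (log 2) ^ 2) * (2 ^ j / (j : ℝ) ^ 2) := by
        rw [mul_pow]
        field_simp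
      rw [h1]
      refine mul_le_mul_of_nonneg_right ?_ (by positivity)
      rw [le_div_iff₀ (by positivity)]
      rw [div_le_iff₀ hc] at hsM
      linarith
  have hcard := Finset.card_le_card hsub
  exact_mod_cast hcard

/-- module D -/
theorem dens (hF : FewStmt) : DensStmt := by
  classical
  obtain ⟨c, C, hc, hC, hF⟩ := hF
  refine ⟨C * (1 + (log 2) ^ 2 / c), by positivity, ?_⟩
  intro M δ hM hδ hδ1 S hS
  have hl2 : 0 < log 2 := log_pos (by norm_num)
  set s : ℝ := max 1 (M * (log 2) ^ 2 / c) with hs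
  have hs1 : 1 ≤ s := le_max_left _ _
  obtain ⟨j₀, hj₀⟩ := dens_aux hc (hF 1 one_pos) hs1 (le_max_right _ _) S
    (fun l hl => (hS l hl).1)
  -- a common `J₁`
  have hJ : ∀ l : ℕ, ∃ J₀ : ℕ, l ∈ S → ∀ J : ℕ, J₀ ≤ J →
      δ * J ≤ (((range J).filter (fun j : ℕ =>
        (artinCount l (2 ^ j) : ℝ) < M * (2 ^ j / (j : ℝ) ^ 2))).card : ℝ) := by
    intro l
    by_cases hl : l ∈ S
    · obtain ⟨J₀, h⟩ := (hS l hl).2
      exact ⟨J₀, fun _ J hJ => h J hJ⟩
    · exact ⟨0, fun h => absurd h hl⟩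
  choose J₀ hJ₀ using hJ
  set J₁ : ℕ := S.sup J₀ with hJ₁
  have main : ∀ J : ℕ, J₁ ≤ J → (S.card : ℝ) * (δ * J) ≤ j₀ * S.card + J * (C * s) := by
    intro J hJ
    have h1 : (S.card : ℝ) * (δ * J) ≤ ∑ l ∈ S, (((range J).filter (fun j : ℕ =>
        (artinCount l (2 ^ j) : ℝ) < M * (2 ^ j / (j : ℝ) ^ 2))).card : ℝ) := by
      rw [← nsmul_eq_mul, ← Finset.sum_const]
      exact Finset.sum_le_sum fun l hl => hJ₀ l hl J ((Finset.le_sup hl).trans hJ)
    have h2 : ∑ l ∈ S, (((range J).filter (fun j : ℕ =>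
        (artinCount l (2 ^ j) : ℝ) < M * (2 ^ j / (j : ℝ) ^ 2))).card : ℝ) =
        ∑ j ∈ range J, ((S.filter (fun l : ℕ =>
          (artinCount l (2 ^ j) : ℝ) < M * (2 ^ j / (j : ℝ) ^ 2))).card : ℝ) := by
      simp only [Finset.card_filter, Nat.cast_sum]
      exact Finset.sum_comm
    have h3 : ∀ j ∈ range J, ((S.filter (fun l : ℕ =>
          (artinCount l (2 ^ j) : ℝ) < M * (2 ^ j / (j : ℝ) ^ 2))).card : ℝ) ≤
        (if j < j₀ then (S.card : ℝ) else 0) + C * s := by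
      intro j _
      have hCs : 0 ≤ C * s := by positivity
      by_cases hj : j < j₀
      · rw [if_pos hj]
        have : ((S.filter (fun l : ℕ =>
          (artinCount l (2 ^ j) : ℝ) < M * (2 ^ j / (j : ℝ) ^ 2))).card : ℝ) ≤ S.card := by
          exact_mod_cast Finset.card_filter_le _ _
        linarith
      · rw [if_neg hj, zero_add]
        exact hj₀ j (not_lt.1 hj)
    have h4 : ∑ j ∈ range J, ((if j < j₀ then (S.card : ℝ) else 0) + C * s) ≤
        j₀ * S.card + J * (C * s) := by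
      rw [Finset.sum_add_distrib, Finset.sum_const, Finset.card_range, nsmul_eq_mul,
        ← Finset.sum_filter, Finset.sum_const, nsmul_eq_mul]
      have h5 : (((range J).filter (fun j => j < j₀)).card : ℝ) ≤ j₀ := by
        have h6 : (range J).filter (fun j => j < j₀) ⊆ range j₀ := by
          intro j hj
          exact Finset.mem_range.2 (Finset.mem_filter.1 hj).2
        have := Finset.card_le_card h6
        rw [Finset.card_range] at this
        exact_mod_cast this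
      have h7 := mul_le_mul_of_nonneg_right h5 (Nat.cast_nonneg (α := ℝ) S.card)
      linarith
    calc (S.card : ℝ) * (δ * J) ≤ _ := h1
      _ = _ := h2
      _ ≤ _ := Finset.sum_le_sum h3
      _ ≤ _ := h4
  have key : (S.card : ℝ) * δ ≤ C * s := by
    by_contra hcon
    push Not at hcon
    have hd : 0 < (S.card : ℝ) * δ - C * s := by linarith
    obtain ⟨n, hn⟩ := exists_nat_gt ((j₀ * S.card : ℝ) / ((S.card : ℝ) * δ - C * s))
    have h1 := main (max J₁ n) (le_max_left _ _)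
    have h2 : (n : ℝ) ≤ (max J₁ n : ℕ) := by exact_mod_cast le_max_right _ _
    rw [div_lt_iff₀ hd] at hn
    have h3 : (n : ℝ) * ((S.card : ℝ) * δ - C * s) ≤
        ((max J₁ n : ℕ) : ℝ) * ((S.card : ℝ) * δ - C * s) :=
      mul_le_mul_of_nonneg_right h2 hd.le
    nlinarith
  have hsle : s ≤ (1 + (log 2) ^ 2 / c) * M := by
    refine max_le ?_ ?_
    · have : 0 ≤ (log 2) ^ 2 / c := by positivity
      nlinarith
    · have : M * (log 2) ^ 2 / c = (log 2) ^ 2 / c * M := by ring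
      rw [this]
      nlinarith
  rw [le_div_iff₀ hδ]
  calc (S.card : ℝ) * δ ≤ C * s := key
    _ ≤ C * ((1 + (log 2) ^ 2 / c) * M) := mul_le_mul_of_nonneg_left hsle hC.le
    _ = _ := by ring

end Vale.Agent.P016.FE
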