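import Vale.Agent.P016.FE.Defs

/-!
# Module N: statement
-/

open Finset Real

namespace Vale.Agent.P016.FE

/-- module N (order of magnitude up to `log log x`, exceptional set `x^(C / log log x)`) -/
def NearStmt : Prop := ∃ c C : ℝ, 0 < c ∧ 0 < C ∧ ∀ A : ℝ, 0 < A → ∃ x₀ : ℕ, ∀ x : ℕ, x₀ ≤ x →
  (by classical exact (((range (⌊(x : ℝ) ^ A⌋₊ + 1)).filter (fun l : ℕ => l.Prime ∧
    (artinCount l x : ℝ) < c * (x / (log x * log (log x))))).card : ℝ)) ≤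
    exp (C * (log x / log (log x)))

/-- lower bound for `Pz` (= `pz_lower` of FE/L) -/
def PzStmt : Prop := ∃ κ c : ℝ, 0 < κ ∧ 0 < c ∧ ∃ x₀ : ℕ, ∀ x : ℕ, x₀ ≤ x → ∀ z : ℝ, 3 ≤ z →
    z ≤ (x : ℝ) ^ κ → c * (x / (log x * log z)) ≤ ((Pz x z).card : ℝ)

/-- module N with a parameter (`s = log x / log log x` is `NearStmt`) -/
def NearSStmt : Prop := ∃ c C : ℝ, 0 < c ∧ 0 < C ∧ ∀ A : ℝ, 0 < A → ∃ x₀ : ℕ, ∀ x : ℕ, x₀ ≤ x →
  ∀ s : ℝ, √(log x) ≤ s → s ≤ log x / log (log x) →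
  (by classical exact (((range (⌊(x : ℝ) ^ A⌋₊ + 1)).filter (fun l : ℕ => l.Prime ∧
    (artinCount l x : ℝ) < c * s * (x / (log x) ^ 2))).card : ℝ)) ≤ exp (C * s)

end Vale.Agent.P016.FE
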