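import Vale.Agent.P016.FE.Defs

/-!
# Module F: few exceptions among the bases `m l`, `l` prime
-/

open Finset Real Filter

namespace Vale.Agent.P016.FE

namespace FM

lemma ev_log_rpow (a B δ : ℝ) (hδ : 0 < δ) : ∀ᶠ x : ℕ in atTop, B * (log x) ^ a ≤ (x : ℝ) ^ δ := by
  have h1 := (isLittleO_log_rpow_rpow_atTop a hδ).def (c := 1 / (|B| + 1)) (by positivity)
  have h2 := tendsto_natCast_atTop_atTop (R := ℝ) |>.eventually h1
  filter_upwards [h2, eventually_ge_atTop 1] with y hy hy1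
  have hy1' : (1 : ℝ) ≤ y := by exact_mod_cast hy1
  have hlog : 0 ≤ Real.log y := Real.log_nonneg hy1'
  rw [Real.norm_of_nonneg (Real.rpow_nonneg hlog a),
    Real.norm_of_nonneg (Real.rpow_nonneg (by linarith only [hy1']) δ)] at hy
  have h3 : 0 ≤ Real.log y ^ a := Real.rpow_nonneg hlog a
  have hB : B ≤ |B| + 1 := by
    have := le_abs_self B
    linarith only [this]
  calc B * Real.log y ^ a ≤ (|B| + 1) * Real.log y ^ a := mul_le_mul_of_nonneg_right hB h3
    _ ≤ (|B| + 1) * (1 / (|B| + 1) * (y : ℝ) ^ δ) :=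
        mul_le_mul_of_nonneg_left hy (by positivity)
    _ = (y : ℝ) ^ δ := by field_simp

lemma ev_log_ge (B : ℝ) : ∀ᶠ x : ℕ in atTop, B ≤ Real.log x :=
  (Real.tendsto_log_atTop.comp tendsto_natCast_atTop_atTop).eventually (eventually_ge_atTop B)

/-- `a * log L ≤ √L` for large `L = log x` -/
lemma ev_loglog (a : ℝ) : ∀ᶠ x : ℕ in atTop, a * log (log x) ≤ √(log x) := by
  have h1 := (isLittleO_log_rpow_atTop (show (0 : ℝ) < 1 / 2 by norm_num)).def
    (c := 1 / (|a| + 1)) (by positivity)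
  have h2 : Tendsto (fun x : ℕ => Real.log x) atTop atTop :=
    Real.tendsto_log_atTop.comp tendsto_natCast_atTop_atTop
  filter_upwards [h2.eventually h1, ev_log_ge 1] with x hx hx1
  have hL : 0 ≤ log (log x) := Real.log_nonneg hx1
  rw [Real.norm_of_nonneg hL, Real.norm_of_nonneg (Real.rpow_nonneg (by linarith) _),
    ← Real.sqrt_eq_rpow] at hx
  have ha : a ≤ |a| + 1 := by
    have := le_abs_self a
    linarith
  calc a * log (log x) ≤ (|a| + 1) * log (log x) := mul_le_mul_of_nonneg_right ha hL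
    _ ≤ (|a| + 1) * (1 / (|a| + 1) * √(log x)) := mul_le_mul_of_nonneg_left hx (by positivity)
    _ = √(log x) := by field_simp

/-- the bases `m l` are independent -/
lemma indep_ml (m : ℤ) (hm : m ≠ 0) (S : Finset ℕ) (hS : ∀ l ∈ S, l.Prime ∧ ¬ (l : ℤ) ∣ m) :
    Indep (S.image (fun l : ℕ => m * (l : ℤ))) := by
  classical
  intro u v huv a ha
  have hinj : Set.InjOn (fun l : ℕ => m * (l : ℤ)) (S : Set ℕ) := by
    intro l _ l' _ h
    have h1 : m * (l : ℤ) = m * (l' : ℤ) := h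
    have h2 := mul_left_cancel₀ hm h1
    exact_mod_cast h2
  rw [Finset.prod_image hinj, Finset.prod_image hinj] at huv
  have key : ∀ (w : ℤ → ℕ) (l : ℕ), l ∈ S →
      ((∏ l' ∈ S, (m * (l' : ℤ)) ^ w (m * l')).natAbs).factorization l = w (m * l) := by
    intro w l hl
    obtain ⟨hlp, hlm⟩ := hS l hl
    have h1 : (∏ l' ∈ S, (m * (l' : ℤ)) ^ w (m * l')).natAbs =
        ∏ l' ∈ S, (m.natAbs * l') ^ w (m * l') := by
      have := map_prod Int.natAbsHom (fun l' : ℕ => (m * (l' : ℤ)) ^ w (m * l')) S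
      simp only [Int.natAbsHom_apply] at this
      rw [this]
      refine Finset.prod_congr rfl fun l' _ => ?_
      rw [Int.natAbs_pow, Int.natAbs_mul, Int.natAbs_natCast]
    have hne : ∀ l' ∈ S, (m.natAbs * l') ^ w (m * l') ≠ 0 := by
      intro l' hl'
      apply pow_ne_zero
      exact Nat.mul_ne_zero (Int.natAbs_ne_zero.2 hm) (hS l' hl').1.ne_zero
    rw [h1, Nat.factorization_prod hne, Finsupp.finsetSum_apply]
    rw [Finset.sum_eq_single_of_mem l hl]
    · rw [Nat.factorization_pow, Nat.factorization_mul (Int.natAbs_ne_zero.2 hm) hlp.ne_zero]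
      simp only [Finsupp.smul_apply, Finsupp.add_apply, smul_eq_mul]
      rw [Nat.factorization_eq_zero_of_not_dvd (fun h => hlm (Int.natCast_dvd.2 h)),
        hlp.factorization_self]
      ring
    · intro l' hl' hll'
      have hl'p := (hS l' hl').1
      rw [Nat.factorization_pow, Nat.factorization_mul (Int.natAbs_ne_zero.2 hm) hl'p.ne_zero]
      simp only [Finsupp.smul_apply, Finsupp.add_apply, smul_eq_mul]
      rw [Nat.factorization_eq_zero_of_not_dvd (fun h => hlm (Int.natCast_dvd.2 h)),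
        Nat.factorization_eq_zero_of_not_dvd (fun h => hll'
          ((Nat.prime_dvd_prime_iff_eq hlp hl'p).1 h).symm)]
      ring
  rw [mem_image] at ha
  obtain ⟨l, hl, rfl⟩ := ha
  rw [← key u l hl, ← key v l hl, huv]

end FM

open FM in
set_option maxHeartbeats 1000000 in
theorem few (hCP : CPStmt) (hL : LStmt) : FewStmt := by
  classical
  obtain ⟨κ1, c₁, hκ1, hc₁, hL⟩ := hL
  obtain ⟨κ2, C, C₀, hκ2, hC, hC₀, hCP⟩ := hCP c₁ hc₁
  obtain ⟨κ, hκdef⟩ : ∃ κ, κ = min κ1 κ2 := ⟨_, rfl⟩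
  have hκ : 0 < κ := by rw [hκdef]; positivity
  obtain ⟨K, hKdef⟩ : ∃ K, K = 1 / (C₀ + 1) := ⟨_, rfl⟩
  have hK : 0 < K := by rw [hKdef]; positivity
  have hK1 : K ≤ 1 := by
    rw [hKdef, div_le_one (by positivity)]
    linarith
  have hKC : K * C₀ ≤ 1 := by
    rw [hKdef, one_div, inv_mul_le_iff₀ (by positivity)]
    linarith
  refine ⟨c₁ * K / 2, C * (K + 1 / κ) + 5, by positivity, by positivity, fun A hA => ?_⟩
  obtain ⟨x1, hL⟩ := hL (2 * A) (by positivity)
  obtain ⟨x2, hCP⟩ := hCP 1 one_pos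
  obtain ⟨x3, hx3⟩ := eventually_atTop.1 (((ev_log_rpow (2 * A) 1 1 (by norm_num)).and
    (ev_log_ge ((1 / (κ * K)) ^ 2 + 1))).and ((ev_loglog (2 * A + 2)).and
      (eventually_ge_atTop 3)))
  refine ⟨max (max x1 x2) x3, ?_⟩
  intro x hx s hs1 hs2 m hm hmA
  obtain ⟨⟨e1, e2⟩, e3, e4⟩ := hx3 x ((le_max_right _ _).trans hx)
  have hxx1 : x1 ≤ x := (le_max_left _ _).trans ((le_max_left _ _).trans hx)
  have hxx2 : x2 ≤ x := (le_max_right _ _).trans ((le_max_left _ _).trans hx)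
  rw [one_mul, Real.rpow_one] at e1
  have hx0 : (0 : ℝ) < x := by
    have : (3 : ℝ) ≤ x := by exact_mod_cast e4
    linarith
  have hx1 : (1 : ℝ) ≤ x := by
    have : (3 : ℝ) ≤ x := by exact_mod_cast e4
    linarith
  obtain ⟨L, hLdef⟩ : ∃ L, L = log x := ⟨_, rfl⟩
  rw [← hLdef] at hs2 hmA e1 e2 e3
  have hL1 : 1 ≤ L := by
    have : 0 ≤ (1 / (κ * K)) ^ 2 := by positivity
    linarith
  have hL0 : 0 < L := by linarith
  have hsq : √L * √L = L := Real.mul_self_sqrt hL0.le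
  have hsq0 : 0 < √L := Real.sqrt_pos.2 hL0
  -- sigma, w, z
  obtain ⟨σ, hσ⟩ : ∃ σ, σ = max s (1 / (κ * K)) := ⟨_, rfl⟩
  have hσs : s ≤ σ := by rw [hσ]; exact le_max_left _ _
  have hσκ : 1 / (κ * K) ≤ σ := by rw [hσ]; exact le_max_right _ _
  have hσL : σ ≤ √L := by
    rw [hσ]
    apply max_le hs2
    apply Real.le_sqrt_of_sq_le
    linarith
  have hσ0 : 0 < σ := by linarith
  obtain ⟨w, hw⟩ : ∃ w, w = K * σ := ⟨_, rfl⟩
  have hw0 : 0 < w := by rw [hw]; positivity
  have hwκ : 1 / κ ≤ w := by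
    rw [hw]
    have h1 : K * (1 / (κ * K)) = 1 / κ := by field_simp
    rw [← h1]
    exact mul_le_mul_of_nonneg_left hσκ hK.le
  obtain ⟨z, hz⟩ : ∃ z, z = exp (L / w) := ⟨_, rfl⟩
  have hz0 : 0 < z := by rw [hz]; exact Real.exp_pos _
  have hlz : log z = L / w := by rw [hz, Real.log_exp]
  have hzx : z ≤ (x : ℝ) ^ κ := by
    rw [hz, Real.rpow_def_of_pos hx0, ← hLdef]
    apply Real.exp_le_exp.2
    rw [div_le_iff₀ hw0]
    rw [div_le_iff₀ hκ] at hwκ
    nlinarith
  have hLw : √L ≤ L / w := by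
    rw [le_div_iff₀ hw0]
    have : w ≤ √L := by
      rw [hw]
      nlinarith
    nlinarith
  have hCw : C₀ * √L ≤ L / w := by
    rw [le_div_iff₀ hw0, hw]
    have h1 : C₀ * √L * (K * σ) = (K * C₀) * (√L * σ) := by ring
    rw [h1]
    have h2 : √L * σ ≤ L := by
      calc √L * σ ≤ √L * √L := mul_le_mul_of_nonneg_left hσL hsq0.le
        _ = L := hsq
    have h3 : 0 ≤ √L * σ := by positivity
    nlinarith
  have hzL : L ^ (2 * A + 2) ≤ z := by
    rw [hz, Real.rpow_def_of_pos hL0]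
    apply Real.exp_le_exp.2
    linarith
  have hLlz : L * log z = L ^ 2 / w := by
    rw [hlz]
    ring
  -- the exceptional set
  obtain ⟨S, hS⟩ : ∃ S, S = (range (⌊(log x) ^ A⌋₊ + 1)).filter (fun l : ℕ => l.Prime ∧
    ¬ (l : ℤ) ∣ m ∧ (artinCount (m * l) x : ℝ) < c₁ * K / 2 * s * (x / (log x) ^ 2)) := ⟨_, rfl⟩
  rw [← hS]
  obtain ⟨S5, hS5⟩ : ∃ S5, S5 = S.filter (fun l => 5 ≤ l) := ⟨_, rfl⟩
  have hSmem : ∀ l ∈ S, (l : ℝ) ≤ L ^ A ∧ l.Prime ∧ ¬ (l : ℤ) ∣ m ∧
      (artinCount (m * l) x : ℝ) < c₁ * K / 2 * s * (x / L ^ 2) := by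
    intro l hl
    rw [hS, mem_filter, mem_range, Nat.lt_succ_iff, ← hLdef] at hl
    refine ⟨?_, hl.2⟩
    exact (Nat.le_floor_iff (Real.rpow_nonneg hL0.le _)).1 hl.1
  have hcard : S.card ≤ S5.card + 5 := by
    have h1 : S ⊆ S5 ∪ range 5 := by
      intro l hl
      rw [mem_union, hS5, mem_filter, mem_range]
      by_cases h : 5 ≤ l
      · exact Or.inl ⟨hl, h⟩
      · exact Or.inr (by omega)
    have h2 := (Finset.card_le_card h1).trans (Finset.card_union_le _ _)
    rwa [card_range] at h2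
  obtain ⟨E, hE⟩ : ∃ E, E = S5.image (fun l : ℕ => m * (l : ℤ)) := ⟨_, rfl⟩
  have hEcard : E.card = S5.card := by
    rw [hE]
    apply Finset.card_image_of_injOn
    intro l _ l' _ h
    have h1 : m * (l : ℤ) = m * (l' : ℤ) := h
    have h2 := mul_left_cancel₀ hm h1
    exact_mod_cast h2
  have hind : Indep E := by
    rw [hE]
    apply indep_ml m hm
    intro l hl
    rw [hS5, mem_filter] at hl
    exact ⟨(hSmem l hl.1).2.1, (hSmem l hl.1).2.2.1⟩
  have hprod : ∀ l ∈ S, |(m : ℝ)| * l ≤ L ^ (2 * A) := by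
    intro l hl
    have h1 := (hSmem l hl).1
    have h2 : L ^ (2 * A) = L ^ A * L ^ A := by
      rw [← Real.rpow_add hL0]
      ring_nf
    rw [h2]
    exact mul_le_mul hmA h1 (Nat.cast_nonneg _) (Real.rpow_nonneg hL0.le _)
  have hmain := hCP x hxx2 z hz0 (by rw [← hLdef, hlz]; exact hCw)
    (hzx.trans (Real.rpow_le_rpow_of_exponent_le hx1 (by rw [hκdef]; exact min_le_right _ _))) E
    (by
      intro a ha
      rw [hE, mem_image] at ha
      obtain ⟨l, hl, rfl⟩ := ha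
      rw [hS5, mem_filter] at hl
      push_cast
      rw [abs_mul, Nat.abs_cast, Real.rpow_one]
      exact (hprod l hl.1).trans e1) hind
    (by
      intro a ha
      rw [hE, mem_image] at ha
      obtain ⟨l, hl, rfl⟩ := ha
      rw [hS5, mem_filter] at hl
      obtain ⟨g1, g2, g3, g4⟩ := hSmem l hl.1
      constructor
      · apply hL x hxx1 z (by rw [← hLdef]; exact hzL) (hzx.trans
          (Real.rpow_le_rpow_of_exponent_le hx1 (by rw [hκdef]; exact min_le_left _ _))) m l hm g2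
          hl.2 g3
        rw [← hLdef]
        exact hprod l hl.1
      · rw [← hLdef, hLlz]
        refine g4.le.trans ?_
        have h1 : c₁ * K / 2 * s * (x / L ^ 2) = c₁ / 2 * ((K * s) * (x / L ^ 2)) := by ring
        have h2 : c₁ / 2 * ((x : ℝ) / (L ^ 2 / w)) = c₁ / 2 * (w * (x / L ^ 2)) := by
          field_simp
        rw [h1, h2]
        apply mul_le_mul_of_nonneg_left _ (by positivity)
        apply mul_le_mul_of_nonneg_right _ (by positivity)
        rw [hw]
        exact mul_le_mul_of_nonneg_left hσs hK.le)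
  have hLz : log x / log z = w := by
    rw [← hLdef, hlz]
    field_simp
  rw [hLz, hEcard] at hmain
  have h1 : (S.card : ℝ) ≤ S5.card + 5 := by exact_mod_cast hcard
  have h2 : w ≤ (K + 1 / κ) * s := by
    have h3 : σ ≤ s + 1 / (κ * K) := by
      rw [hσ]
      have : 0 ≤ 1 / (κ * K) := by positivity
      apply max_le <;> linarith
    have h4 : w ≤ K * s + 1 / κ := by
      rw [hw]
      calc K * σ ≤ K * (s + 1 / (κ * K)) := mul_le_mul_of_nonneg_left h3 hK.le
        _ = K * s + 1 / κ := by field_simp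
    have h5 : 1 / κ ≤ 1 / κ * s := by
      have : 0 < 1 / κ := by positivity
      nlinarith
    linarith
  calc (S.card : ℝ) ≤ C * w + 5 := by linarith
    _ ≤ C * ((K + 1 / κ) * s) + 5 * s := by
        have := mul_le_mul_of_nonneg_left h2 hC.le
        linarith
    _ = (C * (K + 1 / κ) + 5) * s := by ring

end Vale.Agent.P016.FE
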