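import Mathlib
import Vale.Agent.P016.FE.Defs

/-!
# Module G3: counting primes by products of distinct elements of an independent set
-/

open Finset Real

namespace Vale.Agent.P016.FE

namespace GThree

theorem card_primeFactors_le (n k : ℕ) (hn : n ≠ 0) (h : n ≤ 2 ^ k) : n.primeFactors.card ≤ k := by
  have h1 : 2 ^ n.primeFactors.card ≤ n := by
    calc 2 ^ n.primeFactors.card = ∏ _p ∈ n.primeFactors, 2 := by rw [Finset.prod_const]
      _ ≤ ∏ p ∈ n.primeFactors, p :=
          Finset.prod_le_prod' (fun p hp => (Nat.prime_of_mem_primeFactors hp).two_le)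
      _ ≤ n := Nat.le_of_dvd (Nat.pos_of_ne_zero hn) (Nat.prod_primeFactors_dvd n)
  exact (Nat.pow_le_pow_iff_right (by norm_num)).1 (h1.trans h)

/-- Cauchy-Schwarz: number of coincidences of a map into a set with `K` elements -/
theorem coinc {ι κ : Type*} [DecidableEq ι] [DecidableEq κ] (S : Finset ι) (T : Finset κ)
    (g : ι → κ) (hg : ∀ i ∈ S, g i ∈ T) :
    S.card ^ 2 ≤ T.card * ((S ×ˢ S).filter (fun q => g q.1 = g q.2)).card := by
  have h1 : S.card = ∑ t ∈ T, (S.filter (fun i => g i = t)).card :=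
    Finset.card_eq_sum_card_fiberwise hg
  have h2 : ((S ×ˢ S).filter (fun q => g q.1 = g q.2)).card =
      ∑ t ∈ T, (S.filter (fun i => g i = t)).card ^ 2 := by
    have h3 : ((S ×ˢ S).filter (fun q => g q.1 = g q.2)).card =
        ∑ t ∈ T, (((S ×ˢ S).filter (fun q => g q.1 = g q.2)).filter
          (fun q => g q.1 = t)).card := by
      refine Finset.card_eq_sum_card_fiberwise ?_
      intro q hq
      exact hg q.1 (Finset.mem_product.1 (Finset.mem_filter.1 hq).1).1
    rw [h3]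
    refine Finset.sum_congr rfl ?_
    intro t _
    rw [sq, ← Finset.card_product]
    congr 1
    ext q
    simp only [Finset.mem_filter, Finset.mem_product]
    constructor
    · rintro ⟨⟨⟨ha, hb⟩, he⟩, ht⟩
      exact ⟨⟨ha, ht⟩, hb, he ▸ ht⟩
    · rintro ⟨⟨ha, ht⟩, hb, hs⟩
      exact ⟨⟨⟨ha, hb⟩, ht.trans hs.symm⟩, ht⟩
  rw [h2, h1]
  exact sq_sum_le_card_mul_sum_sq

/-- distinct subsets of an independent set have distinct products -/
theorem prod_ne (E : Finset ℤ) (hE : Indep E) (F G : Finset ℤ) (hF : F ⊆ E) (hG : G ⊆ E)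
    (hne : F ≠ G) : (∏ a ∈ F, a) - (∏ a ∈ G, a) ≠ 0 := by
  classical
  intro h
  apply hne
  have hp : ∀ H : Finset ℤ, H ⊆ E → ∏ a ∈ H, a = ∏ a ∈ E, a ^ (if a ∈ H then 1 else 0) := by
    intro H hH
    rw [← Finset.prod_subset hH (fun a _ haH => by simp [haH])]
    refine Finset.prod_congr rfl ?_
    intro a ha
    simp [ha]
  have h1 := hE (fun a => if a ∈ F then 1 else 0) (fun a => if a ∈ G then 1 else 0) (by
    have h2 := sub_eq_zero.1 h
    rw [hp F hF, hp G hG] at h2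
    exact h2)
  ext a
  by_cases haE : a ∈ E
  · have h2 := h1 a haE
    by_cases haF : a ∈ F
    · by_cases haG : a ∈ G
      · exact ⟨fun _ => haG, fun _ => haF⟩
      · rw [if_pos haF, if_neg haG] at h2
        exact absurd h2 one_ne_zero
    · by_cases haG : a ∈ G
      · rw [if_neg haF, if_pos haG] at h2
        exact absurd h2 zero_ne_one
      · exact ⟨fun h => absurd h haF, fun h => absurd h haG⟩
  · constructor
    · intro ha; exact absurd (hF ha) haE
    · intro ha; exact absurd (hG ha) haE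

theorem prod_bd (F : Finset ℤ) (l : ℕ) (hF : ∀ a ∈ F, a.natAbs ≤ 2 ^ (l + 1)) :
    (∏ a ∈ F, a).natAbs ≤ 2 ^ (F.card * (l + 1)) := by
  classical
  have h1 : (∏ a ∈ F, a).natAbs = ∏ a ∈ F, a.natAbs :=
    map_prod Int.natAbsHom (fun a : ℤ => a) F
  rw [h1]
  calc ∏ a ∈ F, a.natAbs ≤ ∏ _a ∈ F, 2 ^ (l + 1) := Finset.prod_le_prod' hF
    _ = 2 ^ (F.card * (l + 1)) := by
        rw [Finset.prod_const, ← pow_mul, mul_comm]

/-- for one prime: many coinciding pairs -/
theorem pairs (E : Finset ℤ) (x m α p r : ℕ) (ρ : ℝ) (hρ : 0 < ρ)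
    (hα : 2 * (x : ℝ) / ρ ≤ (α.choose m : ℝ)) (hp : p.Prime) (hpx : p ≤ x) (hr : r.Prime)
    (hρr : ρ ≤ r) (hrd : r ∣ p - 1) (hm : α ≤ mres E p r) :
    (α.choose m : ℝ) ^ 2 * ρ ≤ 2 * x *
      (((E.powersetCard m ×ˢ E.powersetCard m).filter (fun q : Finset ℤ × Finset ℤ =>
        q.1 ≠ q.2 ∧ p ∣ ((∏ a ∈ q.1, a) - (∏ a ∈ q.2, a)).natAbs)).card : ℝ) := by
  classical
  have : Fact p.Prime := ⟨hp⟩
  have hpos : 0 < p - 1 := Nat.sub_pos_of_lt hp.one_lt
  have hn0 : 0 < (p - 1) / r := Nat.div_pos (Nat.le_of_dvd hpos hrd) hr.pos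
  unfold mres at hm
  obtain ⟨S, hS1, hS2⟩ := Finset.exists_subset_card_eq hm
  have hSE : S ⊆ E := hS1.trans (Finset.filter_subset _ _)
  have hres : ∀ a ∈ S, Res p r a := fun a ha => (Finset.mem_filter.1 (hS1 ha)).2
  have h1 := coinc (S.powersetCard m) (Polynomial.nthRoots ((p - 1) / r) (1 : ZMod p)).toFinset
    (fun F => ∏ a ∈ F, ((a : ℤ) : ZMod p)) (by
      intro F hF
      have hFS := (Finset.mem_powersetCard.1 hF).1
      rw [Multiset.mem_toFinset, Polynomial.mem_nthRoots hn0, ← Finset.prod_pow]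
      refine Finset.prod_eq_one ?_
      intro a ha
      exact hres a (hFS ha))
  rw [Finset.card_powersetCard, hS2] at h1
  set N := α.choose m with hN
  set P := ((S.powersetCard m ×ˢ S.powersetCard m).filter
    (fun q => (∏ a ∈ q.1, ((a : ℤ) : ZMod p)) = ∏ a ∈ q.2, ((a : ℤ) : ZMod p))) with hP
  set Q := ((E.powersetCard m ×ˢ E.powersetCard m).filter (fun q : Finset ℤ × Finset ℤ =>
        q.1 ≠ q.2 ∧ p ∣ ((∏ a ∈ q.1, a) - (∏ a ∈ q.2, a)).natAbs)) with hQ
  have h2 : P.card ≤ N + Q.card := by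
    have hsub : P ⊆ (S.powersetCard m).image (fun F => (F, F)) ∪ Q := by
      intro q hq
      rw [hP, Finset.mem_filter, Finset.mem_product] at hq
      rw [Finset.mem_union]
      by_cases he : q.1 = q.2
      · left
        rw [Finset.mem_image]
        exact ⟨q.1, hq.1.1, Prod.ext rfl he⟩
      · right
        rw [hQ, Finset.mem_filter, Finset.mem_product]
        refine ⟨⟨Finset.powersetCard_mono hSE hq.1.1, Finset.powersetCard_mono hSE hq.1.2⟩,
          he, ?_⟩
        rw [← Int.natCast_dvd_natCast, Int.dvd_natAbs, ← ZMod.intCast_zmod_eq_zero_iff_dvd]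
        push_cast
        rw [sub_eq_zero]
        exact hq.2
    refine (Finset.card_le_card hsub).trans ((Finset.card_union_le _ _).trans ?_)
    refine Nat.add_le_add_right ?_ _
    refine Finset.card_image_le.trans ?_
    rw [Finset.card_powersetCard, hS2]
  have h3 : ((Polynomial.nthRoots ((p - 1) / r) (1 : ZMod p)).toFinset.card : ℝ) ≤ x / ρ := by
    have h4 : (Polynomial.nthRoots ((p - 1) / r) (1 : ZMod p)).toFinset.card ≤ (p - 1) / r :=
      (Multiset.toFinset_card_le _).trans (Polynomial.card_nthRoots _ 1)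
    calc ((Polynomial.nthRoots ((p - 1) / r) (1 : ZMod p)).toFinset.card : ℝ)
        ≤ (((p - 1) / r : ℕ) : ℝ) := by exact_mod_cast h4
      _ ≤ ((p - 1 : ℕ) : ℝ) / (r : ℝ) := Nat.cast_div_le
      _ ≤ (x : ℝ) / (r : ℝ) := by
          gcongr
          omega
      _ ≤ (x : ℝ) / ρ := by gcongr
  have h5 : (N : ℝ) ^ 2 ≤ x / ρ * (N + Q.card) := by
    calc (N : ℝ) ^ 2 ≤
        ((Polynomial.nthRoots ((p - 1) / r) (1 : ZMod p)).toFinset.card : ℝ) * (P.card : ℝ) := by
          exact_mod_cast h1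
      _ ≤ x / ρ * (N + Q.card) := by
          gcongr
          exact_mod_cast h2
  have hx0 : (0 : ℝ) ≤ x := Nat.cast_nonneg x
  have h6 : (N : ℝ) ^ 2 * ρ ≤ x * (N + Q.card) := by
    have := mul_le_mul_of_nonneg_right h5 hρ.le
    calc (N : ℝ) ^ 2 * ρ ≤ x / ρ * (N + Q.card) * ρ := this
      _ = x * (N + Q.card) := by field_simp
  have h7 : 2 * (x : ℝ) ≤ N * ρ := by
    have := mul_le_mul_of_nonneg_right hα hρ.le
    calc 2 * (x : ℝ) = 2 * (x : ℝ) / ρ * ρ := by field_simp
      _ ≤ N * ρ := this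
  have hN0 : (0 : ℝ) ≤ N := Nat.cast_nonneg N
  nlinarith [mul_le_mul_of_nonneg_right h7 hN0]

end GThree

open GThree in
theorem gm3 : GM3Stmt := by
  classical
  intro E Y hY hE x m α ρ hm hρ hα
  set l := Nat.log 2 Y with hl
  have hY' : ∀ a ∈ E, a.natAbs ≤ 2 ^ (l + 1) := fun a ha =>
    (hY a ha).trans (Nat.lt_pow_succ_log_self (by norm_num) Y).le
  set PP := E.powersetCard m ×ˢ E.powersetCard m with hPP
  set R : ℕ → Finset ℤ × Finset ℤ → Prop := fun p q =>
    q.1 ≠ q.2 ∧ p ∣ ((∏ a ∈ q.1, a) - (∏ a ∈ q.2, a)).natAbs with hR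
  have h1 : ∀ p ∈ Gb x ρ E α, (α.choose m : ℝ) ^ 2 * ρ ≤
      2 * x * ((PP.filter (fun q => R p q)).card : ℝ) := by
    intro p hp
    unfold Gb at hp
    simp only [Finset.mem_filter, Finset.mem_range] at hp
    obtain ⟨hpx, hpp, r, hr, hρr, hrd, hmr⟩ := hp
    exact pairs E x m α p r ρ hρ hα hpp (by omega) hr hρr hrd hmr
  have h2 : ∀ q ∈ PP, (((Gb x ρ E α).filter (fun p => R p q)).card : ℝ) ≤
      m * ((l : ℝ) + 1) + 1 := by
    intro q hq
    rw [hPP, Finset.mem_product] at hq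
    obtain ⟨hq1, hq2⟩ := hq
    obtain ⟨hq1E, hq1m⟩ := Finset.mem_powersetCard.1 hq1
    obtain ⟨hq2E, hq2m⟩ := Finset.mem_powersetCard.1 hq2
    by_cases he : q.1 = q.2
    · have : (Gb x ρ E α).filter (fun p => R p q) = ∅ := by
        rw [Finset.filter_eq_empty_iff]
        intro p _ h
        exact h.1 he
      rw [this]
      simp only [Finset.card_empty, Nat.cast_zero]
      positivity
    · have hne := prod_ne E hE q.1 q.2 hq1E hq2E he
      have hne' : ((∏ a ∈ q.1, a) - (∏ a ∈ q.2, a)).natAbs ≠ 0 := Int.natAbs_ne_zero.2 hne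
      have hb1 := prod_bd q.1 l (fun a ha => hY' a (hq1E ha))
      have hb2 := prod_bd q.2 l (fun a ha => hY' a (hq2E ha))
      rw [hq1m] at hb1
      rw [hq2m] at hb2
      have hb : ((∏ a ∈ q.1, a) - (∏ a ∈ q.2, a)).natAbs ≤ 2 ^ (m * (l + 1) + 1) := by
        have : ((∏ a ∈ q.1, a) - (∏ a ∈ q.2, a)).natAbs ≤
          (∏ a ∈ q.1, a).natAbs + (∏ a ∈ q.2, a).natAbs := by omega
        rw [pow_succ]
        omega
      have hc := card_primeFactors_le _ _ hne' hb
      have hsub : (Gb x ρ E α).filter (fun p => R p q) ⊆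
          ((∏ a ∈ q.1, a) - (∏ a ∈ q.2, a)).natAbs.primeFactors := by
        intro p hp
        rw [Finset.mem_filter] at hp
        have hpG := hp.1
        unfold Gb at hpG
        simp only [Finset.mem_filter, Finset.mem_range] at hpG
        rw [Nat.mem_primeFactors]
        exact ⟨hpG.2.1, hp.2.2, hne'⟩
      have := (Finset.card_le_card hsub).trans hc
      calc (((Gb x ρ E α).filter (fun p => R p q)).card : ℝ) ≤ ((m * (l + 1) + 1 : ℕ) : ℝ) := by
            exact_mod_cast this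
        _ = m * ((l : ℝ) + 1) + 1 := by push_cast; ring
  have h3 : (∑ p ∈ Gb x ρ E α, ((PP.filter (fun q => R p q)).card : ℝ)) =
      ∑ q ∈ PP, (((Gb x ρ E α).filter (fun p => R p q)).card : ℝ) := by
    exact_mod_cast Finset.sum_card_bipartiteAbove_eq_sum_card_bipartiteBelow R
  have h4 : (PP.card : ℝ) = (E.card.choose m : ℝ) ^ 2 := by
    rw [hPP, Finset.card_product, Finset.card_powersetCard]
    push_cast
    ring
  calc ((Gb x ρ E α).card : ℝ) * (α.choose m : ℝ) ^ 2 * ρ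
      = ∑ _p ∈ Gb x ρ E α, ((α.choose m : ℝ) ^ 2 * ρ) := by
        rw [Finset.sum_const, nsmul_eq_mul]
        ring
    _ ≤ ∑ p ∈ Gb x ρ E α, 2 * x * ((PP.filter (fun q => R p q)).card : ℝ) :=
        Finset.sum_le_sum h1
    _ = 2 * x * ∑ q ∈ PP, (((Gb x ρ E α).filter (fun p => R p q)).card : ℝ) := by
        rw [← Finset.mul_sum, h3]
    _ ≤ 2 * x * ∑ _q ∈ PP, (m * ((l : ℝ) + 1) + 1) := by
        gcongr with q hq
        exact h2 q hq
    _ = 2 * x * (E.card.choose m : ℝ) ^ 2 * (m * ((l : ℝ) + 1) + 1) := by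
        rw [Finset.sum_const, nsmul_eq_mul, h4]
        ring

end Vale.Agent.P016.FE
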