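import Mathlib
import Vale.Agent.P016.FE.Defs

/-!
# Module I: almost all integers
-/

open Finset Real Filter Topology

namespace Vale.Agent.P016.FE.IntMod

/-- Mertens' upper bound with a crude constant -/
lemma mert (N : ℕ) :
    ∑ p ∈ (range (N + 1)).filter Nat.Prime, Real.log p / ((p : ℝ) - 1) ≤ 4 * Real.log N := by
  rcases Nat.eq_zero_or_pos N with rfl | hN
  · simp [Finset.sum_filter]
  have hN' : (0 : ℝ) < N := by exact_mod_cast hN
  have h1 : Real.log (N.factorial : ℝ) ≤ N * Real.log N := by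
    rw [← Real.log_pow]
    apply Real.log_le_log
    · exact_mod_cast Nat.factorial_pos N
    · exact_mod_cast Nat.factorial_le_pow N
  have h2 : ∑ p ∈ (range (N + 1)).filter Nat.Prime, (N / (2 * p) : ℝ) * Real.log p ≤
      Real.log (N.factorial : ℝ) := by
    rw [Real.log_nat_eq_sum_factorization, Finsupp.sum]
    have hsub : (range (N + 1)).filter Nat.Prime ⊆ N.factorial.factorization.support := by
      intro p hp
      rw [mem_filter, mem_range] at hp
      rw [Nat.support_factorization, Nat.mem_primeFactors]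
      exact ⟨hp.2, hp.2.dvd_factorial.2 (by omega), Nat.factorial_ne_zero N⟩
    refine (Finset.sum_le_sum (g := fun p : ℕ => ((N.factorial.factorization p : ℕ) : ℝ) *
      Real.log p) ?_).trans (Finset.sum_le_sum_of_subset_of_nonneg hsub
      (fun p _ _ => mul_nonneg (Nat.cast_nonneg _) (Real.log_natCast_nonneg p)))
    · intro p hp
      rw [mem_filter, mem_range] at hp
      apply mul_le_mul_of_nonneg_right _ (Real.log_natCast_nonneg p)
      have hp0 : 0 < p := hp.2.pos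
      have h3 : N / p ≤ N.factorial.factorization p := by
        rw [Nat.factorization_factorial hp.2 (Nat.lt_succ_self _)]
        have h4 : 1 ∈ Ico 1 (Nat.log p N).succ := by
          rw [mem_Ico]
          refine ⟨le_refl _, Nat.succ_lt_succ (Nat.log_pos hp.2.one_lt (by omega))⟩
        calc N / p = N / p ^ 1 := by rw [pow_one]
          _ ≤ _ := Finset.single_le_sum (f := fun i => N / p ^ i) (fun _ _ => Nat.zero_le _) h4
      have h5 : (N / (2 * p) : ℝ) ≤ ((N / p : ℕ) : ℝ) := by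
        have h6 : 1 ≤ N / p := (Nat.one_le_div_iff hp0).2 (by omega)
        have h7 : N < (N / p + 1) * p := by
          have := Nat.div_add_mod N p
          have h8 := Nat.mod_lt N hp0
          nlinarith
        have h9 : (N : ℝ) < ((N / p : ℕ) + 1) * p := by exact_mod_cast h7
        have h10 : (1 : ℝ) ≤ ((N / p : ℕ) : ℝ) := by exact_mod_cast h6
        have h11 : (0 : ℝ) < p := by exact_mod_cast hp0
        rw [div_le_iff₀ (by positivity)]
        nlinarith
      exact h5.trans (by exact_mod_cast h3)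
  have h3 : ∑ p ∈ (range (N + 1)).filter Nat.Prime, Real.log p / ((p : ℝ) - 1) ≤
      ∑ p ∈ (range (N + 1)).filter Nat.Prime, (4 / N : ℝ) * ((N / (2 * p) : ℝ) * Real.log p) := by
    apply Finset.sum_le_sum
    intro p hp
    rw [mem_filter, mem_range] at hp
    have hp2 : (2 : ℝ) ≤ p := by exact_mod_cast hp.2.two_le
    have h4 : (4 / N : ℝ) * ((N / (2 * p) : ℝ) * Real.log p) = (2 / p) * Real.log p := by
      field_simp
      ring
    rw [h4, div_eq_mul_inv, mul_comm (Real.log (p : ℝ))]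
    apply mul_le_mul_of_nonneg_right _ (Real.log_natCast_nonneg p)
    rw [inv_eq_one_div, div_le_div_iff₀ (by linarith) (by linarith)]
    linarith
  refine h3.trans ?_
  rw [← Finset.mul_sum]
  calc (4 / N : ℝ) * _ ≤ (4 / N : ℝ) * (N * Real.log N) := by
        apply mul_le_mul_of_nonneg_left (h2.trans h1) (by positivity)
    _ = 4 * Real.log N := by field_simp

/-- smooth numbers in `[√y, y]` -/
lemma smooth (y N : ℕ) (S : Finset ℕ) (hS : ∀ n ∈ S, 1 ≤ n ∧ n ≤ y ∧ √(y : ℝ) ≤ n ∧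
    ∀ p : ℕ, p.Prime → p ∣ n → p ≤ N) :
    (S.card : ℝ) * Real.log y ≤ 8 * y * Real.log N := by
  classical
  set P : ℕ := ∏ n ∈ S, n with hP
  have hPpos : 0 < P := Finset.prod_pos fun n hn => (hS n hn).1
  rcases Nat.eq_zero_or_pos y with rfl | hy
  · have : S = ∅ := by
      rw [Finset.eq_empty_iff_forall_notMem]
      intro n hn
      have := hS n hn
      omega
    simp [this]
  have hy' : (0 : ℝ) < y := by exact_mod_cast hy
  -- lower bound for `log P`
  have h1 : (S.card : ℝ) * (Real.log y / 2) ≤ Real.log P := by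
    rw [hP, Nat.cast_prod, Real.log_prod (fun n hn => by
      have := (hS n hn).1
      positivity), ← nsmul_eq_mul]
    apply Finset.card_nsmul_le_sum
    intro n hn
    have h2 := (hS n hn).2.2.1
    have h3 := Real.log_le_log (Real.sqrt_pos.2 hy') h2
    rwa [Real.log_sqrt hy'.le] at h3
  -- `P` divides `y!`
  have h2 : P ∣ y.factorial := by
    have h3 : y.factorial = ∏ n ∈ Ico 1 (y + 1), n := (Finset.prod_Ico_id_eq_factorial y).symm
    rw [h3]
    apply Finset.prod_dvd_prod_of_subset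
    intro n hn
    have := hS n hn
    rw [mem_Ico]
    omega
  have h3 : Real.log P ≤ ∑ p ∈ (range (N + 1)).filter Nat.Prime,
      y * (Real.log p / ((p : ℝ) - 1)) := by
    rw [Real.log_nat_eq_sum_factorization, Finsupp.sum]
    have h4 : P.factorization.support ⊆ (range (N + 1)).filter Nat.Prime := by
      intro p hp
      rw [Nat.support_factorization, Nat.mem_primeFactors] at hp
      rw [mem_filter, mem_range]
      refine ⟨?_, hp.1⟩
      rw [hP] at hp
      obtain ⟨n, hn, hpn⟩ := (Prime.dvd_finsetProd_iff hp.1.prime _).1 hp.2.1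
      have := (hS n hn).2.2.2 p hp.1 hpn
      omega
    have h6 : ∀ p ∈ (range (N + 1)).filter Nat.Prime,
        0 ≤ (y : ℝ) * (Real.log p / ((p : ℝ) - 1)) := by
      intro p hp
      rw [mem_filter] at hp
      have hp2 : (2 : ℝ) ≤ p := by exact_mod_cast hp.2.two_le
      exact mul_nonneg hy'.le (div_nonneg (Real.log_natCast_nonneg p) (by linarith))
    refine (Finset.sum_le_sum ?_).trans (Finset.sum_le_sum_of_subset_of_nonneg h4
      (fun p hp _ => h6 p hp))
    intro p hp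
    have hp' := hp
    rw [Nat.support_factorization, Nat.mem_primeFactors] at hp'
    have hp2 : (2 : ℝ) ≤ p := by exact_mod_cast hp'.1.two_le
    have h7 : P.factorization p ≤ y / (p - 1) :=
      ((Nat.factorization_le_iff_dvd hPpos.ne' (Nat.factorial_ne_zero y)).2 h2 p).trans
        (Nat.factorization_factorial_le_div_pred hp'.1 y)
    have h8 : ((y / (p - 1) : ℕ) : ℝ) ≤ y / ((p : ℝ) - 1) := by
      have := @Nat.cast_div_le ℝ _ _ _ y (p - 1)
      rwa [Nat.cast_sub hp'.1.one_le, Nat.cast_one] at this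
    calc ((P.factorization p : ℕ) : ℝ) * Real.log p ≤ (y / ((p : ℝ) - 1)) * Real.log p := by
          apply mul_le_mul_of_nonneg_right _ (Real.log_natCast_nonneg p)
          exact le_trans (by exact_mod_cast h7) h8
      _ = y * (Real.log p / ((p : ℝ) - 1)) := by ring
  rw [← Finset.mul_sum] at h3
  have h4 := mul_le_mul_of_nonneg_left (mert N) hy'.le
  linarith

open Classical in
lemma card_two (y : ℕ) (P : ℕ → Prop) :
    (((Icc (-(y : ℤ)) (y : ℤ)).filter (fun a : ℤ => a ≠ 0 ∧ P a.natAbs)).card : ℝ) ≤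
      2 * (((Icc 1 y).filter P).card : ℝ) := by
  have h : (Icc (-(y : ℤ)) (y : ℤ)).filter (fun a : ℤ => a ≠ 0 ∧ P a.natAbs) ⊆
      ((Icc 1 y).filter P).image (fun n : ℕ => (n : ℤ)) ∪
        ((Icc 1 y).filter P).image (fun n : ℕ => -(n : ℤ)) := by
    intro a ha
    rw [mem_filter, mem_Icc] at ha
    obtain ⟨⟨h1, h2⟩, h3, h4⟩ := ha
    have h5 : a.natAbs ∈ (Icc 1 y).filter P := by
      rw [mem_filter, mem_Icc]
      exact ⟨⟨by omega, by omega⟩, h4⟩
    rw [mem_union, mem_image, mem_image]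
    rcases le_or_gt 0 a with h6 | h6
    · left
      exact ⟨a.natAbs, h5, by omega⟩
    · right
      exact ⟨a.natAbs, h5, by omega⟩
  have h1 := (card_le_card h).trans (card_union_le _ _)
  have h2 := h1.trans (add_le_add card_image_le card_image_le)
  have h3 : ((Icc (-(y : ℤ)) (y : ℤ)).filter (fun a : ℤ => a ≠ 0 ∧ P a.natAbs)).card ≤
      2 * ((Icc 1 y).filter P).card := by omega
  exact_mod_cast h3

open Classical in
lemma card_sq (y N : ℕ) (hN : 1 ≤ N) :
    (((Icc 1 y).filter (fun n => ∃ l : ℕ, N < l ∧ l ^ 2 ∣ n)).card : ℝ) ≤ y / N := by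
  have hN' : (0 : ℝ) < N := by exact_mod_cast hN
  have h : (Icc 1 y).filter (fun n => ∃ l : ℕ, N < l ∧ l ^ 2 ∣ n) ⊆
      (Ioc N y).biUnion (fun l => (Ioc 0 y).filter (fun n => l ^ 2 ∣ n)) := by
    intro n hn
    rw [mem_filter, mem_Icc] at hn
    obtain ⟨⟨h1, h2⟩, l, h3, h4⟩ := hn
    rw [mem_biUnion]
    refine ⟨l, ?_, ?_⟩
    · rw [mem_Ioc]
      refine ⟨h3, ?_⟩
      have := Nat.le_of_dvd (by omega) h4
      nlinarith
    · rw [mem_filter, mem_Ioc]
      exact ⟨⟨by omega, h2⟩, h4⟩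
  have h1 := (card_le_card h).trans card_biUnion_le
  have h2 : (((Icc 1 y).filter (fun n => ∃ l : ℕ, N < l ∧ l ^ 2 ∣ n)).card : ℝ) ≤
      ∑ l ∈ Ioc N y, (y : ℝ) * ((l : ℝ) ^ 2)⁻¹ := by
    calc (((Icc 1 y).filter (fun n => ∃ l : ℕ, N < l ∧ l ^ 2 ∣ n)).card : ℝ) ≤
        ((∑ l ∈ Ioc N y, ((Ioc 0 y).filter (fun n => l ^ 2 ∣ n)).card : ℕ) : ℝ) := by
          exact_mod_cast h1
      _ = ∑ l ∈ Ioc N y, ((y / l ^ 2 : ℕ) : ℝ) := by
          push_cast
          apply Finset.sum_congr rfl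
          intro l _
          rw [Nat.Ioc_filter_dvd_card_eq_div]
      _ ≤ _ := by
          apply Finset.sum_le_sum
          intro l _
          have := @Nat.cast_div_le ℝ _ _ _ y (l ^ 2)
          rw [Nat.cast_pow] at this
          rw [← div_eq_mul_inv]
          exact this
  rcases le_or_gt N y with h3 | h3
  · rw [← Finset.mul_sum] at h2
    have h4 := sum_Ioc_inv_sq_le_sub (α := ℝ) (by omega : N ≠ 0) h3
    have h5 : (0 : ℝ) ≤ (y : ℝ)⁻¹ := by positivity
    calc _ ≤ _ := h2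
      _ ≤ (y : ℝ) * (N : ℝ)⁻¹ := by
        apply mul_le_mul_of_nonneg_left _ (Nat.cast_nonneg y)
        linarith
      _ = y / N := by rw [div_eq_mul_inv]
  · rw [Finset.Ioc_eq_empty (by omega), Finset.sum_empty] at h2
    exact h2.trans (by positivity)

open Classical in
/-- the counting argument -/
lemma count (x y N R : ℕ) (hN : 1 ≤ N) (hR : y ≤ R) (B K : ℝ) (hK : 0 ≤ K)
    (hB : ∀ m : ℤ, m ≠ 0 → |m| ≤ y → (((range (R + 1)).filter (fun l : ℕ => l.Prime ∧
      ¬ (l : ℤ) ∣ m ∧ (artinCount (m * l) x : ℝ) < B)).card : ℝ) ≤ K) :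
    (((Icc (-(y : ℤ)) (y : ℤ)).filter (fun a : ℤ => (artinCount a x : ℝ) < B)).card : ℝ) ≤
      1 + 2 * √(y : ℝ) + 2 * (((Icc 1 y).filter (fun n : ℕ => √(y : ℝ) ≤ n ∧
        ∀ p : ℕ, p.Prime → p ∣ n → p ≤ N)).card : ℝ) + 2 * (y / N) + 2 * (y / N) * K := by
  have hN' : (0 : ℝ) < N := by exact_mod_cast hN
  set I := Icc (-(y : ℤ)) (y : ℤ) with hI
  set S1 : Finset ℤ := I.filter (fun a : ℤ => a ≠ 0 ∧ ((a.natAbs : ℕ) : ℝ) < √(y : ℝ)) with hS1
  set S2 : Finset ℤ := I.filter (fun a : ℤ => a ≠ 0 ∧ (√(y : ℝ) ≤ (a.natAbs : ℕ) ∧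
        ∀ p : ℕ, p.Prime → p ∣ a.natAbs → p ≤ N)) with hS2
  set S3 : Finset ℤ := I.filter (fun a : ℤ => a ≠ 0 ∧ ∃ l : ℕ, N < l ∧ l ^ 2 ∣ a.natAbs) with hS3
  set Ms : Finset ℤ := (Icc (-((y / N : ℕ) : ℤ)) ((y / N : ℕ) : ℤ)).filter
    (fun a : ℤ => a ≠ 0 ∧ (fun _ => True) a.natAbs) with hMs
  set G : ℤ → Finset ℕ := fun m => (range (R + 1)).filter (fun l : ℕ => l.Prime ∧
      ¬ (l : ℤ) ∣ m ∧ (artinCount (m * l) x : ℝ) < B) with hG
  set S4 : Finset ℤ := Ms.biUnion (fun m => (G m).image (fun l : ℕ => m * l)) with hS4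
  have hsub : I.filter (fun a : ℤ => (artinCount a x : ℝ) < B) ⊆
      {0} ∪ (S1 ∪ (S2 ∪ (S3 ∪ S4))) := by
    intro a ha
    rw [mem_filter] at ha
    obtain ⟨haI, haB⟩ := ha
    simp only [mem_union, mem_singleton]
    by_cases h0 : a = 0
    · exact Or.inl h0
    right
    by_cases h1 : ((a.natAbs : ℕ) : ℝ) < √(y : ℝ)
    · left
      rw [hS1, mem_filter]
      exact ⟨haI, h0, h1⟩
    right
    by_cases h2 : ∀ p : ℕ, p.Prime → p ∣ a.natAbs → p ≤ N
    · left
      rw [hS2, mem_filter]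
      exact ⟨haI, h0, not_lt.1 h1, h2⟩
    right
    push Not at h2
    obtain ⟨l, hl, hla, hlN⟩ := h2
    by_cases h3 : l ^ 2 ∣ a.natAbs
    · left
      rw [hS3, mem_filter]
      exact ⟨haI, h0, l, hlN, h3⟩
    right
    rw [hS4, mem_biUnion]
    obtain ⟨m, hm⟩ := Int.natCast_dvd.2 hla
    rw [hI, mem_Icc] at haI
    have hay : a.natAbs ≤ y := by omega
    have hm0 : m ≠ 0 := by
      rintro rfl
      simp at hm
      exact h0 hm
    have hma : m.natAbs * l = a.natAbs := by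
      rw [hm, Int.natAbs_mul, Int.natAbs_natCast, mul_comm]
    have hmN : m.natAbs ≤ y / N := by
      rw [Nat.le_div_iff_mul_le (by omega)]
      calc m.natAbs * N ≤ m.natAbs * l := Nat.mul_le_mul_left _ hlN.le
        _ = a.natAbs := hma
        _ ≤ y := hay
    have hly : l ≤ y := by
      have h5 : 1 ≤ m.natAbs := by omega
      calc l = 1 * l := (one_mul l).symm
        _ ≤ m.natAbs * l := Nat.mul_le_mul_right _ h5
        _ = a.natAbs := hma
        _ ≤ y := hay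
    refine ⟨m, ?_, ?_⟩
    · rw [hMs, mem_filter, mem_Icc]
      refine ⟨⟨by omega, by omega⟩, hm0, trivial⟩
    · rw [mem_image]
      refine ⟨l, ?_, by rw [hm, mul_comm]⟩
      rw [hG]
      simp only [mem_filter, mem_range]
      refine ⟨by omega, hl, ?_, ?_⟩
      · intro h6
        apply h3
        rw [← hma, pow_two]
        exact Nat.mul_dvd_mul_right (Int.natCast_dvd.1 h6) _
      · rwa [mul_comm, ← hm]
  have hc := (card_le_card hsub).trans ((card_union_le _ _).trans (add_le_add_right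
    ((card_union_le _ _).trans (add_le_add_right ((card_union_le _ _).trans (add_le_add_right
      (card_union_le _ _) _)) _)) _))
  rw [card_singleton] at hc
  have hc' : ((I.filter (fun a : ℤ => (artinCount a x : ℝ) < B)).card : ℝ) ≤
      1 + ((S1.card : ℝ) + ((S2.card : ℝ) + ((S3.card : ℝ) + (S4.card : ℝ)))) := by
    exact_mod_cast hc
  have h1 : (S1.card : ℝ) ≤ 2 * √(y : ℝ) := by
    refine (card_two y (fun n => ((n : ℕ) : ℝ) < √(y : ℝ))).trans ?_
    have h5 : (Icc 1 y).filter (fun n : ℕ => (n : ℝ) < √(y : ℝ)) ⊆ Icc 1 ⌊√(y : ℝ)⌋₊ := by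
      intro n hn
      rw [mem_filter, mem_Icc] at hn
      rw [mem_Icc]
      exact ⟨hn.1.1, Nat.le_floor hn.2.le⟩
    have h6 := card_le_card h5
    rw [Nat.card_Icc] at h6
    have h7 : (((Icc 1 y).filter (fun n : ℕ => (n : ℝ) < √(y : ℝ))).card : ℝ) ≤ ⌊√(y : ℝ)⌋₊ := by
      exact_mod_cast (by omega : ((Icc 1 y).filter (fun n : ℕ => (n : ℝ) < √(y : ℝ))).card ≤
        ⌊√(y : ℝ)⌋₊)
    have h8 := Nat.floor_le (Real.sqrt_nonneg (y : ℝ))
    linarith
  have h2 : (S2.card : ℝ) ≤ 2 * (((Icc 1 y).filter (fun n : ℕ => √(y : ℝ) ≤ n ∧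
        ∀ p : ℕ, p.Prime → p ∣ n → p ≤ N)).card : ℝ) := by
    convert card_two y (fun n => √(y : ℝ) ≤ n ∧ ∀ p : ℕ, p.Prime → p ∣ n → p ≤ N)
  have h3 : (S3.card : ℝ) ≤ 2 * (y / N) := by
    refine (card_two y (fun n => ∃ l : ℕ, N < l ∧ l ^ 2 ∣ n)).trans ?_
    have := card_sq y N hN
    linarith
  have h4 : (S4.card : ℝ) ≤ 2 * (y / N) * K := by
    have h5 : (S4.card : ℝ) ≤ ∑ m ∈ Ms, ((G m).card : ℝ) := by
      have h6 : S4.card ≤ ∑ m ∈ Ms, (G m).card :=
        card_biUnion_le.trans (Finset.sum_le_sum fun m _ => card_image_le)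
      exact_mod_cast h6
    have h6 : ∑ m ∈ Ms, ((G m).card : ℝ) ≤ ∑ m ∈ Ms, K := by
      apply Finset.sum_le_sum
      intro m hm
      rw [hMs, mem_filter, mem_Icc] at hm
      apply hB m hm.2.1
      have h7 : y / N ≤ y := Nat.div_le_self y N
      rw [abs_le]
      constructor
      · have := hm.1.1
        have h8 : ((y / N : ℕ) : ℤ) ≤ y := by exact_mod_cast h7
        linarith
      · have := hm.1.2
        have h8 : ((y / N : ℕ) : ℤ) ≤ y := by exact_mod_cast h7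
        linarith
    have h7 : (Ms.card : ℝ) ≤ 2 * (y / N) := by
      have h8 : ((Icc 1 (y / N)).filter (fun _ => True)).card = y / N := by
        rw [Finset.filter_true, Nat.card_Icc, Nat.add_sub_cancel]
      have h9 : (Ms.card : ℝ) ≤ 2 * (((Icc 1 (y / N)).filter (fun _ => True)).card : ℝ) := by
        convert card_two (y / N) (fun _ => True)
      rw [h8] at h9
      have := @Nat.cast_div_le ℝ _ _ _ y N
      linarith
    rw [Finset.sum_const, nsmul_eq_mul] at h6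
    exact h5.trans (h6.trans (mul_le_mul_of_nonneg_right h7 hK))
  linarith

/-- the final numerical inequality -/
lemma num (δ C : ℝ) (hδ : 0 < δ) (hC : 0 < C) : ∃ ε : ℝ, 0 < ε ∧ ε ≤ 1 ∧ ∃ y₀ : ℕ, 2 ≤ y₀ ∧
    ∀ y : ℕ, y₀ ≤ y → 1 + 2 * √(y : ℝ) + 16 * (ε * y) + 2 * (y / (⌊(y : ℝ) ^ ε⌋₊ : ℝ)) +
      2 * (y / (⌊(y : ℝ) ^ ε⌋₊ : ℝ)) * (C * (y : ℝ) ^ (ε / 2)) ≤ δ * y := by
  refine ⟨min 1 (δ / 32), by positivity, min_le_left _ _, ?_⟩
  set ε := min 1 (δ / 32) with hε
  have hε0 : 0 < ε := by positivity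
  have hε1 : ε ≤ δ / 32 := min_le_right _ _
  have t1 : Tendsto (fun y : ℝ => 1 * y ^ (-(1 : ℝ)) + 2 * y ^ (-(1 / 2 : ℝ)) +
      4 * y ^ (-ε) + 4 * C * y ^ (-(ε / 2))) atTop (𝓝 (1 * 0 + 2 * 0 + 4 * 0 + 4 * C * 0)) := by
    refine Tendsto.add (Tendsto.add (Tendsto.add ?_ ?_) ?_) ?_
    · exact (tendsto_rpow_neg_atTop (by norm_num)).const_mul _
    · exact (tendsto_rpow_neg_atTop (by norm_num)).const_mul _
    · exact (tendsto_rpow_neg_atTop hε0).const_mul _
    · exact (tendsto_rpow_neg_atTop (by positivity)).const_mul _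
  have t2 := t1.comp (tendsto_natCast_atTop_atTop (R := ℝ))
  have t3 := t2.eventually (gt_mem_nhds (show 1 * 0 + 2 * 0 + 4 * 0 + 4 * C * 0 < δ / 2 by
    simp only [mul_zero, add_zero]; positivity))
  obtain ⟨y₀, hy₀⟩ := eventually_atTop.1 t3
  refine ⟨max 2 y₀, le_max_left _ _, fun y hy => ?_⟩
  have hy1 := hy₀ y (le_trans (le_max_right _ _) hy)
  have hy2 : 2 ≤ y := le_trans (le_max_left _ _) hy
  have hyR : (2 : ℝ) ≤ y := by exact_mod_cast hy2
  have hy0 : (0 : ℝ) < y := by linarith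
  simp only [Function.comp] at hy1
  set Y : ℝ := (y : ℝ) with hY
  set N : ℝ := (⌊Y ^ ε⌋₊ : ℝ) with hN
  have hYε : 1 ≤ Y ^ ε := Real.one_le_rpow (by linarith) hε0.le
  have hN1 : Y ^ ε / 2 ≤ N := by
    have h1 : 1 ≤ ⌊Y ^ ε⌋₊ := Nat.le_floor (by exact_mod_cast hYε)
    have h2 : (1 : ℝ) ≤ N := by rw [hN]; exact_mod_cast h1
    have h3 := Nat.lt_floor_add_one (Y ^ ε)
    rw [← hN] at h3
    linarith
  have hYe : 0 < Y ^ ε := by positivity
  have e1 : Y / N ≤ 2 * (Y * Y ^ (-ε)) := by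
    rw [Real.rpow_neg hy0.le, div_le_iff₀ (by linarith)]
    have : 2 * (Y * (Y ^ ε)⁻¹) * (Y ^ ε / 2) = Y := by field_simp
    calc Y = 2 * (Y * (Y ^ ε)⁻¹) * (Y ^ ε / 2) := this.symm
      _ ≤ _ := mul_le_mul_of_nonneg_left hN1 (by positivity)
  have e2 : Y ^ (-ε) * Y ^ (ε / 2) = Y ^ (-(ε / 2)) := by
    rw [← Real.rpow_add hy0]
    congr 1
    ring
  have e3 : √Y = Y * Y ^ (-(1 / 2 : ℝ)) := by
    rw [Real.sqrt_eq_rpow]
    nth_rewrite 2 [← Real.rpow_one Y]
    rw [← Real.rpow_add hy0]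
    norm_num
  have e4 : Y * Y ^ (-(1 : ℝ)) = 1 := by
    rw [Real.rpow_neg_one]
    field_simp
  have e5 : 2 * (Y / N) * (C * Y ^ (ε / 2)) ≤ Y * (4 * C * Y ^ (-(ε / 2))) := by
    calc 2 * (Y / N) * (C * Y ^ (ε / 2)) ≤ 2 * (2 * (Y * Y ^ (-ε))) * (C * Y ^ (ε / 2)) := by
          apply mul_le_mul_of_nonneg_right _ (by positivity)
          linarith
      _ = 4 * C * Y * (Y ^ (-ε) * Y ^ (ε / 2)) := by ring
      _ = _ := by rw [e2]; ring
  have e6 : Y * (1 * Y ^ (-(1 : ℝ)) + 2 * Y ^ (-(1 / 2 : ℝ)) + 4 * Y ^ (-ε) +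
      4 * C * Y ^ (-(ε / 2))) ≤ Y * (δ / 2) := mul_le_mul_of_nonneg_left hy1.le hy0.le
  have e7 : 16 * (ε * Y) ≤ Y * (δ / 2) := by nlinarith
  nlinarith

end Vale.Agent.P016.FE.IntMod

namespace Vale.Agent.P016.FE

open IntMod

theorem int (hF : FewStmt) : IntStmt := by
  classical
  obtain ⟨c, C, hc, hC, hF⟩ := hF
  intro δ A hδ hA
  obtain ⟨ε, hε, hε1, y₀, hy₀2, hnum⟩ := num δ C hδ hC
  obtain ⟨x₀, hx₀⟩ := hF A hA
  refine ⟨min c (ε / 2), by positivity, y₀, max x₀ 3, fun x hx y hy hyx => ?_⟩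
  have hx0 : x₀ ≤ x := le_trans (le_max_left _ _) hx
  have hx3 : 3 ≤ x := le_trans (le_max_right _ _) hx
  have hL : 1 ≤ Real.log x := by
    rw [← Real.log_exp 1]
    apply Real.log_le_log (Real.exp_pos 1)
    have h1 : (3 : ℝ) ≤ x := by exact_mod_cast hx3
    linarith [Real.exp_one_lt_d9]
  have hsL : 1 ≤ √(Real.log x) := Real.one_le_sqrt.2 hL
  have hy2 : 2 ≤ y := le_trans hy₀2 hy
  have hyR : (2 : ℝ) ≤ y := by exact_mod_cast hy2
  have hy1 : (1 : ℝ) ≤ y := by linarith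
  set s : ℝ := min ((y : ℝ) ^ (ε / 2)) √(Real.log x) with hs
  have hs1 : 1 ≤ s := le_min (Real.one_le_rpow hy1 (by positivity)) hsL
  have hs2 : s ≤ √(Real.log x) := min_le_right _ _
  have hs3 : s ≤ (y : ℝ) ^ (ε / 2) := min_le_left _ _
  set N : ℕ := ⌊(y : ℝ) ^ ε⌋₊ with hN
  have hYε : 1 ≤ (y : ℝ) ^ ε := Real.one_le_rpow hy1 hε.le
  have hN1 : 1 ≤ N := Nat.le_floor (by exact_mod_cast hYε)
  have hNR : (0 : ℝ) < N := by exact_mod_cast hN1
  have hNle : (N : ℝ) ≤ (y : ℝ) ^ ε := Nat.floor_le (by linarith)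
  have hX : 0 ≤ (x : ℝ) / Real.log x ^ 2 := by positivity
  have hcount := count x y N ⌊Real.log x ^ A⌋₊ hN1 (Nat.le_floor hyx)
    (c * s * (x / Real.log x ^ 2)) (C * s) (by positivity) (fun m hm hmy => by
      convert hx₀ x hx0 s hs1 hs2 m hm ?_
      refine le_trans ?_ hyx
      exact_mod_cast hmy)
  have hsm := smooth y N ((Icc 1 y).filter (fun n : ℕ => √(y : ℝ) ≤ n ∧
        ∀ p : ℕ, p.Prime → p ∣ n → p ≤ N)) (fun n hn => by
      rw [mem_filter, mem_Icc] at hn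
      exact ⟨hn.1.1, hn.1.2, hn.2.1, hn.2.2⟩)
  have hlogy : 0 < Real.log y := Real.log_pos (by linarith)
  have hsm2 : (((Icc 1 y).filter (fun n : ℕ => √(y : ℝ) ≤ n ∧
        ∀ p : ℕ, p.Prime → p ∣ n → p ≤ N)).card : ℝ) ≤ 8 * (ε * y) := by
    have h1 : Real.log N ≤ ε * Real.log y := by
      rw [← Real.log_rpow (by linarith)]
      exact Real.log_le_log hNR hNle
    have h2 : 8 * (y : ℝ) * Real.log N ≤ 8 * (ε * y) * Real.log y := by nlinarith
    exact le_of_mul_le_mul_right (hsm.trans h2) hlogy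
  have hsub : (Icc (-(y : ℤ)) (y : ℤ)).filter (fun a : ℤ =>
      (artinCount a x : ℝ) < min c (ε / 2) * min ((y : ℝ) ^ (min c (ε / 2))) √(Real.log x) *
        (x / (Real.log x) ^ 2)) ⊆
      (Icc (-(y : ℤ)) (y : ℤ)).filter (fun a : ℤ =>
        (artinCount a x : ℝ) < c * s * (x / Real.log x ^ 2)) := by
    intro a ha
    rw [mem_filter] at ha ⊢
    refine ⟨ha.1, ha.2.trans_le ?_⟩
    apply mul_le_mul_of_nonneg_right _ hX
    apply mul_le_mul (min_le_left _ _) _ (by positivity) hc.le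
    exact min_le_min_right _ (Real.rpow_le_rpow_of_exponent_le hy1 (min_le_right _ _))
  have hcard := card_le_card hsub
  have hcard' : (((Icc (-(y : ℤ)) (y : ℤ)).filter (fun a : ℤ =>
      (artinCount a x : ℝ) < min c (ε / 2) * min ((y : ℝ) ^ (min c (ε / 2))) √(Real.log x) *
        (x / (Real.log x) ^ 2))).card : ℝ) ≤ ((Icc (-(y : ℤ)) (y : ℤ)).filter (fun a : ℤ =>
        (artinCount a x : ℝ) < c * s * (x / Real.log x ^ 2))).card := by exact_mod_cast hcard
  refine hcard'.trans ?_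
  refine le_trans ?_ (hnum y hy)
  refine le_trans (by convert hcount) ?_
  have h5 : 0 ≤ (y : ℝ) / N := by positivity
  have h6 : 2 * ((y : ℝ) / N) * (C * s) ≤ 2 * ((y : ℝ) / N) * (C * (y : ℝ) ^ (ε / 2)) := by
    apply mul_le_mul_of_nonneg_left _ (by positivity)
    exact mul_le_mul_of_nonneg_left hs3 hC.le
  linarith

end Vale.Agent.P016.FE
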