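import Mathlib
import Vale.Agent.P016.FE.Defs

/-!
# Modules K and G: nonsquares which are not killed, and Gupta-Murty counting
-/

open Finset Real

namespace Vale.Agent.P016.FE

/-- a nonsquare modulo `p` which is no `r`-th power for an odd prime `r ∣ p - 1` is a primitive
root -/
theorem k_aux (p : ℕ) (hp : p.Prime) (a : ℤ) (hp2 : p % 4 = 3)
    (ha : ¬ IsSquare (a : ZMod p)) (hk : ∀ r : ℕ, r.Prime → 3 ≤ r → r ∣ p - 1 → ¬ Res p r a) :
    ¬ (p : ℤ) ∣ a ∧ orderOf (a : ZMod p) = p - 1 := by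
  have : Fact p.Prime := ⟨hp⟩
  have ha0 : (a : ZMod p) ≠ 0 := by
    intro h
    exact ha (h ▸ ⟨0, by simp⟩)
  refine ⟨fun h => ha0 ((ZMod.intCast_zmod_eq_zero_iff_dvd a p).2 h), ?_⟩
  have h1 : (a : ZMod p) ^ (p - 1) = 1 := ZMod.pow_card_sub_one_eq_one ha0
  have hpos : 0 < p - 1 := Nat.sub_pos_of_lt hp.one_lt
  refine orderOf_eq_of_pow_and_pow_div_prime hpos h1 ?_
  intro q hq hqd h
  rcases hq.two_le.lt_or_eq with h3 | h2
  · exact hk q hq h3 hqd h
  · subst h2
    have hp' : p / 2 = (p - 1) / 2 := by omega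
    rw [← hp'] at h
    exact ha ((ZMod.euler_criterion p ha0).2 h)

theorem k : KStmt := by
  classical
  intro x z a
  unfold Pa artinCount
  refine (Finset.card_le_card ?_).trans (Finset.card_union_le _ _)
  intro p hp
  simp only [Finset.mem_filter] at hp
  obtain ⟨hpz, hsq⟩ := hp
  rw [Finset.mem_union, Finset.mem_filter, Finset.mem_filter]
  by_cases hk : Kd z p a
  · exact Or.inr ⟨hpz, hk⟩
  · left
    have hpz' := hpz
    unfold Pz at hpz'
    simp only [Finset.mem_filter] at hpz'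
    obtain ⟨hx, hp, h4, hz⟩ := hpz'
    refine ⟨hx, hp, k_aux p hp a h4 hsq ?_⟩
    intro r hr h3 hrd hres
    exact hk ⟨r, hr, not_lt.1 (fun hlt => hz r hr h3 hlt hrd), hrd, hres⟩

/-- the difference of the two monomials attached to an exponent vector `f` -/
def Dv (F : Finset ℤ) (f : F → ℤ) : ℤ :=
  ∏ a : F, (a : ℤ) ^ (f a).toNat - ∏ a : F, (a : ℤ) ^ (-f a).toNat

theorem Dv_ne (E F : Finset ℤ) (hFE : F ⊆ E) (hE : Indep E) (f : F → ℤ) (hf : f ≠ 0) :
    Dv F f ≠ 0 := by
  classical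
  intro h
  apply hf
  have hprod : ∀ g : F → ℕ, ∏ a : F, (a : ℤ) ^ g a =
      ∏ a ∈ E, a ^ (if h : a ∈ F then g ⟨a, h⟩ else 0) := by
    intro g
    rw [← Finset.prod_subset hFE (fun a _ haF => by simp [haF])]
    rw [← Finset.prod_attach F]
    refine Finset.prod_congr rfl ?_
    intro a _
    simp
  have h1 := hE (fun a => if h : a ∈ F then (f ⟨a, h⟩).toNat else 0)
    (fun a => if h : a ∈ F then (-f ⟨a, h⟩).toNat else 0) (by
      have := sub_eq_zero.1 h
      rw [hprod (fun a => (f a).toNat), hprod (fun a => (-f a).toNat)] at this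
      exact this)
  funext a
  have h2 := h1 a (hFE a.2)
  simp only [a.2, dif_pos, Subtype.coe_eta] at h2
  show f a = 0
  omega

theorem prod_bd (F : Finset ℤ) (l L : ℕ) (hF : ∀ a ∈ F, a.natAbs ≤ 2 ^ (l + 1)) (g : F → ℕ)
    (hg : ∀ a, g a ≤ L) :
    (∏ a : F, (a : ℤ) ^ g a).natAbs ≤ 2 ^ ((l + 1) * (F.card * L)) := by
  classical
  have h1 : (∏ a : F, (a : ℤ) ^ g a).natAbs = ∏ a : F, (a : ℤ).natAbs ^ g a := by
    refine (map_prod Int.natAbsHom (fun a : F => (a : ℤ) ^ g a) Finset.univ).trans ?_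
    refine Finset.prod_congr rfl (fun a _ => ?_)
    exact Int.natAbs_pow _ _
  rw [h1]
  calc ∏ a : F, (a : ℤ).natAbs ^ g a ≤ ∏ a : F, (2 ^ (l + 1)) ^ L := by
        refine Finset.prod_le_prod' ?_
        intro a _
        calc (a : ℤ).natAbs ^ g a ≤ (2 ^ (l + 1)) ^ g a := Nat.pow_le_pow_left (hF a a.2) _
          _ ≤ (2 ^ (l + 1)) ^ L := Nat.pow_le_pow_right (by positivity) (hg a)
    _ = 2 ^ ((l + 1) * (F.card * L)) := by
        rw [Finset.prod_const, Finset.card_univ, Fintype.card_coe, ← pow_mul, ← pow_mul]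
        congr 1
        ring

theorem card_primeFactors_le (n k : ℕ) (hn : n ≠ 0) (h : n ≤ 2 ^ k) : n.primeFactors.card ≤ k := by
  have h1 : 2 ^ n.primeFactors.card ≤ n := by
    calc 2 ^ n.primeFactors.card = ∏ _p ∈ n.primeFactors, 2 := by rw [Finset.prod_const]
      _ ≤ ∏ p ∈ n.primeFactors, p :=
          Finset.prod_le_prod' (fun p hp => (Nat.prime_of_mem_primeFactors hp).two_le)
      _ ≤ n := Nat.le_of_dvd (Nat.pos_of_ne_zero hn) (Nat.prod_primeFactors_dvd n)
  exact (Nat.pow_le_pow_iff_right (by norm_num)).1 (h1.trans h)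

theorem Dv_card (F : Finset ℤ) (l L : ℕ) (hF : ∀ a ∈ F, a.natAbs ≤ 2 ^ (l + 1)) (f : F → ℤ)
    (hf : ∀ a, f a ∈ Finset.Icc (-(L : ℤ)) L) (h0 : Dv F f ≠ 0) :
    (Dv F f).natAbs.primeFactors.card ≤ F.card * L * (l + 1) + 1 := by
  refine card_primeFactors_le _ _ (by simpa using h0) ?_
  have h1 := prod_bd F l L hF (fun a => (f a).toNat) (fun a => by
    have := Finset.mem_Icc.1 (hf a); omega)
  have h2 := prod_bd F l L hF (fun a => (-f a).toNat) (fun a => by
    have := Finset.mem_Icc.1 (hf a); omega)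
  have h3 : (Dv F f).natAbs ≤ (∏ a : F, (a : ℤ) ^ (f a).toNat).natAbs +
      (∏ a : F, (a : ℤ) ^ (-f a).toNat).natAbs := by
    unfold Dv
    omega
  calc (Dv F f).natAbs ≤ 2 ^ ((l + 1) * (F.card * L)) + 2 ^ ((l + 1) * (F.card * L)) :=
        h3.trans (Nat.add_le_add h1 h2)
    _ = 2 ^ (F.card * L * (l + 1) + 1) := by
        rw [pow_succ, mul_comm (l + 1)]
        ring

/-- pigeonhole modulo `p` -/
theorem pigeon (p r m L : ℕ) (hp : p.Prime) (hr : r.Prime) (hrd : r ∣ p - 1) (F : Finset ℤ)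
    (hF : F.card = m) (hres : ∀ a ∈ F, Res p r a) (hlt : (p - 1) / r < (L + 1) ^ m) :
    ∃ f : F → ℤ, (∀ a, f a ∈ Finset.Icc (-(L : ℤ)) L) ∧ f ≠ 0 ∧ (p : ℤ) ∣ Dv F f := by
  classical
  have : Fact p.Prime := ⟨hp⟩
  set n := (p - 1) / r with hn
  have hpos : 0 < p - 1 := Nat.sub_pos_of_lt hp.one_lt
  have hn0 : 0 < n := Nat.div_pos (Nat.le_of_dvd hpos hrd) hr.pos
  have hcard : (Polynomial.nthRoots n (1 : ZMod p)).toFinset.card <
      (Fintype.piFinset (fun _ : F => Finset.range (L + 1))).card := by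
    refine lt_of_le_of_lt ((Multiset.toFinset_card_le _).trans (Polynomial.card_nthRoots n 1)) ?_
    rw [Fintype.card_piFinset]
    simpa [hF] using hlt
  obtain ⟨u, hu, v, hv, huv, he⟩ := Finset.exists_ne_map_eq_of_card_lt_of_maps_to hcard
    (f := fun u : F → ℕ => ∏ a : F, ((a : ℤ) : ZMod p) ^ u a) (by
      intro u _
      simp only [Finset.mem_coe, Multiset.mem_toFinset]
      rw [Polynomial.mem_nthRoots hn0, ← Finset.prod_pow]
      refine Finset.prod_eq_one ?_
      intro a _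
      have := hres a a.2
      unfold Res at this
      rw [← pow_mul, mul_comm, pow_mul, this, one_pow])
  have hu' : ∀ a, u a ≤ L := fun a => by
    have := Fintype.mem_piFinset.1 hu a
    simpa [Nat.lt_succ_iff] using this
  have hv' : ∀ a, v a ≤ L := fun a => by
    have := Fintype.mem_piFinset.1 hv a
    simpa [Nat.lt_succ_iff] using this
  refine ⟨fun a => (u a : ℤ) - v a, ?_, ?_, ?_⟩
  · intro a
    have h1 := hu' a
    have h2 := hv' a
    show (u a : ℤ) - v a ∈ _
    rw [Finset.mem_Icc]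
    constructor <;> omega
  · intro h
    apply huv
    funext a
    have := congrFun h a
    simp only [Pi.zero_apply] at this
    omega
  · rw [← ZMod.intCast_zmod_eq_zero_iff_dvd]
    unfold Dv
    push_cast
    rw [sub_eq_zero]
    have hne : (∏ a : F, ((a : ℤ) : ZMod p) ^ (min (u a) (v a))) ≠ 0 := by
      rw [Finset.prod_ne_zero_iff]
      intro a _
      refine pow_ne_zero _ ?_
      intro h0
      have := hres a a.2
      unfold Res at this
      rw [h0, zero_pow (by omega)] at this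
      exact zero_ne_one this
    have h1 : ∏ a : F, ((a : ℤ) : ZMod p) ^ u a = (∏ a : F, ((a : ℤ) : ZMod p) ^ (min (u a) (v a)))
        * ∏ a : F, ((a : ℤ) : ZMod p) ^ ((u a : ℤ) - v a).toNat := by
      rw [← Finset.prod_mul_distrib]
      refine Finset.prod_congr rfl (fun a _ => ?_)
      rw [← pow_add]
      congr 1
      omega
    have h2 : ∏ a : F, ((a : ℤ) : ZMod p) ^ v a = (∏ a : F, ((a : ℤ) : ZMod p) ^ (min (u a) (v a)))
        * ∏ a : F, ((a : ℤ) : ZMod p) ^ (-((u a : ℤ) - v a)).toNat := by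
      rw [← Finset.prod_mul_distrib]
      refine Finset.prod_congr rfl (fun a _ => ?_)
      rw [← pow_add]
      congr 1
      omega
    rw [h1, h2] at he
    exact mul_left_cancel₀ hne he

theorem gm : GMStmt := by
  classical
  intro E Y hY hE x m L ρ hm hρ hlt
  set l := Nat.log 2 Y with hl
  have hY' : ∀ a ∈ E, a.natAbs ≤ 2 ^ (l + 1) := fun a ha =>
    (hY a ha).trans (Nat.lt_pow_succ_log_self (by norm_num) Y).le
  -- the index set
  let S : Finset (Finset ℤ) := Finset.powersetCard m E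
  let V : (F : Finset ℤ) → Finset (F → ℤ) := fun F =>
    (Fintype.piFinset (fun _ : F => Finset.Icc (-(L : ℤ)) L)).filter (fun f => f ≠ 0)
  have hsub : Gb x ρ E m ⊆ S.biUnion (fun F => (V F).biUnion
      (fun f => (Dv F f).natAbs.primeFactors)) := by
    intro p hp
    unfold Gb at hp
    simp only [Finset.mem_filter, Finset.mem_range] at hp
    obtain ⟨hpx, hpp, r, hr, hρr, hrd, hmr⟩ := hp
    unfold mres at hmr
    obtain ⟨F, hF1, hF2⟩ := Finset.exists_subset_card_eq hmr
    have hFE : F ⊆ E := hF1.trans (Finset.filter_subset _ _)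
    have hres : ∀ a ∈ F, Res p r a := fun a ha => (Finset.mem_filter.1 (hF1 ha)).2
    have hdiv : (p - 1) / r < (L + 1) ^ m := by
      have h1 : (((p - 1) / r : ℕ) : ℝ) ≤ (x : ℝ) / ρ := by
        calc (((p - 1) / r : ℕ) : ℝ) ≤ ((p - 1 : ℕ) : ℝ) / (r : ℝ) := Nat.cast_div_le
          _ ≤ (x : ℝ) / (r : ℝ) := by
              gcongr
              omega
          _ ≤ (x : ℝ) / ρ := by gcongr
      have h2 := h1.trans_lt hlt
      exact_mod_cast h2
    obtain ⟨f, hf1, hf2, hf3⟩ := pigeon p r m L hpp hr hrd F hF2 hres hdiv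
    rw [Finset.mem_biUnion]
    refine ⟨F, Finset.mem_powersetCard.2 ⟨hFE, hF2⟩, ?_⟩
    rw [Finset.mem_biUnion]
    refine ⟨f, ?_, ?_⟩
    · simp only [V, Finset.mem_filter]
      exact ⟨Fintype.mem_piFinset.2 hf1, hf2⟩
    · rw [Nat.mem_primeFactors]
      refine ⟨hpp, ?_, ?_⟩
      · rw [← Int.natCast_dvd_natCast, Int.dvd_natAbs]
        exact hf3
      · rw [Int.natAbs_ne_zero]
        exact Dv_ne E F hFE hE f hf2
  have hcard : (Gb x ρ E m).card ≤ 2 ^ E.card * ((2 * L + 1) ^ m * (m * L * (l + 1) + 1)) := by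
    refine (Finset.card_le_card hsub).trans ?_
    refine Finset.card_biUnion_le.trans ?_
    have h1 : ∀ F ∈ S, ((V F).biUnion (fun f => (Dv F f).natAbs.primeFactors)).card ≤
        (2 * L + 1) ^ m * (m * L * (l + 1) + 1) := by
      intro F hF
      obtain ⟨hFE, hFm⟩ := Finset.mem_powersetCard.1 hF
      refine Finset.card_biUnion_le.trans ?_
      have h2 : ∀ f ∈ V F, (Dv F f).natAbs.primeFactors.card ≤ m * L * (l + 1) + 1 := by
        intro f hf
        simp only [V, Finset.mem_filter] at hf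
        have := Dv_card F l L (fun a ha => hY' a (hFE ha)) f (Fintype.mem_piFinset.1 hf.1)
          (Dv_ne E F hFE hE f hf.2)
        rwa [hFm] at this
      refine (Finset.sum_le_card_nsmul _ _ _ h2).trans ?_
      rw [smul_eq_mul]
      refine Nat.mul_le_mul_right _ ?_
      refine (Finset.card_filter_le _ _).trans ?_
      rw [Fintype.card_piFinset]
      simp only [Int.card_Icc, Finset.prod_const, Finset.card_univ, Fintype.card_coe, hFm]
      apply Nat.pow_le_pow_left
      omega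
    refine (Finset.sum_le_card_nsmul _ _ _ h1).trans ?_
    rw [smul_eq_mul]
    refine Nat.mul_le_mul_right _ ?_
    simp only [S, Finset.card_powersetCard]
    exact Nat.choose_le_two_pow _ _
  calc ((Gb x ρ E m).card : ℝ) ≤
      ((2 ^ E.card * ((2 * L + 1) ^ m * (m * L * (l + 1) + 1)) : ℕ) : ℝ) := by exact_mod_cast hcard
    _ = 2 ^ E.card * (2 * (L : ℝ) + 1) ^ m * (m * L * ((l : ℝ) + 1) + 1) := by
        push_cast
        ring

end Vale.Agent.P016.FE
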