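import Vale.Agent.P016.FE.LD

/-!
# Module L: lower bound for `Pa`
-/

open Finset Real Filter

namespace Vale.Agent.P016.FE

open Vale.Agent.P013.J

/-- the elements `> x / 10` of `Pz` -/
noncomputable def Ptop (x : ℕ) (z : ℝ) : Finset ℕ := by
  classical
  exact (Pz x z).filter (fun p : ℕ => (x : ℝ) / 10 < p)

lemma mem_Ptop {x p : ℕ} {z : ℝ} : p ∈ Ptop x z ↔ p ∈ Pz x z ∧ (x : ℝ) / 10 < p := by
  classical
  unfold Ptop
  rw [mem_filter]

theorem pz_lower : ∃ κ c : ℝ, 0 < κ ∧ 0 < c ∧ ∃ x₀ : ℕ, ∀ x : ℕ, x₀ ≤ x → ∀ z : ℝ, 3 ≤ z →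
    z ≤ (x : ℝ) ^ κ → c * (x / (log x * log z)) ≤ ((Ptop x z).card : ℝ) := by
  classical
  obtain ⟨κ, c, hκ, hc, h⟩ := class_lower
  obtain ⟨c₁, hc₁, hV⟩ := VD_ge
  obtain ⟨x₁, h⟩ := h 1 one_pos
  obtain ⟨x₂, hx₂⟩ := eventually_atTop.1 (ev_const_le_log 4)
  refine ⟨κ, c * c₁ / 2, hκ, by positivity, max x₁ x₂, ?_⟩
  intro x hx z hz hzκ
  have e1 := hx₂ x ((le_max_right _ _).trans hx)
  have h1 := h x ((le_max_left _ _).trans hx) z hz hzκ 4 3 (dvd_refl 4) (by norm_num)
    (by rw [Real.rpow_one]; push_cast; exact e1) adm_four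
  have hL0 : 0 < log x := by linarith
  have hlz : 0 < log z := Real.log_pos (by linarith)
  have h2 : ((Pcl x z 4 3).card : ℝ) ≤ ((Ptop x z).card : ℝ) := by
    have : Pcl x z 4 3 ⊆ Ptop x z := by
      intro p hp
      obtain ⟨g1, g2, -⟩ := mem_Pcl.1 hp
      exact mem_Ptop.2 ⟨g1, g2⟩
    exact_mod_cast Finset.card_le_card this
  refine le_trans ?_ (h1.trans h2)
  have h3 : (Nat.totient 4 : ℝ) = 2 := by
    have : Nat.totient 4 = 2 := by decide
    rw [this]
    norm_num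
  rw [h3]
  have hx0 : (0 : ℝ) ≤ x := by positivity
  calc c * c₁ / 2 * (x / (log x * log z)) = c * (x / (2 * log x)) * (c₁ / log z) := by
        field_simp
    _ ≤ c * (x / (2 * log x)) * VD 4 z := by
        apply mul_le_mul_of_nonneg_left (hV 4 z hz) (by positivity)

lemma fin1 (c1 c2 K X L T : ℝ) (hK : K ≠ 0) (hL : L ≠ 0) (hT : T ≠ 0) :
    c1 * c2 / (8 * K) * (X / (L * T)) = (c1 * (X / (L * T)) / 2) * (c2 / (4 * K)) := by
  field_simp
  ring

lemma fin2 (r K X φ L V c2 w : ℝ) (hK : K ≠ 0) (hφ : φ ≠ 0) (hL : L ≠ 0) (hw : w ≠ 0) :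
    (r * (K * (X / (φ * L)) * V)) * (c2 / (4 * K)) =
      (r * (w / 4)) * (c2 * (X / (φ * w * L)) * V) := by
  field_simp

lemma fin3 (r u w Q V V' : ℝ) (hr : 0 ≤ r) (hQ : 0 ≤ Q) (hV : 0 ≤ V) (hw : w ≤ u) (hu : 0 ≤ u)
    (hVV : V ≤ V') : (r * w) * (Q * V) ≤ (r * u) * (Q * V') := by
  have h1 : r * w ≤ r * u := mul_le_mul_of_nonneg_left hw hr
  have h2 : Q * V ≤ Q * V' := mul_le_mul_of_nonneg_left hVV hQ
  exact mul_le_mul h1 h2 (mul_nonneg hQ hV) (mul_nonneg hr hu)

set_option maxHeartbeats 1000000 in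
theorem l : LStmt := by
  classical
  obtain ⟨κ1, c1, hκ1, hc1, x1, h1⟩ := pz_lower
  obtain ⟨κ2, c2, hκ2, hc2, h2⟩ := class_lower
  obtain ⟨κ3, K, hκ3, hK, h3⟩ := class_upper
  refine ⟨min κ1 (min κ2 κ3), c1 * c2 / (8 * K), by positivity, by positivity, fun A hA => ?_⟩
  obtain ⟨x2, h2⟩ := h2 (A + 1) (by positivity)
  obtain ⟨x3, h3⟩ := h3 (A + 1) (by positivity)
  obtain ⟨x4, hx4⟩ := eventually_atTop.1 ((ev_const_le_log 4).and
    ((ev_log_le (A + 1) 10 1 (by norm_num)).and (eventually_ge_atTop 1)))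
  refine ⟨max (max x1 x2) (max x3 x4), ?_⟩
  intro x hx z hzL hzκ m l' hm hl' hl5 hlm hml
  obtain ⟨e1, e2, e3⟩ := hx4 x ((le_max_right _ _).trans ((le_max_right _ _).trans hx))
  rw [Real.rpow_one] at e2
  have hxx1 : x1 ≤ x := (le_max_left _ _).trans ((le_max_left _ _).trans hx)
  have hxx2 : x2 ≤ x := (le_max_right _ _).trans ((le_max_left _ _).trans hx)
  have hxx3 : x3 ≤ x := (le_max_left _ _).trans ((le_max_right _ _).trans hx)
  have hx1' : (1 : ℝ) ≤ x := by exact_mod_cast e3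
  have hx0 : (0 : ℝ) < x := by linarith
  have hL0 : 0 < log x := by linarith
  have : Fact l'.Prime := ⟨hl'⟩
  -- powers of the logarithm
  have hpowA : 1 ≤ (log x) ^ A := Real.one_le_rpow (by linarith) hA.le
  have hpow1 : (log x) ^ (A + 1) = (log x) ^ A * log x := by
    rw [Real.rpow_add hL0, Real.rpow_one]
  have hpow2 : (log x) ^ (A + 2) = (log x) ^ A * (log x * log x) := by
    rw [Real.rpow_add hL0, show (2 : ℝ) = ((2 : ℕ) : ℝ) by norm_num, Real.rpow_natCast]
    ring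
  have hz16 : 16 ≤ z := by
    refine le_trans ?_ hzL
    rw [hpow2]
    nlinarith
  have hz3 : 3 ≤ z := by linarith
  have hlz : 0 < log z := Real.log_pos (by linarith)
  have hz1 : z ≤ (x : ℝ) ^ κ1 := hzκ.trans (Real.rpow_le_rpow_of_exponent_le hx1' (min_le_left _ _))
  have hz2 : z ≤ (x : ℝ) ^ κ2 := hzκ.trans (Real.rpow_le_rpow_of_exponent_le hx1'
    ((min_le_right _ _).trans (min_le_left _ _)))
  have hz3' : z ≤ (x : ℝ) ^ κ3 := hzκ.trans (Real.rpow_le_rpow_of_exponent_le hx1'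
    ((min_le_right _ _).trans (min_le_right _ _)))
  -- moduli
  set D1 : ℕ := 4 * m.natAbs with hD1
  have hmpos : 1 ≤ m.natAbs := Int.natAbs_pos.2 hm
  have hD11 : 1 ≤ D1 := by omega
  set D : ℕ := D1 * l' with hD
  have hDpos : 1 ≤ D := Nat.mul_pos hD11 hl'.pos
  have hmabs : ((m.natAbs : ℕ) : ℝ) = |(m : ℝ)| := by
    rw [Nat.cast_natAbs]
    push_cast
    rfl
  have hDle : (D : ℝ) ≤ 4 * (log x) ^ A := by
    rw [hD, hD1]
    push_cast
    rw [hmabs]
    linarith
  have hDle1 : (D : ℝ) ≤ (log x) ^ (A + 1) := by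
    rw [hpow1]
    nlinarith
  have hD1D : D1 ≤ D := Nat.le_mul_of_pos_right _ hl'.pos
  have hD1D' : (D1 : ℝ) ≤ D := by exact_mod_cast hD1D
  have hDz : (D : ℝ) < z := by
    refine lt_of_lt_of_le ?_ hzL
    rw [hpow2]
    nlinarith
  have hDx : (D : ℝ) ≤ x / 10 := by linarith
  have h4D1 : 4 ∣ D1 := ⟨m.natAbs, rfl⟩
  have h4D : 4 ∣ D := h4D1.mul_right _
  have hD1dvd : D1 ∣ D := ⟨l', rfl⟩
  have hldvd : l' ∣ D := ⟨D1, by rw [hD, Nat.mul_comm]⟩
  have hco : Nat.Coprime D1 l' := by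
    rw [Nat.coprime_comm, Nat.Prime.coprime_iff_not_dvd hl', hD1, Nat.Prime.dvd_mul hl']
    rintro (h | h)
    · have := Nat.le_of_dvd (by norm_num) h
      omega
    · exact hlm (Int.natCast_dvd.2 h)
  -- the elements
  set P' : Finset ℕ := Ptop x z with hP'
  have hPlow := h1 x hxx1 z hz3 hz1
  have hPmem : ∀ p ∈ P', p ∈ Pz x z ∧ (x : ℝ) / 10 < p ∧ D < p ∧ p.Prime ∧ p % 4 = 3 := by
    intro p hp
    rw [hP', mem_Ptop] at hp
    obtain ⟨g1, g2, g3, g4⟩ := mem_Pz.1 hp.1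
    refine ⟨hp.1, hp.2, ?_, g2, g3⟩
    have : (D : ℝ) < p := by linarith [hp.2]
    exact_mod_cast this
  have hJ : ∀ p ∈ P', jacobiSym m p = 1 ∨ jacobiSym m p = -1 := by
    intro p hp
    obtain ⟨g1, g2, g3, g4, g5⟩ := hPmem p hp
    apply jacobiSym.eq_one_or_neg_one
    rw [Int.gcd_eq_natAbs, Int.natAbs_natCast, ← Nat.Coprime, Nat.coprime_comm,
      Nat.Prime.coprime_iff_not_dvd g4]
    intro h
    have := Nat.le_of_dvd hmpos h
    omega
  obtain ⟨e, he, hPe⟩ : ∃ e : ℤ, (e = 1 ∨ e = -1) ∧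
      (P'.card : ℝ) ≤ 2 * ((P'.filter (fun p => jacobiSym m p = e)).card : ℝ) := by
    have g1 : P'.card ≤ (P'.filter (fun p => jacobiSym m p = 1)).card +
        (P'.filter (fun p => jacobiSym m p = -1)).card := by
      have g2 : P' ⊆ (P'.filter (fun p => jacobiSym m p = 1)) ∪
        (P'.filter (fun p => jacobiSym m p = -1)) := by
        intro p hp
        rcases hJ p hp with h | h
        · exact mem_union.2 (Or.inl (mem_filter.2 ⟨hp, h⟩))
        · exact mem_union.2 (Or.inr (mem_filter.2 ⟨hp, h⟩))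
      exact (Finset.card_le_card g2).trans (Finset.card_union_le _ _)
    have g1' : (P'.card : ℝ) ≤ ((P'.filter (fun p => jacobiSym m p = 1)).card : ℝ) +
        ((P'.filter (fun p => jacobiSym m p = -1)).card : ℝ) := by exact_mod_cast g1
    rcases le_total ((P'.filter (fun p => jacobiSym m p = 1)).card : ℝ)
      ((P'.filter (fun p => jacobiSym m p = -1)).card : ℝ) with h | h
    · exact ⟨-1, Or.inr rfl, by linarith⟩
    · exact ⟨1, Or.inl rfl, by linarith⟩
  -- admissible classes with the given symbol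
  set 𝓡 : Finset ℕ := (range D1).filter (fun R => Adm D1 R ∧ jacobiSym m R = e) with h𝓡
  have hcover : P'.filter (fun p => jacobiSym m p = e) ⊆ 𝓡.biUnion (fun R => Pcl x z D1 R) := by
    intro p hp
    rw [mem_filter] at hp
    obtain ⟨g1, g2, g3, g4, g5⟩ := hPmem p hp.1
    rw [mem_biUnion]
    have hadm : Adm D1 (p % D1) := adm_of_mem g1 h4D1 hD11 (by omega)
      (lt_of_le_of_lt hD1D' hDz)
    refine ⟨p % D1, ?_, mem_Pcl.2 ⟨g1, g2, rfl⟩⟩
    rw [h𝓡, mem_filter, mem_range]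
    refine ⟨hadm.1, hadm, ?_⟩
    rw [← hp.2]
    have hodd : Odd p := by
      rw [Nat.odd_iff]
      omega
    exact (jacobiSym.mod_right m hodd).symm
  set V1 := VD D1 z with hV1
  have hV1nn : 0 ≤ V1 := VD_nonneg _ _
  have hφ1 : (0 : ℝ) < Nat.totient D1 := by exact_mod_cast Nat.totient_pos.2 hD11
  have hup : ((P'.filter (fun p => jacobiSym m p = e)).card : ℝ) ≤
      𝓡.card * (K * (x / (Nat.totient D1 * log x)) * V1) := by
    have g1 : ((P'.filter (fun p => jacobiSym m p = e)).card : ℝ) ≤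
        ∑ R ∈ 𝓡, ((Pcl x z D1 R).card : ℝ) := by
      exact_mod_cast (Finset.card_le_card hcover).trans Finset.card_biUnion_le
    refine g1.trans ?_
    rw [← nsmul_eq_mul, ← Finset.sum_const]
    apply Finset.sum_le_sum
    intro R hR
    rw [h𝓡, mem_filter] at hR
    exact h3 x hxx3 z hz3 hz3' D1 R h4D1 hD11 (by linarith) hR.2.1
  -- classes mod `l'`
  set U : Finset (ZMod l') := univ.filter (fun u : ZMod l' =>
    quadraticChar (ZMod l') u = (if l' % 4 = 1 then -e else e) ∧ u ≠ 1) with hU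
  have hUcard : ((l' : ℝ) - 1) / 4 ≤ (U.card : ℝ) := by
    apply count_U l' hl5
    split_ifs
    · rcases he with rfl | rfl
      · exact Or.inr rfl
      · exact Or.inl (by norm_num)
    · exact he
  -- fibers
  set g : ℕ → ℕ × ZMod l' := fun p => (p % D1, (p : ZMod l')) with hg
  have hfib : ∀ b ∈ 𝓡 ×ˢ U, c2 * (x / (Nat.totient D * log x)) * VD D z ≤
      (((Pa x z (m * l')).filter (fun p => g p = b)).card : ℝ) := by
    rintro ⟨R1, u⟩ hb
    rw [mem_product] at hb
    obtain ⟨hb1, hb2⟩ := hb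
    simp only at hb1 hb2
    rw [h𝓡, mem_filter, mem_range] at hb1
    rw [hU, mem_filter] at hb2
    obtain ⟨hR1lt, hR1adm, hR1J⟩ := hb1
    obtain ⟨-, hu1, hu2⟩ := hb2
    set k := Nat.chineseRemainder hco R1 u.val with hk
    have hk1 : (k : ℕ) % D1 = R1 := by
      have := k.2.1
      unfold Nat.ModEq at this
      rw [this, Nat.mod_eq_of_lt hR1lt]
    have hk2 : ((k : ℕ) : ZMod l') = u := by
      have := (ZMod.natCast_eq_natCast_iff _ _ _).2 k.2.2
      rw [this, ZMod.natCast_zmod_val]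
    have hklt : (k : ℕ) < D := Nat.chineseRemainder_lt_mul hco R1 u.val (by omega) (by omega)
    have hu0 : u ≠ 0 := by
      rintro rfl
      rw [quadraticChar_zero] at hu1
      split_ifs at hu1
      · rcases he with rfl | rfl <;> norm_num at hu1
      · rcases he with rfl | rfl <;> norm_num at hu1
    have hkl : ¬ l' ∣ (k : ℕ) := by
      intro h
      apply hu0
      rw [← hk2]
      exact (ZMod.natCast_eq_zero_iff _ _).2 h
    have hadm : Adm D (k : ℕ) := by
      refine ⟨hklt, ?_, ?_, ?_⟩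
      · rw [hD]
        apply Nat.Coprime.mul_right
        · have g1 := hR1adm.2.1
          rw [← hk1] at g1
          unfold Nat.Coprime at g1 ⊢
          rw [← g1, Nat.gcd_comm (k : ℕ) D1, Nat.gcd_rec D1 k]
        · rw [Nat.coprime_comm]
          exact (Nat.Prime.coprime_iff_not_dvd hl').2 hkl
      · have g1 : (k : ℕ) % 4 = ((k : ℕ) % D1) % 4 := (Nat.mod_mod_of_dvd _ h4D1).symm
        rw [g1, hk1]
        exact hR1adm.2.2.1
      · intro q hq hq3 hqD h
        rcases (Nat.Prime.dvd_mul hq).1 hqD with h' | h'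
        · apply hR1adm.2.2.2 q hq hq3 h'
          rw [← hk1, Nat.mod_mod_of_dvd _ h', h]
        · have hql : q = l' := (Nat.prime_dvd_prime_iff_eq hq hl').1 h'
          subst hql
          apply hu2
          rw [← hk2]
          have g2 : ((k : ℕ) : ZMod q) = ((1 : ℕ) : ZMod q) := by
            rw [ZMod.natCast_eq_natCast_iff]
            unfold Nat.ModEq
            rw [h, Nat.mod_eq_of_lt hq.one_lt]
          rw [g2, Nat.cast_one]
    have g1 := h2 x hxx2 z hz3 hz2 D k h4D hDpos hDle1 hadm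
    refine g1.trans ?_
    have g2 : Pcl x z D k ⊆ (Pa x z (m * l')).filter (fun p => g p = (R1, u)) := by
      intro p hp
      obtain ⟨j1, j2, j3⟩ := mem_Pcl.1 hp
      obtain ⟨i1, i2, i3, i4⟩ := mem_Pz.1 j1
      have hpP : p ∈ P' := by
        exact mem_Ptop.2 ⟨j1, j2⟩
      obtain ⟨-, -, hDp, -, -⟩ := hPmem p hpP
      have : Fact p.Prime := ⟨i2⟩
      have hpD1 : p % D1 = R1 := by
        rw [← hk1, ← j3, Nat.mod_mod_of_dvd _ hD1dvd]
      have hpl : (p : ZMod l') = u := by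
        rw [← hk2, ZMod.natCast_eq_natCast_iff]
        unfold Nat.ModEq
        rw [← j3, Nat.mod_mod_of_dvd _ hldvd]
      rw [mem_filter]
      constructor
      · unfold Pa
        rw [mem_filter]
        refine ⟨j1, ?_⟩
        have hodd : Odd p := by
          rw [Nat.odd_iff]
          omega
        have hJp : jacobiSym m p = e := by
          rw [jacobiSym.mod_right m hodd, ← hD1, hpD1, hR1J]
        have hlp : l' ≠ p := by
          rintro rfl
          have := Nat.le_of_dvd hDpos hldvd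
          omega
        exact notsq_of_class i3 hl5 hlp he hJp (by rw [hpl, hu1])
      · rw [hg]
        simp only [Prod.mk.injEq]
        exact ⟨hpD1, hpl⟩
    exact_mod_cast Finset.card_le_card g2
  have hlow : ((𝓡.card : ℝ) * U.card) * (c2 * (x / (Nat.totient D * log x)) * VD D z) ≤
      ((Pa x z (m * l')).card : ℝ) := by
    have g1 : ∑ b ∈ 𝓡 ×ˢ U, (((Pa x z (m * l')).filter (fun p => g p = b)).card : ℝ) ≤
        ((Pa x z (m * l')).card : ℝ) := by
      have g2 : ((𝓡 ×ˢ U).biUnion (fun b => (Pa x z (m * l')).filter (fun p => g p = b))).card =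
          ∑ b ∈ 𝓡 ×ˢ U, ((Pa x z (m * l')).filter (fun p => g p = b)).card := by
        apply Finset.card_biUnion
        intro b _ b' _ hbb
        rw [Function.onFun, Finset.disjoint_left]
        intro p hp hp'
        rw [mem_filter] at hp hp'
        exact hbb (hp.2.symm.trans hp'.2)
      have g3 : ((𝓡 ×ˢ U).biUnion (fun b => (Pa x z (m * l')).filter (fun p => g p = b))).card ≤
          (Pa x z (m * l')).card := by
        apply Finset.card_le_card
        intro p hp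
        rw [mem_biUnion] at hp
        obtain ⟨b, -, hb⟩ := hp
        exact (mem_filter.1 hb).1
      rw [g2] at g3
      exact_mod_cast g3
    refine le_trans ?_ g1
    have g4 : ((𝓡.card : ℝ) * U.card) = ((𝓡 ×ˢ U).card : ℝ) := by
      rw [Finset.card_product]
      push_cast
      rfl
    rw [g4, ← nsmul_eq_mul, ← Finset.sum_const]
    exact Finset.sum_le_sum hfib
  refine le_trans ?_ hlow
  -- final computation
  have hφD : (Nat.totient D : ℝ) = Nat.totient D1 * ((l' : ℝ) - 1) := by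
    rw [hD, Nat.totient_mul hco, Nat.totient_prime hl', Nat.cast_mul, Nat.cast_sub hl'.one_lt.le]
    push_cast
    rfl
  have hl1 : (0 : ℝ) < (l' : ℝ) - 1 := by
    have : (5 : ℝ) ≤ l' := by exact_mod_cast hl5
    linarith
  have hVD : V1 ≤ VD D z := VD_mono hD1dvd z
  -- `c1 x / (2 L t) ≤ |P'_e| ≤ |𝓡| K x V1 / (φ L)`
  have k1 : c1 * (x / (log x * log z)) / 2 ≤ 𝓡.card * (K * (x / (Nat.totient D1 * log x)) * V1) := by
    linarith
  calc c1 * c2 / (8 * K) * (x / (log x * log z))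
      = (c1 * (x / (log x * log z)) / 2) * (c2 / (4 * K)) :=
        fin1 _ _ _ _ _ _ hK.ne' hL0.ne' hlz.ne'
    _ ≤ (𝓡.card * (K * (x / (Nat.totient D1 * log x)) * V1)) * (c2 / (4 * K)) :=
        mul_le_mul_of_nonneg_right k1 (by positivity)
    _ = (𝓡.card * (((l' : ℝ) - 1) / 4)) * (c2 * (x / (Nat.totient D * log x)) * V1) := by
        rw [hφD]
        exact fin2 _ _ _ _ _ _ _ _ hK.ne' hφ1.ne' hL0.ne' hl1.ne'
    _ ≤ (𝓡.card * U.card) * (c2 * (x / (Nat.totient D * log x)) * VD D z) :=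
        fin3 _ _ _ _ _ _ (Nat.cast_nonneg _)
          (mul_nonneg hc2.le (div_nonneg hx0.le (mul_nonneg (Nat.cast_nonneg _) hL0.le)))
          hV1nn hUcard (Nat.cast_nonneg _) hVD

end Vale.Agent.P016.FE
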