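import Vale.Agent.P016.FE.Defs
import Vale.Agent.P013.Bdl.B6

/-!
# Module L, part A: primes in a fixed class, `p - 1` without small prime factors
-/

open Finset Real Filter

namespace Vale.Agent.P016.FE

open Vale.Agent.P013.J

/-- sifting primes -/
noncomputable def SP (D : ℕ) (z : ℝ) : Finset ℕ :=
  (range ⌈z⌉₊).filter (fun q => q.Prime ∧ 3 ≤ q ∧ ¬ q ∣ D)

/-- sieve density -/
noncomputable def VD (D : ℕ) (z : ℝ) : ℝ := ∏ q ∈ SP D z, (1 - gD D q)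

/-- admissible classes -/
def Adm (D R : ℕ) : Prop := R < D ∧ Nat.Coprime R D ∧ R % 4 = 3 ∧
  ∀ q : ℕ, q.Prime → 3 ≤ q → q ∣ D → R % q ≠ 1

/-- the part of `Pz` in a class, upper range -/
noncomputable def Pcl (x : ℕ) (z : ℝ) (D R : ℕ) : Finset ℕ := by
  classical
  exact (Pz x z).filter (fun p => (x : ℝ) / 10 < p ∧ p % D = R)

lemma mem_SP {D : ℕ} {z : ℝ} {q : ℕ} : q ∈ SP D z ↔ (q : ℝ) < z ∧ q.Prime ∧ 3 ≤ q ∧ ¬ q ∣ D := by
  unfold SP
  rw [mem_filter, mem_range, Nat.lt_ceil]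

lemma mem_Pz {x p : ℕ} {z : ℝ} : p ∈ Pz x z ↔ p ≤ x ∧ p.Prime ∧ p % 4 = 3 ∧
    ∀ q : ℕ, q.Prime → 3 ≤ q → (q : ℝ) < z → ¬ q ∣ p - 1 := by
  classical
  unfold Pz
  rw [mem_filter, mem_range, Nat.lt_succ_iff]

lemma mem_Pcl {x p D R : ℕ} {z : ℝ} : p ∈ Pcl x z D R ↔ p ∈ Pz x z ∧ (x : ℝ) / 10 < p ∧
    p % D = R := by
  classical
  unfold Pcl
  rw [mem_filter]

lemma VD_factor_nonneg {D q : ℕ} (hq : 3 ≤ q) : 0 ≤ 1 - gD D q ∧ 1 - gD D q ≤ 1 := by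
  have h1 := Low.gD_lt_one D hq
  have h2 := Low.gD_nonneg D hq
  constructor <;> linarith

lemma VD_nonneg (D : ℕ) (z : ℝ) : 0 ≤ VD D z :=
  Finset.prod_nonneg fun _ hq => (VD_factor_nonneg (mem_SP.1 hq).2.2.1).1

/-- the forbidden classes: `D a_q + R ≡ 1 (mod q)` -/
lemma exists_cls (D R : ℕ) : ∃ a : ℕ → ℤ, ∀ q : ℕ, q.Prime → ¬ q ∣ D →
    (q : ℤ) ∣ D * a q + R - 1 := by
  classical
  have h : ∀ q : ℕ, ∃ b : ℤ, q.Prime → ¬ q ∣ D → (q : ℤ) ∣ D * b + R - 1 := by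
    intro q
    by_cases hq : q.Prime ∧ ¬ q ∣ D
    · obtain ⟨hq1, hq2⟩ := hq
      have hco : IsCoprime (D : ℤ) (q : ℤ) := by
        rw [Nat.isCoprime_iff_coprime]
        exact ((Nat.Prime.coprime_iff_not_dvd hq1).2 hq2).symm
      obtain ⟨u, v, huv⟩ := hco
      refine ⟨u * (1 - R), fun _ _ => ⟨v * (R - 1), ?_⟩⟩
      have : u * (D : ℤ) = 1 - v * q := by linarith
      have h2 : (D : ℤ) * (u * (1 - R)) = (u * D) * (1 - R) := by ring
      rw [h2, this]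
      ring
    · exact ⟨0, fun h1 h2 => absurd ⟨h1, h2⟩ hq⟩
  choose a ha using h
  exact ⟨a, ha⟩

/-- elements of `gset` give elements of `Pz` -/
lemma gset_mem {x D R R0 Y : ℕ} {z : ℝ} {a : ℕ → ℤ} (h4 : 4 ∣ D) (hadm : Adm D R0)
    (hR : R % D = R0) (ha : ∀ q : ℕ, q.Prime → ¬ q ∣ D → (q : ℤ) ∣ D * a q + R - 1)
    (hx : D * Y + R ≤ x) {k : ℕ} (hk : k ∈ gset D R Y (SP D z) a) :
    D * k + R ∈ Pz x z ∧ (D * k + R) % D = R0 := by
  classical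
  unfold gset at hk
  rw [mem_filter, mem_Icc] at hk
  obtain ⟨⟨hk1, hkY⟩, hav, hpr⟩ := hk
  have hmodD : (D * k + R) % D = R0 := by
    rw [Nat.mul_add_mod, hR]
  refine ⟨mem_Pz.2 ⟨?_, hpr, ?_, ?_⟩, hmodD⟩
  · have : D * k ≤ D * Y := Nat.mul_le_mul_left _ hkY
    omega
  · have h1 : (D * k + R) % 4 = ((D * k + R) % D) % 4 := by
      rw [Nat.mod_mod_of_dvd _ h4]
    rw [h1, hmodD, hadm.2.2.1]
  · intro q hq hq3 hqz hdvd
    by_cases hqD : q ∣ D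
    · have h1 := hadm.2.2.2 q hq hq3 hqD
      apply h1
      have h2 : (D * k + R) % q = ((D * k + R) % D) % q := by
        rw [Nat.mod_mod_of_dvd _ hqD]
      rw [← hmodD, ← h2]
      have h3 : 1 ≤ D * k + R := hpr.one_lt.le
      have h4 : (D * k + R) = (D * k + R - 1) + 1 := by omega
      rw [h4]
      obtain ⟨w, hw⟩ := hdvd
      rw [hw, Nat.mul_add_mod, Nat.mod_eq_of_lt hq.one_lt]
    · have h1 := hav q (mem_SP.2 ⟨hqz, hq, hq3, hqD⟩)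
      apply h1
      have h2 : (q : ℤ) ∣ ((D * k + R - 1 : ℕ) : ℤ) := by exact_mod_cast hdvd
      have h3 : 1 ≤ D * k + R := hpr.one_lt.le
      rw [Nat.cast_sub h3] at h2
      push_cast at h2
      have h4 := ha q hq hqD
      have h5 : (q : ℤ) ∣ (D : ℤ) * ((k : ℤ) - a q) := by
        have := dvd_sub h2 h4
        have e : (D : ℤ) * k + R - 1 - (D * a q + R - 1) = D * (k - a q) := by ring
        rwa [e] at this
      have hco : IsCoprime (q : ℤ) (D : ℤ) := by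
        rw [Nat.isCoprime_iff_coprime]
        exact (Nat.Prime.coprime_iff_not_dvd hq).2 hqD
      exact hco.dvd_of_dvd_mul_left h5

/-- the condition on the forbidden classes -/
lemma cls_ne {D R : ℕ} {z : ℝ} {a : ℕ → ℤ}
    (ha : ∀ q : ℕ, q.Prime → ¬ q ∣ D → (q : ℤ) ∣ D * a q + R - 1) :
    ∀ q ∈ SP D z, ¬ (q : ℤ) ∣ D * a q + R := by
  intro q hq h
  obtain ⟨-, hqp, -, hqD⟩ := mem_SP.1 hq
  have h1 := dvd_sub h (ha q hqp hqD)
  have e : (D : ℤ) * a q + R - (D * a q + R - 1) = 1 := by ring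
  rw [e] at h1
  have h2 : (q : ℕ) ∣ 1 := by exact_mod_cast h1
  exact hqp.one_lt.ne' (Nat.dvd_one.1 h2)

/-- a representative of the class `R0` in `[B, B + D)` -/
lemma exists_rep (D R0 B : ℕ) (hD : 1 ≤ D) (hR0 : R0 < D) :
    ∃ R, B ≤ R ∧ R < B + D ∧ R % D = R0 := by
  refine ⟨B + (R0 + (D - B % D)) % D, by omega, ?_, ?_⟩
  · have := Nat.mod_lt (R0 + (D - B % D)) (show 0 < D by omega)
    omega
  · have h1 : B % D < D := Nat.mod_lt _ (by omega)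
    have h2 : (B + (R0 + (D - B % D)) % D) % D = (B % D + (R0 + (D - B % D))) % D := by
      rw [Nat.add_mod_mod, Nat.mod_add_mod]
    rw [h2]
    have h3 : B % D + (R0 + (D - B % D)) = R0 + D := by omega
    rw [h3, Nat.add_mod_right, Nat.mod_eq_of_lt hR0]

end Vale.Agent.P016.FE
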