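import Vale.Agent.P016.FE.LB

/-!
# Module L, part C: upper bound in a class
-/

open Finset Real Filter

namespace Vale.Agent.P016.FE

open Vale.Agent.P013.J

/-- upper bound for `gset` without an auxiliary congruence -/
lemma gset_upper : ∃ c K : ℝ, 0 < c ∧ c ≤ 1 / 10 ∧ 0 < K ∧ ∃ y₀ : ℕ, ∀ y : ℕ, y₀ ≤ y →
    ∀ (D R Y : ℕ) (P : Finset ℕ) (a : ℕ → ℤ),
    1 ≤ D → Nat.Coprime D R → (y : ℝ) / 10 ≤ R → Y ≤ y →
    (∀ p ∈ P, p.Prime ∧ 3 ≤ p ∧ (p : ℝ) < (y : ℝ) ^ c) →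
    (∀ p ∈ P, ¬ (p : ℤ) ∣ D * a p + R) →
    ((gset D R Y P a).card : ℝ)
      ≤ K * (y : ℝ) * ((D : ℝ) / (Nat.totient D : ℝ)) * (∏ p ∈ P, (1 - gD D p)) / log y := by
  obtain ⟨c0, K, hc0, hK, hU⟩ := upper mertUp
  set c : ℝ := min c0 (1 / 10) with hc
  have hc' : 0 < c := by rw [hc]; positivity
  obtain ⟨y₁, hU⟩ := hU c hc' (min_le_left _ _)
  obtain ⟨y₂, hy₂⟩ := eventually_atTop.1 ((ev_const_le_rpow 4 (1 / 2) (by norm_num)).and
    (eventually_ge_atTop 100))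
  refine ⟨c, K / c, hc', min_le_right _ _, by positivity, max y₁ y₂, ?_⟩
  intro y hy D R Y P a hD hDR hR hY hP hPD
  obtain ⟨e1, e2⟩ := hy₂ y ((le_max_right _ _).trans hy)
  have hy0 : (1 : ℝ) < y := by
    have : (100 : ℝ) ≤ y := by exact_mod_cast e2
    linarith
  have hy0' : (0 : ℝ) < y := by linarith
  have hyc1 : 1 ≤ (y : ℝ) ^ c := Real.one_le_rpow hy0.le hc'.le
  obtain ⟨q, hq, hq1, hq2⟩ := Nat.exists_prime_lt_and_le_two_mul ⌈(y : ℝ) ^ c⌉₊ (by
    have : 0 < ⌈(y : ℝ) ^ c⌉₊ := Nat.ceil_pos.2 (by linarith)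
    omega)
  have hq1' : (y : ℝ) ^ c ≤ q := (Nat.le_ceil _).trans (by exact_mod_cast hq1.le)
  have hq2' : (q : ℝ) ≤ (y : ℝ) ^ (0.6 : ℝ) := by
    have h1 : (q : ℝ) ≤ 2 * (⌈(y : ℝ) ^ c⌉₊ : ℝ) := by exact_mod_cast hq2
    have h2 : (⌈(y : ℝ) ^ c⌉₊ : ℝ) ≤ 2 * (y : ℝ) ^ c := by
      have := (Nat.ceil_lt_add_one (show 0 ≤ (y : ℝ) ^ c by positivity)).le
      linarith
    have h3 : (y : ℝ) ^ c ≤ (y : ℝ) ^ (1 / 10 : ℝ) :=
      Real.rpow_le_rpow_of_exponent_le hy0.le (min_le_right _ _)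
    have h4 : (y : ℝ) ^ (0.6 : ℝ) = (y : ℝ) ^ (1 / 2 : ℝ) * (y : ℝ) ^ (1 / 10 : ℝ) := by
      rw [← Real.rpow_add hy0']
      norm_num
    have h5 : 0 ≤ (y : ℝ) ^ (1 / 10 : ℝ) := by positivity
    rw [h4]
    nlinarith
  have hq0 : 0 < q := hq.pos
  have hb := fun b : ℕ => hU y ((le_max_left _ _).trans hy) D R Y P a hD hDR hR hY hP hPD q b hq
    hq1' hq2'
  set T : ℝ := K * ((y : ℝ) / q) * ((D : ℝ) / (Nat.totient D : ℝ)) * (∏ p ∈ P, (1 - gD D p)) /
        (c * log y) with hT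
  have h1 : ((gset D R Y P a).card : ℝ) = ∑ b ∈ range q,
      (((gset D R Y P a).filter (fun k : ℕ => k % q = b)).card : ℝ) := by
    rw [← Nat.cast_sum]
    congr 1
    apply Finset.card_eq_sum_card_fiberwise
    intro k _
    exact Finset.mem_coe.2 (mem_range.2 (Nat.mod_lt _ hq0))
  have h2 : ∀ b ∈ range q, (((gset D R Y P a).filter (fun k : ℕ => k % q = b)).card : ℝ) ≤ T := by
    intro b _
    refine le_trans ?_ (hb b)
    have : ((gset D R Y P a).filter (fun k : ℕ => k % q = b)) ⊆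
        ((gset D R Y P a).filter (fun k : ℕ => (q : ℤ) ∣ (k : ℤ) - (b : ℕ))) := by
      intro k hk
      rw [mem_filter] at hk ⊢
      refine ⟨hk.1, ?_⟩
      rw [← hk.2]
      push_cast
      exact Int.dvd_self_sub_emod
    exact_mod_cast Finset.card_le_card this
  rw [h1]
  refine (Finset.sum_le_sum h2).trans ?_
  rw [Finset.sum_const, card_range, nsmul_eq_mul, hT]
  apply le_of_eq
  have hq0' : (q : ℝ) ≠ 0 := by positivity
  field_simp

lemma ev_sizesU (A : ℝ) (y₀ : ℕ) : ∃ x₀ : ℕ, ∀ x : ℕ, x₀ ≤ x →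
    16 * (log x) ^ A ≤ (x : ℝ) ^ (1 / 2 : ℝ) ∧
    (y₀ : ℝ) ≤ (x : ℝ) ^ (1 / 2 : ℝ) ∧ 100 ≤ (x : ℝ) := by
  have h := (ev_log_le A 16 (1 / 2) (by norm_num)).and
    ((ev_const_le_rpow y₀ (1 / 2) (by norm_num)).and (eventually_ge_atTop 100))
  obtain ⟨x₀, hx₀⟩ := eventually_atTop.1 h
  refine ⟨x₀, fun x hx => ?_⟩
  obtain ⟨h1, h3, h5⟩ := hx₀ x hx
  exact ⟨h1, h3, by exact_mod_cast h5⟩

set_option maxHeartbeats 1000000 in
theorem class_upper : ∃ κ K : ℝ, 0 < κ ∧ 0 < K ∧ ∀ A : ℝ, 0 < A → ∃ x₀ : ℕ, ∀ x : ℕ, x₀ ≤ x →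
    ∀ z : ℝ, 3 ≤ z → z ≤ (x : ℝ) ^ κ → ∀ D R0 : ℕ, 4 ∣ D → 1 ≤ D → (D : ℝ) ≤ (log x) ^ A →
      Adm D R0 → ((Pcl x z D R0).card : ℝ) ≤ K * (x / (Nat.totient D * log x)) * VD D z := by
  obtain ⟨c, K, hc, hc10, hK, y₀, hU⟩ := gset_upper
  refine ⟨c / 2, 2 * K, by positivity, by positivity, fun A hA => ?_⟩
  obtain ⟨x₀, hx₀⟩ := ev_sizesU A y₀
  refine ⟨x₀, ?_⟩
  intro x hx z hz hzκ D R0 h4 hD hDA hadm
  obtain ⟨e1, e3, e5⟩ := hx₀ x hx
  have hx0 : (0 : ℝ) < x := by linarith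
  have hL0 : 0 < log x := Real.log_pos (by linarith)
  have hD1 : (1 : ℝ) ≤ D := by exact_mod_cast hD
  have hD4 : (4 : ℝ) ≤ D := by
    obtain ⟨w, hw⟩ := h4
    have : 4 ≤ D := by omega
    exact_mod_cast this
  set S : ℝ := (x : ℝ) ^ (1 / 2 : ℝ) with hS
  have hSS : S * S = x := by
    rw [hS, ← Real.rpow_add hx0]
    norm_num
  have hS0 : 0 < S := by positivity
  have hS10 : 10 ≤ S := by nlinarith
  -- y
  set y : ℕ := x / D with hy
  have hyle : (y : ℝ) ≤ x / D := Nat.cast_div_le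
  have hylt : (x : ℝ) / D < y + 1 := by
    rw [div_lt_iff₀ (by positivity)]
    have h1 := Nat.lt_div_mul_add (a := x) (b := D) (by omega)
    have h2 : x < (y + 1) * D := by
      rw [hy]; linarith
    have h3 : (x : ℝ) < ((y + 1) * D : ℕ) := by exact_mod_cast h2
    push_cast at h3
    exact h3
  have h2D : 16 * (D : ℝ) ≤ S := by linarith
  have hyS1 : 16 * S ≤ x / D := by
    rw [le_div_iff₀ (by positivity)]
    nlinarith
  have hyS : S ≤ y := by linarith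
  have hy0 : (0 : ℝ) < y := by linarith
  have hDy2 : (D : ℝ) * y ≤ x := by
    rw [le_div_iff₀ (by positivity)] at hyle
    linarith
  have hy4 : (y : ℝ) ≤ x / 4 := by
    refine hyle.trans ?_
    exact div_le_div_of_nonneg_left hx0.le (by norm_num) hD4
  have hlogy : log x / 2 ≤ log y := by
    have h1 := Real.log_le_log hS0 hyS
    rw [hS, Real.log_rpow hx0] at h1
    linarith
  -- R
  obtain ⟨R, hRB, hRlt, hRmod⟩ := exists_rep D R0 (y / 10 + 1) hD hadm.1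
  have hRge : (y : ℝ) / 10 ≤ R := by
    have h1 : y < (y / 10 + 1) * 10 := by omega
    have h2 : (y : ℝ) < ((y / 10 + 1) * 10 : ℕ) := by exact_mod_cast h1
    have h3 : ((y / 10 + 1 : ℕ) : ℝ) ≤ R := by exact_mod_cast hRB
    push_cast at h2 h3
    linarith
  have hRle : (R : ℝ) ≤ x / 10 := by
    have h1 : (R : ℝ) < ((y / 10 + 1 + D : ℕ) : ℝ) := by exact_mod_cast hRlt
    have h2 : ((y / 10 : ℕ) : ℝ) ≤ (y : ℝ) / 10 := by
      have := @Nat.cast_div_le ℝ _ _ _ y 10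
      exact_mod_cast this
    push_cast at h1
    have h3 : 1 + (D : ℝ) ≤ 3 / 40 * x := by nlinarith
    linarith
  have hcop : Nat.Coprime D R := by
    have h1 : Nat.Coprime R0 D := hadm.2.1
    rw [← hRmod] at h1
    unfold Nat.Coprime at h1 ⊢
    rwa [Nat.gcd_rec]
  obtain ⟨a, ha⟩ := exists_cls D R
  have hyy₀ : y₀ ≤ y := by
    have : (y₀ : ℝ) ≤ y := e3.trans hyS
    exact_mod_cast this
  have hyc : z ≤ (y : ℝ) ^ c := by
    refine hzκ.trans ?_
    calc (x : ℝ) ^ (c / 2) = S ^ c := by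
          rw [hS, ← Real.rpow_mul hx0.le]
          congr 1
          ring
      _ ≤ (y : ℝ) ^ c := Real.rpow_le_rpow hS0.le hyS hc.le
  have hup := hU y hyy₀ D R y (SP D z) a hD hcop hRge le_rfl
    (by
      intro q hq
      obtain ⟨h1, h2, h3, -⟩ := mem_SP.1 hq
      exact ⟨h2, h3, lt_of_lt_of_le h1 hyc⟩) (cls_ne ha)
  have hinj : (Pcl x z D R0).card ≤ (gset D R y (SP D z) a).card := by
    have key : ∀ p ∈ Pcl x z D R0, D * ((p - R) / D) + R = p ∧ 1 ≤ (p - R) / D := by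
      intro p hp
      obtain ⟨h1, h2, h3⟩ := mem_Pcl.1 hp
      have h5 : (R : ℝ) < p := by linarith
      have h6 : R < p := by exact_mod_cast h5
      have h7 : D ∣ p - R := by
        rw [← Nat.modEq_iff_dvd' h6.le]
        unfold Nat.ModEq
        rw [hRmod, h3]
      have h8 : D * ((p - R) / D) = p - R := Nat.mul_div_cancel' h7
      refine ⟨by omega, ?_⟩
      rcases Nat.eq_zero_or_pos ((p - R) / D) with h | h
      · rw [h, Nat.mul_zero] at h8
        omega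
      · exact h
    apply Finset.card_le_card_of_injOn (fun p => (p - R) / D)
    · intro p hp
      obtain ⟨k1, k2⟩ := key p hp
      obtain ⟨h1, h2, h3⟩ := mem_Pcl.1 hp
      obtain ⟨h5, h6, h7, h8⟩ := mem_Pz.1 h1
      set k := (p - R) / D with hk
      show k ∈ ((gset D R y (SP D z) a : Finset ℕ) : Set ℕ)
      rw [Finset.mem_coe]
      classical
      unfold gset
      rw [mem_filter, mem_Icc]
      refine ⟨⟨k2, ?_⟩, ?_, ?_⟩
      · rw [hy, Nat.le_div_iff_mul_le (by omega)]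
        have : D * k ≤ p := by omega
        rw [Nat.mul_comm]
        omega
      · intro q hq hdvd
        obtain ⟨g1, g2, g3, g4⟩ := mem_SP.1 hq
        apply h8 q g2 g3 g1
        have h9 : (q : ℤ) ∣ (D : ℤ) * ((k : ℤ) - a q) + (D * a q + R - 1) :=
          dvd_add (Dvd.dvd.mul_left hdvd _) (ha q g2 g4)
        have h10 : (D : ℤ) * ((k : ℤ) - a q) + (D * a q + R - 1) = ((p - 1 : ℕ) : ℤ) := by
          rw [Nat.cast_sub h6.one_lt.le, ← k1]
          push_cast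
          ring
        rw [h10] at h9
        exact_mod_cast h9
      · rw [k1]
        exact h6
    · intro p hp p' hp' h
      have h1 := (key p hp).1
      have h2 := (key p' hp').1
      have h3 : (p - R) / D = (p' - R) / D := h
      rw [← h1, ← h2, h3]
  have hφ : (0 : ℝ) < Nat.totient D := by exact_mod_cast Nat.totient_pos.2 hD
  have hVnn := VD_nonneg D z
  have h1 : ((Pcl x z D R0).card : ℝ) ≤ ((gset D R y (SP D z) a).card : ℝ) := by
    exact_mod_cast hinj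
  refine h1.trans (hup.trans ?_)
  have h2 : K * (y : ℝ) * ((D : ℝ) / (Nat.totient D : ℝ)) * (∏ p ∈ SP D z, (1 - gD D p)) / log y =
      K * ((D * y) / (Nat.totient D * log y)) * VD D z := by
    unfold VD
    field_simp
  rw [h2]
  apply mul_le_mul_of_nonneg_right _ hVnn
  rw [mul_comm (2 : ℝ) K, mul_assoc]
  apply mul_le_mul_of_nonneg_left _ hK.le
  have hly0 : 0 < log y := by linarith
  rw [← mul_div_assoc, div_le_div_iff₀ (by positivity) (by positivity)]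
  have h3 : (D : ℝ) * y * (Nat.totient D * log x) = (D * y) * Nat.totient D * log x := by ring
  have h4 : 2 * (x : ℝ) * (Nat.totient D * log y) = x * Nat.totient D * (2 * log y) := by ring
  rw [h3, h4]
  apply mul_le_mul _ (by linarith) hL0.le (by positivity)
  exact mul_le_mul_of_nonneg_right hDy2 hφ.le

end Vale.Agent.P016.FE
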