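import Vale.Agent.P016.FE.LC

/-!
# Module L, part D: the quadratic condition
-/

open Finset Real Filter

namespace Vale.Agent.P016.FE

open Vale.Agent.P013.J

/-- the classes `u ≠ 1` mod `l` with given quadratic character -/
lemma count_U (l : ℕ) [Fact l.Prime] (hl : 5 ≤ l) (e : ℤ) (he : e = 1 ∨ e = -1) :
    ((l : ℝ) - 1) / 4 ≤
      ((univ.filter (fun u : ZMod l => quadraticChar (ZMod l) u = e ∧ u ≠ 1)).card : ℝ) := by
  classical
  have hchar : ringChar (ZMod l) ≠ 2 := by
    rw [ZMod.ringChar_zmod_n]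
    omega
  have h0 := quadraticChar_sum_zero hchar
  set A : Finset (ZMod l) := univ.filter (fun u => quadraticChar (ZMod l) u = 1) with hA
  set B : Finset (ZMod l) := univ.filter (fun u => quadraticChar (ZMod l) u = -1) with hB
  have h1 : ∑ u : ZMod l, quadraticChar (ZMod l) u = (A.card : ℤ) - B.card := by
    have h2 : ∀ u : ZMod l, quadraticChar (ZMod l) u =
        (if quadraticChar (ZMod l) u = 1 then (1 : ℤ) else 0) -
        (if quadraticChar (ZMod l) u = -1 then (1 : ℤ) else 0) := by
      intro u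
      by_cases hu : u = 0
      · subst hu
        simp
      · rcases quadraticChar_dichotomy hu with h | h <;> rw [h] <;> norm_num
    rw [Finset.sum_congr rfl (fun u _ => h2 u), Finset.sum_sub_distrib, ← Finset.sum_filter,
      ← Finset.sum_filter, Finset.sum_const, Finset.sum_const]
    simp [hA, hB]
  have h2 : A.card + B.card + 1 = l := by
    have hdisj : Disjoint A B := by
      rw [Finset.disjoint_left]
      intro u hu hu'
      rw [hA, mem_filter] at hu
      rw [hB, mem_filter] at hu'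
      rw [hu.2] at hu'
      exact absurd hu'.2 (by norm_num)
    have h3 : A ∪ B = univ.erase (0 : ZMod l) := by
      ext u
      rw [mem_union, hA, hB, mem_filter, mem_filter, mem_erase]
      constructor
      · rintro (h | h)
        · refine ⟨?_, mem_univ _⟩
          rintro rfl
          simp at h
        · refine ⟨?_, mem_univ _⟩
          rintro rfl
          simp at h
      · intro h
        rcases quadraticChar_dichotomy h.1 with h' | h'
        · exact Or.inl ⟨mem_univ _, h'⟩
        · exact Or.inr ⟨mem_univ _, h'⟩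
    have h4 := Finset.card_union_of_disjoint hdisj
    rw [h3, Finset.card_erase_of_mem (mem_univ _), Finset.card_univ, ZMod.card] at h4
    omega
  have h3 : (A.card : ℤ) = B.card := by
    rw [h0] at h1
    linarith
  have h3' : A.card = B.card := by exact_mod_cast h3
  have hkey : l ≤ 2 * ((univ.filter (fun u : ZMod l => quadraticChar (ZMod l) u = e)).card) + 1 := by
    rcases he with rfl | rfl
    · have : (univ.filter (fun u : ZMod l => quadraticChar (ZMod l) u = 1)) = A := rfl
      rw [this]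
      omega
    · have : (univ.filter (fun u : ZMod l => quadraticChar (ZMod l) u = -1)) = B := rfl
      rw [this]
      omega
  have h5 : (univ.filter (fun u : ZMod l => quadraticChar (ZMod l) u = e)).card ≤
      (univ.filter (fun u : ZMod l => quadraticChar (ZMod l) u = e ∧ u ≠ 1)).card + 1 := by
    have h6 : (univ.filter (fun u : ZMod l => quadraticChar (ZMod l) u = e)) ⊆
        insert 1 (univ.filter (fun u : ZMod l => quadraticChar (ZMod l) u = e ∧ u ≠ 1)) := by
      intro u hu
      rw [mem_filter] at hu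
      rw [mem_insert, mem_filter]
      by_cases h : u = 1
      · exact Or.inl h
      · exact Or.inr ⟨mem_univ _, hu.2, h⟩
    exact (Finset.card_le_card h6).trans (Finset.card_insert_le _ _)
  have h7 : l ≤ 2 * (univ.filter (fun u : ZMod l => quadraticChar (ZMod l) u = e ∧ u ≠ 1)).card + 3 := by
    omega
  have h8 : (l : ℝ) ≤ 2 * ((univ.filter (fun u : ZMod l => quadraticChar (ZMod l) u = e ∧ u ≠ 1)).card : ℝ) + 3 := by
    exact_mod_cast h7
  have h9 : (5 : ℝ) ≤ l := by exact_mod_cast hl
  linarith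

lemma VD_mono {D1 D : ℕ} (h : D1 ∣ D) (z : ℝ) : VD D1 z ≤ VD D z := by
  classical
  have hsub : SP D z ⊆ SP D1 z := by
    intro q hq
    obtain ⟨h1, h2, h3, h4⟩ := mem_SP.1 hq
    exact mem_SP.2 ⟨h1, h2, h3, fun h5 => h4 (h5.trans h)⟩
  have h1 : VD D z = ∏ q ∈ SP D z, (1 - gD D1 q) := by
    unfold VD
    refine Finset.prod_congr rfl fun q hq => ?_
    obtain ⟨-, -, -, h4⟩ := mem_SP.1 hq
    unfold gD
    rw [if_neg h4, if_neg (fun h5 => h4 (h5.trans h))]
  rw [h1]
  unfold VD
  rw [← Finset.prod_sdiff hsub]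
  have h2 : ∏ q ∈ SP D1 z \ SP D z, (1 - gD D1 q) ≤ 1 := by
    apply Finset.prod_le_one
    · intro q hq
      exact (VD_factor_nonneg (mem_SP.1 (mem_sdiff.1 hq).1).2.2.1).1
    · intro q hq
      exact (VD_factor_nonneg (mem_SP.1 (mem_sdiff.1 hq).1).2.2.1).2
  have h3 : 0 ≤ ∏ q ∈ SP D z, (1 - gD D1 q) := by
    apply Finset.prod_nonneg
    intro q hq
    exact (VD_factor_nonneg (mem_SP.1 hq).2.2.1).1
  calc _ ≤ 1 * ∏ q ∈ SP D z, (1 - gD D1 q) := mul_le_mul_of_nonneg_right h2 h3
    _ = _ := one_mul _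

lemma adm_four : Adm 4 3 := by
  refine ⟨by norm_num, by norm_num, by norm_num, ?_⟩
  intro q hq h3 h4
  have h5 : q ≤ 4 := Nat.le_of_dvd (by norm_num) h4
  interval_cases q
  · omega
  · exact absurd hq (by norm_num)

/-- the residue of an element of `Pz` is admissible -/
lemma adm_of_mem {x p D : ℕ} {z : ℝ} (hp : p ∈ Pz x z) (h4 : 4 ∣ D) (hD : 1 ≤ D) (hDp : D < p)
    (hz : (D : ℝ) < z) : Adm D (p % D) := by
  obtain ⟨h1, h2, h3, h5⟩ := mem_Pz.1 hp
  refine ⟨Nat.mod_lt _ (by omega), ?_, ?_, ?_⟩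
  · have h6 : Nat.Coprime p D := (Nat.Prime.coprime_iff_not_dvd h2).2
      (fun h => absurd (Nat.le_of_dvd (by omega) h) (by omega))
    unfold Nat.Coprime at h6 ⊢
    rw [← h6, Nat.gcd_comm p D, Nat.gcd_rec D p]
  · rw [Nat.mod_mod_of_dvd _ h4, h3]
  · intro q hq hq3 hqD h6
    rw [Nat.mod_mod_of_dvd _ hqD] at h6
    have hqz : (q : ℝ) < z := by
      have h7 : q ≤ D := Nat.le_of_dvd (by omega) hqD
      have h8 : (q : ℝ) ≤ D := by exact_mod_cast h7
      linarith
    apply h5 q hq hq3 hqz
    rw [← Nat.modEq_iff_dvd' h2.one_lt.le]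
    unfold Nat.ModEq
    rw [h6, Nat.mod_eq_of_lt hq.one_lt]

/-- the quadratic character of `m l` on the elements of a class -/
lemma notsq_of_class {p l : ℕ} [Fact p.Prime] [Fact l.Prime] {m : ℤ} {e : ℤ}
    (hp4 : p % 4 = 3) (hl : 5 ≤ l) (hlp : l ≠ p) (he : e = 1 ∨ e = -1) (hm : jacobiSym m p = e)
    (hu : quadraticChar (ZMod l) (p : ZMod l) = if l % 4 = 1 then -e else e) :
    ¬ IsSquare ((m * (l : ℤ) : ℤ) : ZMod p) := by
  have hl2 : l ≠ 2 := by omega
  have hp2 : p ≠ 2 := by
    rintro rfl
    omega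
  have hlodd : l % 4 = 1 ∨ l % 4 = 3 := by
    have h1 : Nat.Prime l := Fact.out
    have := h1.eq_two_or_odd
    omega
  -- `J(l | p) = -e`
  have h1 : jacobiSym (l : ℤ) p = -e := by
    have hqc : quadraticChar (ZMod l) (p : ZMod l) = jacobiSym (p : ℤ) l := by
      rw [← jacobiSym.legendreSym.to_jacobiSym]
      rw [legendreSym]
      push_cast
      rfl
    rw [hqc] at hu
    rcases hlodd with h | h
    · rw [if_pos h] at hu
      rw [jacobiSym.quadratic_reciprocity_one_mod_four h (by
        rw [Nat.odd_iff]; omega), hu]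
    · rw [if_neg (by omega)] at hu
      rw [jacobiSym.quadratic_reciprocity_three_mod_four h hp4, hu]
  have h2 : jacobiSym (m * (l : ℤ)) p = -1 := by
    rw [jacobiSym.mul_left, hm, h1]
    rcases he with rfl | rfl <;> norm_num
  rw [← jacobiSym.legendreSym.to_jacobiSym, legendreSym.eq_neg_one_iff] at h2
  exact h2

end Vale.Agent.P016.FE
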