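import Mathlib
import Vale.Agent.P016.FE.Defs

/-!
# Few exceptional bases: module S (subpower exceptional set)
-/

open Finset Real

namespace Vale.Agent.P016.FE.S

open Filter

/-! ### Asymptotics -/

theorem ev_log (c s : ℝ) (hs : 0 < s) : ∀ᶠ L : ℝ in atTop, c * log L ≤ L ^ s := by
  have h := (isLittleO_log_rpow_atTop hs).bound (c := 1 / (|c| + 1)) (by positivity)
  filter_upwards [h, eventually_ge_atTop 1] with L hL h1
  have h2 : 0 ≤ log L := log_nonneg h1
  have h3 : 0 < L ^ s := rpow_pos_of_pos (by linarith) s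
  rw [Real.norm_of_nonneg h2, Real.norm_of_nonneg h3.le] at hL
  have h4 : (|c| + 1) * log L ≤ L ^ s := by
    calc (|c| + 1) * log L ≤ (|c| + 1) * (1 / (|c| + 1) * L ^ s) := by gcongr
      _ = L ^ s := by field_simp
  nlinarith [le_abs_self c]

theorem ev_pow (c a b : ℝ) (hab : a < b) : ∀ᶠ L : ℝ in atTop, c * L ^ a ≤ L ^ b := by
  have h := (tendsto_rpow_atTop (sub_pos.mpr hab)).eventually_ge_atTop c
  filter_upwards [h, eventually_gt_atTop 0] with L hL h0
  have h1 : L ^ b = L ^ (b - a) * L ^ a := by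
    rw [← rpow_add h0]; congr 1; ring
  rw [h1]
  have := rpow_pos_of_pos h0 a
  gcongr

/-! ### Double counting -/

theorem card_primeFactors_le {n x : ℕ} (hn : n ≠ 0) (hx : n ≤ x) :
    (n.primeFactors.card : ℝ) ≤ 2 * log x := by
  have h1 : 2 ^ n.primeFactors.card ≤ n := by
    calc 2 ^ n.primeFactors.card ≤ ∏ p ∈ n.primeFactors, p :=
          Finset.pow_card_le_prod _ _ _ fun p hp => (Nat.prime_of_mem_primeFactors hp).two_le
      _ ≤ n := Nat.le_of_dvd (Nat.pos_of_ne_zero hn) (Nat.prod_primeFactors_dvd n)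
  have h2 : (2 : ℝ) ^ n.primeFactors.card ≤ x := by exact_mod_cast h1.trans hx
  have h3 := Real.log_le_log (by positivity) h2
  rw [Real.log_pow] at h3
  have h4 : (0.5 : ℝ) ≤ log 2 := by linarith [Real.log_two_gt_d9]
  have h5 : (0 : ℝ) ≤ n.primeFactors.card := by positivity
  nlinarith

open Classical in
theorem killed_le {x p : ℕ} {z : ℝ} {E : Finset ℤ} {α : ℕ} (hp : p.Prime) (hpx : p ≤ x)
    (h : p ∉ Gb x z E α) :
    ((E.filter (fun a => Kd z p a)).card : ℝ) ≤ 2 * log x * α := by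
  have hp1 : p - 1 ≠ 0 := by have := hp.two_le; omega
  have h1 : E.filter (fun a => Kd z p a) ⊆
      ((p - 1).primeFactors.filter (fun r : ℕ => z ≤ (r : ℝ))).biUnion
        (fun r : ℕ => E.filter (fun a => Res p r a)) := by
    intro a ha
    rw [mem_filter] at ha
    obtain ⟨haE, r, hr, hzr, hrp, hres⟩ := ha
    rw [mem_biUnion]
    refine ⟨r, mem_filter.mpr ⟨Nat.mem_primeFactors.mpr ⟨hr, hrp, hp1⟩, hzr⟩,
      mem_filter.mpr ⟨haE, hres⟩⟩
  have h2 : (E.filter (fun a => Kd z p a)).card ≤ (p - 1).primeFactors.card * α := by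
    refine (card_le_card h1).trans ((card_biUnion_le_card_mul _ _ α ?_).trans ?_)
    · intro r hr
      rw [mem_filter, Nat.mem_primeFactors] at hr
      by_contra hcon
      push Not at hcon
      apply h
      rw [Gb, mem_filter, mem_range]
      refine ⟨by omega, hp, r, hr.1.1, hr.2, hr.1.2.1, ?_⟩
      rw [mres]
      exact hcon.le
    · exact Nat.mul_le_mul_right _ (card_filter_le _ _)
  calc ((E.filter (fun a => Kd z p a)).card : ℝ) ≤ ((p - 1).primeFactors.card : ℝ) * α := by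
        exact_mod_cast h2
    _ ≤ 2 * log x * α := by
        gcongr
        exact card_primeFactors_le hp1 (by omega)

open Classical in
/-- double counting of killed pairs -/
theorem double_count {x : ℕ} {z : ℝ} {E : Finset ℤ} {α : ℕ} {B : ℝ}
    (h : ∀ a ∈ E, B ≤ (((Pz x z).filter (fun p => Kd z p a)).card : ℝ)) :
    E.card * B ≤ (Pz x z).card * (2 * log x * α) + (Gb x z E α).card * E.card := by
  have h1 : (E.card : ℝ) * B ≤ ∑ a ∈ E, (((Pz x z).filter (fun p => Kd z p a)).card : ℝ) := by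
    rw [← nsmul_eq_mul]
    exact Finset.card_nsmul_le_sum _ _ _ h
  have h2 : ∑ a ∈ E, (((Pz x z).filter (fun p => Kd z p a)).card : ℝ) =
      ∑ p ∈ Pz x z, ((E.filter (fun a => Kd z p a)).card : ℝ) := by
    have := Finset.sum_card_bipartiteAbove_eq_sum_card_bipartiteBelow
      (s := E) (t := Pz x z) (fun a p => Kd z p a)
    simp only [Finset.bipartiteAbove, Finset.bipartiteBelow] at this
    exact_mod_cast this
  have h3 : ∀ p ∈ Pz x z, ((E.filter (fun a => Kd z p a)).card : ℝ) ≤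
      2 * log x * α + (if p ∈ Gb x z E α then (E.card : ℝ) else 0) := by
    intro p hp
    rw [Pz, mem_filter, mem_range] at hp
    have hlog : 0 ≤ log (x : ℝ) := Real.log_natCast_nonneg x
    split_ifs with hG
    · have : ((E.filter (fun a => Kd z p a)).card : ℝ) ≤ E.card := by
        exact_mod_cast card_filter_le _ _
      have h0 : 0 ≤ 2 * log (x : ℝ) * α := by positivity
      linarith
    · rw [add_zero]
      exact killed_le hp.2.1 (by omega) hG
  refine h1.trans (h2.le.trans ((Finset.sum_le_sum h3).trans ?_))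
  rw [Finset.sum_add_distrib, Finset.sum_const, nsmul_eq_mul, ← Finset.sum_filter,
    Finset.sum_const, nsmul_eq_mul]
  gcongr
  intro p hp
  exact (mem_filter.mp hp).2

/-! ### Independence of primes -/

theorem factorization_prod_primes {S : Finset ℕ} (hS : ∀ l ∈ S, l.Prime) (w : ℕ → ℕ) {q : ℕ}
    (hq : q ∈ S) : (∏ l ∈ S, l ^ w l).factorization q = w q := by
  rw [Nat.factorization_prod fun l hl => pow_ne_zero _ (hS l hl).ne_zero,
    Finsupp.finsetSum_apply, Finset.sum_eq_single q]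
  · rw [(hS q hq).factorization_pow, Finsupp.single_eq_same]
  · intro l hl hlq
    rw [(hS l hl).factorization_pow, Finsupp.single_eq_of_ne (Ne.symm hlq)]
  · intro h; exact absurd hq h

theorem indep_primes {S : Finset ℕ} (hS : ∀ l ∈ S, l.Prime) :
    Indep (S.map Nat.castEmbedding) := by
  intro u v huv a ha
  rw [Finset.prod_map, Finset.prod_map] at huv
  have h1 : (∏ l ∈ S, l ^ u (l : ℤ)) = ∏ l ∈ S, l ^ v (l : ℤ) := by
    have : ((∏ l ∈ S, l ^ u (l : ℤ) : ℕ) : ℤ) = ((∏ l ∈ S, l ^ v (l : ℤ) : ℕ) : ℤ) := by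
      push_cast
      exact huv
    exact_mod_cast this
  obtain ⟨q, hq, rfl⟩ := Finset.mem_map.mp ha
  have h2 := factorization_prod_primes hS (fun l => u (l : ℤ)) hq
  have h3 := factorization_prod_primes hS (fun l => v (l : ℤ)) hq
  rw [h1] at h2
  exact h2.symm.trans h3

/-! ### Binomial coefficients -/

/-- the consequence of module G3 -/
theorem g3_cons (hG3 : GM3Stmt) {E : Finset ℤ} {Y : ℕ} (hY : ∀ a ∈ E, a.natAbs ≤ Y)
    (hE : Indep E) {x m α : ℕ} {z U : ℝ} (hm : 1 ≤ m) (hz : 0 < z)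
    (hC : 2 * (x : ℝ) / z ≤ (α.choose m : ℝ)) (hα : m ≤ α) (_hU : 0 ≤ U)
    (hn : (E.card : ℝ) ≤ U * ((α + 1 - m : ℕ) : ℝ)) :
    ((Gb x z E α).card : ℝ) * z ≤
      2 * x * U ^ (2 * m) * (m * ((Nat.log 2 Y : ℝ) + 1) + 1) := by
  have h := hG3 E Y hY hE x m α z hm hz hC
  set D : ℝ := ((α + 1 - m : ℕ) : ℝ) with hD
  have hD0 : 0 < D := by
    rw [hD]; exact_mod_cast (by omega : 0 < α + 1 - m)
  have hf : (0 : ℝ) < (m.factorial : ℝ) := by exact_mod_cast m.factorial_pos
  have h1 : D ^ m / (m.factorial : ℝ) ≤ (α.choose m : ℝ) := Nat.pow_le_choose (α := ℝ) m α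
  have h2 : (E.card.choose m : ℝ) ≤ (E.card : ℝ) ^ m / (m.factorial : ℝ) :=
    Nat.choose_le_pow_div m E.card
  have h3 : (E.card.choose m : ℝ) ≤ U ^ m * (D ^ m / (m.factorial : ℝ)) := by
    refine h2.trans ?_
    rw [← mul_div_assoc, ← mul_pow]
    gcongr
  have h4 : 0 ≤ D ^ m / (m.factorial : ℝ) := by positivity
  have h5 : 0 < D ^ m / (m.factorial : ℝ) := by positivity
  have h6 : (0 : ℝ) ≤ m * ((Nat.log 2 Y : ℝ) + 1) + 1 := by positivity
  have h7 : ((Gb x z E α).card : ℝ) * (D ^ m / (m.factorial : ℝ)) ^ 2 * z ≤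
      2 * x * (U ^ m * (D ^ m / (m.factorial : ℝ))) ^ 2 *
        (m * ((Nat.log 2 Y : ℝ) + 1) + 1) := by
    calc ((Gb x z E α).card : ℝ) * (D ^ m / (m.factorial : ℝ)) ^ 2 * z ≤
        ((Gb x z E α).card : ℝ) * (α.choose m : ℝ) ^ 2 * z := by gcongr
      _ ≤ 2 * x * (E.card.choose m : ℝ) ^ 2 * (m * ((Nat.log 2 Y : ℝ) + 1) + 1) := h
      _ ≤ _ := by gcongr
  have h8 : ((Gb x z E α).card : ℝ) * (D ^ m / (m.factorial : ℝ)) ^ 2 * z =
      (D ^ m / (m.factorial : ℝ)) ^ 2 * (((Gb x z E α).card : ℝ) * z) := by ring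
  have h9 : 2 * x * (U ^ m * (D ^ m / (m.factorial : ℝ))) ^ 2 *
        (m * ((Nat.log 2 Y : ℝ) + 1) + 1) = (D ^ m / (m.factorial : ℝ)) ^ 2 *
        (2 * x * U ^ (2 * m) * (m * ((Nat.log 2 Y : ℝ) + 1) + 1)) := by
    rw [pow_mul' U 2 m]; ring
  rw [h8, h9] at h7
  exact le_of_mul_le_mul_left h7 (by positivity)

/-! ### Parameters -/

/-- all the inequalities used for `L = log x` -/
structure Good (A η κ c₁ C L : ℝ) : Prop where
  e1 : 64 ≤ L
  e2 : 3 * log L ≤ L ^ (3 * η / 4)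
  e3 : 1 / κ * L ^ (3 * η / 4) ≤ L ^ (1 : ℝ)
  e4 : 1 / c₁ * L ^ (3 * η / 4) ≤ L ^ (1 : ℝ)
  e5 : 8 / c₁ * L ^ (3 * η / 4) ≤ L ^ η
  e6 : (|C| + 1) * log L ≤ L ^ (1 - η / 2)
  e7 : 8 * log L ≤ L ^ (1 - η / 2)
  e8 : 4 * L ^ (1 : ℝ) ≤ L ^ (1 + η / 8)
  e9 : 32 / c₁ * (4 * A + 3) ≤ L
  e10 : 14 * log L ≤ L ^ (η / 8)

theorem good_ev {A η κ c₁ C : ℝ} (hη : 0 < η) (hη1 : η < 1) :
    ∀ᶠ L : ℝ in atTop, Good A η κ c₁ C L := by
  filter_upwards [eventually_ge_atTop 64, ev_log 3 (3 * η / 4) (by linarith),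
    ev_pow (1 / κ) (3 * η / 4) 1 (by linarith), ev_pow (1 / c₁) (3 * η / 4) 1 (by linarith),
    ev_pow (8 / c₁) (3 * η / 4) η (by linarith), ev_log (|C| + 1) (1 - η / 2) (by linarith),
    ev_log 8 (1 - η / 2) (by linarith), ev_pow 4 1 (1 + η / 8) (by linarith),
    eventually_ge_atTop (32 / c₁ * (4 * A + 3)), ev_log 14 (η / 8) (by linarith)]
    with L h1 h2 h3 h4 h5 h6 h7 h8 h9 h10
  exact ⟨h1, h2, h3, h4, h5, h6, h7, h8, h9, h10⟩

/-- `2 x ≤ binomial (α, m)` -/
theorem choose_large {A η κ c₁ C L n D : ℝ} {m : ℕ} (hη : 0 < η) (hη1 : η < 1)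
    (hg : Good A η κ c₁ C L)
    (hm : L ^ (5 * η / 8) ≤ m) (hm2 : (m : ℝ) ≤ 2 * L) (hm1 : 1 ≤ m)
    (hn : exp (L ^ (1 - η / 2)) / 2 ≤ n) (hD : n ≤ 64 * L * D) :
    2 * exp L ≤ (D / m) ^ m := by
  obtain ⟨e1, e2, e3, e4, e5, e6, e7, e8, e9, e10⟩ := hg
  have hL0 : 0 < L := by linarith
  have hm0 : (0 : ℝ) < m := by exact_mod_cast hm1
  set s := L ^ (1 - η / 2) with hs
  have h1 : exp (s / 2) ≤ D / m := by
    have h2 : exp s / 2 ≤ 64 * L * D := hn.trans hD
    have h3 : 256 * L ^ 2 ≤ exp (s / 2) := by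
      have h4 : (L : ℝ) ^ 4 ≤ exp (s / 2) := by
        calc (L : ℝ) ^ 4 = exp (4 * log L) := by
              rw [show (4 : ℝ) * log L = log (L ^ 4) by rw [Real.log_pow]; norm_num,
                Real.exp_log (by positivity)]
          _ ≤ exp (s / 2) := by
              apply Real.exp_le_exp.mpr; linarith
      have h256 : 256 * L ^ 2 ≤ L ^ 4 := by
        have : (256 : ℝ) ≤ L ^ 2 := by nlinarith
        calc 256 * L ^ 2 ≤ L ^ 2 * L ^ 2 := by gcongr
          _ = L ^ 4 := by ring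
      exact h256.trans h4
    have h5 : exp s = exp (s / 2) * exp (s / 2) := by
      rw [← Real.exp_add]; congr 1; ring
    have hpos := Real.exp_pos (s / 2)
    rw [le_div_iff₀ hm0]
    have h6 : 128 * L * D ≥ exp (s / 2) * (256 * L ^ 2) := by
      calc 128 * L * D ≥ exp s := by linarith
        _ = exp (s / 2) * exp (s / 2) := h5
        _ ≥ _ := by gcongr
    have h7 : exp (s / 2) * (2 * L) ≤ D := by
      have : (128 * L) * (exp (s / 2) * (2 * L)) ≤ (128 * L) * D := by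
        calc (128 * L) * (exp (s / 2) * (2 * L)) = exp (s / 2) * (256 * L ^ 2) := by ring
          _ ≤ _ := h6
      exact le_of_mul_le_mul_left this (by positivity)
    calc exp (s / 2) * m ≤ exp (s / 2) * (2 * L) := by gcongr
      _ ≤ D := h7
  have h2 : 2 * L ≤ m * (s / 2) := by
    have h3 : L ^ (5 * η / 8) * s = L ^ (1 + η / 8) := by
      rw [hs, ← rpow_add hL0]; congr 1; ring
    have hs0 : 0 ≤ s := by positivity
    have h4 : L ^ (5 * η / 8) * s ≤ m * s := by gcongr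
    rw [Real.rpow_one] at e8
    linarith
  calc 2 * exp L ≤ exp L * exp L := by
        have : 2 ≤ exp L := by
          have := Real.add_one_le_exp L
          linarith
        have := Real.exp_pos L
        nlinarith
    _ = exp (2 * L) := by rw [← Real.exp_add]; congr 1; ring
    _ ≤ exp (m * (s / 2)) := Real.exp_le_exp.mpr h2
    _ = exp (s / 2) ^ m := by rw [Real.exp_nat_mul]
    _ ≤ (D / m) ^ m := by gcongr

/-- the final contradiction -/
theorem final_contra {A η κ c₁ C L : ℝ} {m : ℕ} (_hA : 0 < A) (hη : 0 < η) (hη1 : η < 1)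
    (hc : 0 < c₁) (hg : Good A η κ c₁ C L)
    (hm : (m : ℝ) ≤ 2 * L ^ (5 * η / 8)) (hm2 : (m : ℝ) ≤ 2 * L) {Y : ℝ} (hY0 : 0 ≤ Y)
    (hY : Y ≤ 2 * A * L) :
    32 / c₁ * (L * L ^ (3 * η / 4)) * ((64 * L) ^ (2 * m) * (m * (Y + 1) + 1)) <
      exp (L ^ (3 * η / 4)) := by
  obtain ⟨e1, e2, e3, e4, e5, e6, e7, e8, e9, e10⟩ := hg
  have hL0 : 0 < L := by linarith
  have hL1 : 1 ≤ L := by linarith
  set w := L ^ (5 * η / 8) with hw
  have hw1 : 1 ≤ w := Real.one_le_rpow hL1 (by linarith)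
  have ht : L ^ (3 * η / 4) ≤ L := by
    calc L ^ (3 * η / 4) ≤ L ^ (1 : ℝ) := Real.rpow_le_rpow_of_exponent_le hL1 (by linarith)
      _ = L := Real.rpow_one L
  have hlog : 0 ≤ log L := Real.log_nonneg hL1
  have hlogpos : 0 < log L := Real.log_pos (by linarith)
  have h1 : (m : ℝ) * (Y + 1) + 1 ≤ (4 * A + 3) * L ^ 2 := by
    have h2 : (m : ℝ) * (Y + 1) ≤ 2 * L * (2 * A * L + 1) := by gcongr
    nlinarith
  have h2 : (64 * L) ^ (2 * m) ≤ exp (8 * w * log L) := by
    calc (64 * L) ^ (2 * m) ≤ (L ^ 2) ^ (2 * m) := by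
          gcongr; nlinarith
      _ = exp (4 * m * log L) := by
          rw [← pow_mul, show (4 : ℝ) * m * log L = log (L ^ (2 * (2 * m))) by
            rw [Real.log_pow]; push_cast; ring, Real.exp_log (by positivity)]
      _ ≤ exp (8 * w * log L) := by
          apply Real.exp_le_exp.mpr
          nlinarith
  have h3 : 32 / c₁ * (L * L ^ (3 * η / 4)) * ((64 * L) ^ (2 * m) * (m * (Y + 1) + 1)) ≤
      L ^ 5 * exp (8 * w * log L) := by
    calc 32 / c₁ * (L * L ^ (3 * η / 4)) * ((64 * L) ^ (2 * m) * (m * (Y + 1) + 1)) ≤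
        32 / c₁ * (L * L) * (exp (8 * w * log L) * ((4 * A + 3) * L ^ 2)) := by gcongr
      _ = (32 / c₁ * (4 * A + 3)) * (L ^ 4 * exp (8 * w * log L)) := by ring
      _ ≤ L * (L ^ 4 * exp (8 * w * log L)) := by gcongr
      _ = _ := by ring
  refine h3.trans_lt ?_
  have h4 : L ^ 5 = exp (5 * log L) := by
    rw [show (5 : ℝ) * log L = log (L ^ 5) by rw [Real.log_pow]; norm_num,
      Real.exp_log (by positivity)]
  rw [h4, ← Real.exp_add]
  apply Real.exp_lt_exp.mpr
  have h5 : L ^ (3 * η / 4) = w * L ^ (η / 8) := by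
    rw [hw, ← rpow_add hL0]; congr 1; ring
  rw [h5]
  have h6 : w * (14 * log L) ≤ w * L ^ (η / 8) := by gcongr
  nlinarith [mul_pos (lt_of_lt_of_le one_pos hw1) hlogpos, mul_le_mul_of_nonneg_right hw1 hlog]

theorem natLog_le {x : ℕ} {A : ℝ} (hA : 0 < A) (hx : 1 ≤ x) :
    (Nat.log 2 ⌊(x : ℝ) ^ A⌋₊ : ℝ) ≤ 2 * A * log x := by
  have hx0 : (0 : ℝ) < x := by exact_mod_cast hx
  have hlog : 0 ≤ log (x : ℝ) := Real.log_natCast_nonneg x
  rcases Nat.eq_zero_or_pos ⌊(x : ℝ) ^ A⌋₊ with h0 | h0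
  · rw [h0]
    simp only [Nat.log_zero_right, Nat.cast_zero]
    positivity
  · have h1 : (2 : ℝ) ^ (Nat.log 2 ⌊(x : ℝ) ^ A⌋₊) ≤ (x : ℝ) ^ A := by
      calc (2 : ℝ) ^ (Nat.log 2 ⌊(x : ℝ) ^ A⌋₊) ≤ (⌊(x : ℝ) ^ A⌋₊ : ℝ) := by
            exact_mod_cast Nat.pow_log_le_self 2 h0.ne'
        _ ≤ (x : ℝ) ^ A := Nat.floor_le (by positivity)
    have h2 := Real.log_le_log (by positivity) h1
    rw [Real.log_pow, Real.log_rpow hx0] at h2
    have h3 : (0.5 : ℝ) ≤ log 2 := by linarith [Real.log_two_gt_d9]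
    have h4 : (0 : ℝ) ≤ (Nat.log 2 ⌊(x : ℝ) ^ A⌋₊ : ℝ) := by positivity
    nlinarith

/-- the core estimate: a set `S` of primes `≤ x ^ A` whose elements are all killed often -/
theorem core (hG3 : GM3Stmt) {A η κ c₁ C : ℝ} (hA : 0 < A) (hη : 0 < η) (hη1 : η < 1)
    (hc : 0 < c₁) {x : ℕ} (hx : 1 ≤ x) (hg : Good A η κ c₁ C (log x)) {z : ℝ}
    (hz : z = exp ((log x) ^ (3 * η / 4)))
    (hPz : c₁ * (x / (log x * (log x) ^ (3 * η / 4))) ≤ ((Pz x z).card : ℝ))
    {S : Finset ℕ} (hS : ∀ l ∈ S, l.Prime ∧ l ≤ ⌊(x : ℝ) ^ A⌋₊)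
    (hk : ∀ a ∈ S.map Nat.castEmbedding, ((Pz x z).card : ℝ) / 8 ≤
      (by classical exact (((Pz x z).filter (fun p => Kd z p a)).card : ℝ)))
    (hn : exp ((log x) ^ (1 - η / 2)) / 2 ≤ S.card) : False := by
  classical
  have hg' := hg
  obtain ⟨e1, e2, e3, e4, e5, e6, e7, e8, e9, e10⟩ := hg
  have hx0 : (0 : ℝ) < x := by exact_mod_cast hx
  have hxexp : exp (log (x : ℝ)) = x := Real.exp_log hx0
  set L := log (x : ℝ) with hLdef
  set t := L ^ (3 * η / 4) with ht
  set s := L ^ (1 - η / 2) with hs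
  have hL0 : 0 < L := by linarith
  have hL1 : 1 ≤ L := by linarith
  have ht0 : 0 < t := by positivity
  set m := ⌈L ^ (5 * η / 8)⌉₊ with hmdef
  have hw1 : 1 ≤ L ^ (5 * η / 8) := Real.one_le_rpow hL1 (by linarith)
  have hwL : L ^ (5 * η / 8) ≤ L := by
    calc L ^ (5 * η / 8) ≤ L ^ (1 : ℝ) := Real.rpow_le_rpow_of_exponent_le hL1 (by linarith)
      _ = L := Real.rpow_one L
  have hm : L ^ (5 * η / 8) ≤ m := Nat.le_ceil _
  have hm' : (m : ℝ) ≤ 2 * L ^ (5 * η / 8) := by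
    have := Nat.ceil_lt_add_one (a := L ^ (5 * η / 8)) (by linarith)
    linarith
  have hm2 : (m : ℝ) ≤ 2 * L := by linarith
  have hm1 : 1 ≤ m := by
    have : (1 : ℝ) ≤ m := hw1.trans hm
    exact_mod_cast this
  have hcard : (S.map Nat.castEmbedding : Finset ℤ).card = S.card := Finset.card_map _
  set n : ℝ := (S.card : ℝ) with hndef
  have hbig : 128 * L ^ 2 ≤ n := by
    have h4 : (L : ℝ) ^ 4 ≤ exp s := by
      calc (L : ℝ) ^ 4 = exp (4 * log L) := by
            rw [show (4 : ℝ) * log L = log (L ^ 4) by rw [Real.log_pow]; norm_num,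
              Real.exp_log (by positivity)]
        _ ≤ exp s := by
            apply Real.exp_le_exp.mpr
            have : 0 ≤ log L := Real.log_nonneg hL1
            linarith
    have h256 : 256 * L ^ 2 ≤ L ^ 4 := by
      have : (256 : ℝ) ≤ L ^ 2 := by nlinarith
      calc 256 * L ^ 2 ≤ L ^ 2 * L ^ 2 := by gcongr
        _ = L ^ 4 := by ring
    linarith
  have hn0 : 0 < n := by
    have := Real.exp_pos s
    linarith
  set α := ⌊n / (32 * L)⌋₊ with hα
  have hα1 : (α : ℝ) ≤ n / (32 * L) := Nat.floor_le (by positivity)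
  have hα2 : n / (32 * L) < α + 1 := Nat.lt_floor_add_one _
  have hmn : (m : ℝ) ≤ n / (64 * L) := by
    rw [le_div_iff₀ (by positivity)]
    nlinarith
  have h3264 : n / (32 * L) = 2 * (n / (64 * L)) := by field_simp; norm_num
  have hmα : m ≤ α := by
    have h1 : (2 * m : ℝ) < α + 1 := by linarith
    have h2 : 2 * m < α + 1 := by exact_mod_cast h1
    omega
  have hD : ((α + 1 - m : ℕ) : ℝ) = α + 1 - m := by
    rw [Nat.cast_sub (by omega)]; push_cast; ring
  have hnD : n ≤ 64 * L * ((α + 1 - m : ℕ) : ℝ) := by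
    rw [hD]
    have h1 : n / (64 * L) ≤ α + 1 - m := by linarith
    rw [div_le_iff₀ (by positivity)] at h1
    linarith
  -- the lower bound for `Gb`
  have hdc := double_count (x := x) (z := z) (E := S.map Nat.castEmbedding) (α := α) hk
  rw [hcard, ← hndef, ← hLdef] at hdc
  have hGb : ((Pz x z).card : ℝ) / 16 ≤ ((Gb x z (S.map Nat.castEmbedding) α).card : ℝ) := by
    have h1 : ((Pz x z).card : ℝ) * (2 * L * α) ≤ (Pz x z).card * (n / 16) := by
      have h2 : 2 * L * α ≤ n / 16 := by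
        have h3 : 2 * L * α ≤ 2 * L * (n / (32 * L)) := by gcongr
        have h4 : 2 * L * (n / (32 * L)) = n / 16 := by field_simp; norm_num
        linarith
      gcongr
    have h2 : n * (((Pz x z).card : ℝ) / 16) ≤
        n * ((Gb x z (S.map Nat.castEmbedding) α).card : ℝ) := by linarith
    exact le_of_mul_le_mul_left h2 hn0
  -- the upper bound
  have hz0 : 0 < z := by rw [hz]; exact Real.exp_pos _
  have hz1 : 1 ≤ z := by rw [hz]; exact Real.one_le_exp ht0.le
  have hD0 : 0 < ((α + 1 - m : ℕ) : ℝ) := by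
    exact_mod_cast (by omega : 0 < α + 1 - m)
  have hlarge := choose_large (n := n) (D := ((α + 1 - m : ℕ) : ℝ)) (m := m) hη hη1 hg' hm hm2
    hm1 hn hnD
  have hch : 2 * (x : ℝ) / z ≤ (α.choose m : ℝ) := by
    have hm0 : (0 : ℝ) < m := by exact_mod_cast hm1
    calc 2 * (x : ℝ) / z ≤ 2 * x := div_le_self (by positivity) hz1
      _ = 2 * exp L := by rw [hxexp]
      _ ≤ (((α + 1 - m : ℕ) : ℝ) / m) ^ m := hlarge
      _ = ((α + 1 - m : ℕ) : ℝ) ^ m / (m : ℝ) ^ m := by rw [div_pow]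
      _ ≤ ((α + 1 - m : ℕ) : ℝ) ^ m / (m.factorial : ℝ) := by
          gcongr
          exact_mod_cast Nat.factorial_le_pow m
      _ ≤ (α.choose m : ℝ) := by
          have := Nat.pow_le_choose (α := ℝ) m α
          exact_mod_cast this
  have hup := g3_cons hG3 (E := S.map Nat.castEmbedding) (Y := ⌊(x : ℝ) ^ A⌋₊) (x := x) (m := m)
    (α := α) (z := z) (U := 64 * L) ?_ (indep_primes fun l hl => (hS l hl).1) hm1 hz0 hch hmα
    (by positivity) (by rw [hcard]; exact hnD)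
  · have hfin := final_contra (m := m) hA hη hη1 hc hg' hm' hm2
      (Y := (Nat.log 2 ⌊(x : ℝ) ^ A⌋₊ : ℝ)) (by positivity) (natLog_le hA hx)
    rw [← ht, ← hz] at hfin
    set R := (64 * L) ^ (2 * m) * (m * ((Nat.log 2 ⌊(x : ℝ) ^ A⌋₊ : ℝ) + 1) + 1) with hR
    have h1 : c₁ * (x / (L * t)) / 16 * z ≤ 2 * x * R := by
      calc c₁ * (x / (L * t)) / 16 * z ≤ ((Pz x z).card : ℝ) / 16 * z := by gcongr
        _ ≤ ((Gb x z (S.map Nat.castEmbedding) α).card : ℝ) * z := by gcongr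
        _ ≤ _ := hup
        _ = 2 * x * R := by rw [hR]; ring
    have h2 : z ≤ 32 / c₁ * (L * t) * R := by
      have h3 : c₁ * (x / (L * t)) / 16 * z = (c₁ * x / (16 * (L * t))) * z := by
        field_simp
      have h4 : 2 * x * R = (c₁ * x / (16 * (L * t))) * (32 / c₁ * (L * t) * R) := by
        field_simp
        ring
      rw [h3, h4] at h1
      exact le_of_mul_le_mul_left h1 (by positivity)
    linarith
  · intro a ha
    obtain ⟨q, hq, rfl⟩ := Finset.mem_map.mp ha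
    exact (hS q hq).2

end Vale.Agent.P016.FE.S

namespace Vale.Agent.P016.FE

open Filter S

/-- **module S** -/
theorem sub (hK : KStmt) (hG3 : GM3Stmt) (hL : LStmt) (hQ : QStmt) : SubStmt := by
  classical
  intro A η hA hη hη1
  obtain ⟨κ, c₁, hκ, hc₁, hL⟩ := hL
  obtain ⟨C, hC, x₁, hQ⟩ := hQ A hA
  obtain ⟨x₂, hL⟩ := hL 1 one_pos
  have hg : ∀ᶠ x : ℕ in atTop, Good A η κ c₁ C (log x) :=
    (tendsto_log_atTop.comp tendsto_natCast_atTop_atTop).eventually (good_ev hη hη1)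
  obtain ⟨x₃, hg⟩ := eventually_atTop.mp hg
  refine ⟨max (max x₁ 1) (max x₂ x₃), fun x hx => ?_⟩
  have hx1 : x₁ ≤ x := (le_max_left _ _).trans ((le_max_left _ _).trans hx)
  have hx1' : 1 ≤ x := (le_max_right _ _).trans ((le_max_left _ _).trans hx)
  have hx2 : x₂ ≤ x := (le_max_left _ _).trans ((le_max_right _ _).trans hx)
  have hx3 : x₃ ≤ x := (le_max_right _ _).trans ((le_max_right _ _).trans hx)
  have hgx := hg x hx3
  have hg' := hgx
  obtain ⟨e1, e2, e3, e4, e5, e6, e7, e8, e9, e10⟩ := hgx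
  have hx0 : (0 : ℝ) < x := by exact_mod_cast hx1'
  have hxexp : exp (log (x : ℝ)) = x := Real.exp_log hx0
  have hL0 : 0 < log (x : ℝ) := by linarith
  have hL1 : 1 ≤ log (x : ℝ) := by linarith
  set L := log (x : ℝ) with hLdef
  set t := L ^ (3 * η / 4) with ht
  have ht0 : 0 < t := by positivity
  set z := exp t with hz
  have hlogz : log z = t := Real.log_exp t
  have hlogL : 0 ≤ log L := Real.log_nonneg hL1
  have hlogL1 : 1 ≤ log L := by
    rw [Real.le_log_iff_exp_le hL0]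
    have := Real.exp_one_lt_d9
    linarith
  -- the lower bound for `Pz`
  have hPz : c₁ * (x / (L * t)) ≤ ((Pz x z).card : ℝ) := by
    have h1 := hL x hx2 z ?_ ?_ 1 5 one_ne_zero (by norm_num) le_rfl (by norm_num) ?_
    · rw [hlogz] at h1
      refine h1.trans ?_
      exact_mod_cast card_le_card (filter_subset _ _)
    · calc L ^ ((1 : ℝ) + 2) = exp (3 * log L) := by
            rw [Real.rpow_def_of_pos hL0]; congr 1; ring
        _ ≤ z := Real.exp_le_exp.mpr e2
    · rw [Real.rpow_def_of_pos hx0]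
      apply Real.exp_le_exp.mpr
      rw [Real.rpow_one] at e3
      rw [one_div, inv_mul_le_iff₀ hκ] at e3
      linarith
    · rw [Real.rpow_one]
      push_cast
      rw [abs_one]
      linarith
  have ht1 : t ≤ c₁ * L := by
    rw [Real.rpow_one] at e4
    rw [one_div, inv_mul_le_iff₀ hc₁] at e4
    exact e4
  have hPz2 : (x : ℝ) / L ^ 2 ≤ ((Pz x z).card : ℝ) := by
    refine le_trans ?_ hPz
    rw [← mul_div_assoc, div_le_div_iff₀ (by positivity) (by positivity)]
    nlinarith [mul_le_mul_of_nonneg_left ht1 (by positivity : (0 : ℝ) ≤ x * L)]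
  have hQ1 := hQ x hx1 (Pz x z) (fun p hp => by
    rw [Pz, mem_filter, mem_range] at hp
    exact ⟨hp.2.1, hp.2.2.1, by omega⟩) hPz2
  -- the exceptional sets
  set N := ⌊(x : ℝ) ^ A⌋₊ with hN
  by_contra hcon
  rw [not_le] at hcon
  set B : Finset ℕ := (range (N + 1)).filter (fun l : ℕ => l.Prime ∧
    (artinCount l x : ℝ) < x / L ^ (1 + η)) with hB
  have hBcard : exp (L ^ (1 - η / 2)) < (B.card : ℝ) := hcon
  set Q : Finset ℕ := (range (N + 1)).filter (fun l : ℕ => l.Prime ∧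
      4 * ((Pz x z).filter (fun p => ¬ IsSquare (l : ZMod p))).card < (Pz x z).card) with hQdef
  have hQcard : (Q.card : ℝ) ≤ L ^ C := hQ1
  have hSB : (B.card : ℝ) ≤ ((B \ Q).card : ℝ) + Q.card := by
    have h1 : B.card ≤ (B \ Q).card + Q.card := by
      calc B.card ≤ ((B \ Q) ∪ Q).card := card_le_card (by
            intro l hl
            by_cases hlQ : l ∈ Q
            · exact mem_union_right _ hlQ
            · exact mem_union_left _ (Finset.mem_sdiff.mpr ⟨hl, hlQ⟩))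
        _ ≤ _ := card_union_le _ _
    exact_mod_cast h1
  have hQsmall : L ^ C ≤ exp (L ^ (1 - η / 2)) / 2 := by
    have h1 : L ^ C * 2 ≤ exp (L ^ (1 - η / 2)) := by
      calc L ^ C * 2 ≤ exp (|C| * log L) * exp (log L) := by
            have h2 : L ^ C ≤ exp (|C| * log L) := by
              rw [Real.rpow_def_of_pos hL0]
              apply Real.exp_le_exp.mpr
              nlinarith [le_abs_self C]
            have h3 : 2 ≤ exp (log L) := by rw [Real.exp_log hL0]; linarith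
            gcongr
        _ = exp ((|C| + 1) * log L) := by rw [← Real.exp_add]; congr 1; ring
        _ ≤ _ := Real.exp_le_exp.mpr e6
    linarith
  have hScard : exp (L ^ (1 - η / 2)) / 2 ≤ ((B \ Q).card : ℝ) := by linarith
  refine core hG3 (S := B \ Q) (z := z) hA hη hη1 hc₁ hx1' hg' rfl hPz (fun l hl => ?_) ?_ hScard
  · rw [Finset.mem_sdiff, hB, mem_filter, mem_range] at hl
    exact ⟨hl.1.2.1, by omega⟩
  · intro a ha
    obtain ⟨l, hl, rfl⟩ := Finset.mem_map.mp ha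
    rw [Finset.mem_sdiff, hB, hQdef, mem_filter, mem_filter, mem_range] at hl
    obtain ⟨⟨hlN, hlp, hlB⟩, hlQ⟩ := hl
    have h4 : (Pz x z).card ≤ 4 * ((Pz x z).filter (fun p => ¬ IsSquare (l : ZMod p))).card := by
      by_contra hcon
      exact hlQ ⟨hlN, hlp, not_le.mp hcon⟩
    have h5 : (Pa x z (l : ℤ)).card =
        ((Pz x z).filter (fun p => ¬ IsSquare (l : ZMod p))).card := by
      refine congrArg Finset.card (Finset.ext fun p => ?_)
      rw [Pa, mem_filter, mem_filter, Int.cast_natCast]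
    have h6 := hK x z (l : ℤ)
    have h7 : ((Pz x z).card : ℝ) ≤ 4 * ((artinCount (l : ℤ) x : ℝ) +
        (((Pz x z).filter (fun p => Kd z p (l : ℤ))).card : ℝ)) := by
      have h8 : (Pz x z).card ≤ 4 * (artinCount (l : ℤ) x +
          ((Pz x z).filter (fun p => Kd z p (l : ℤ))).card) := by
        refine h4.trans (Nat.mul_le_mul_left 4 ?_)
        rw [← h5]
        exact h6
      exact_mod_cast h8
    have h9 : (x : ℝ) / L ^ (1 + η) ≤ ((Pz x z).card : ℝ) / 8 := by
      have h10 : (x : ℝ) / L ^ (1 + η) ≤ c₁ * (x / (L * t)) / 8 := by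
        rw [← mul_div_assoc, div_div, div_le_div_iff₀ (by positivity) (by positivity),
          Real.rpow_add hL0, Real.rpow_one]
        have h11 : 8 * t ≤ c₁ * L ^ η := by
          rw [div_mul_eq_mul_div, div_le_iff₀ hc₁] at e5
          linarith
        have h12 := mul_le_mul_of_nonneg_left h11 (by positivity : (0 : ℝ) ≤ x * L)
        linarith
      have h13 : c₁ * (x / (L * t)) / 8 ≤ ((Pz x z).card : ℝ) / 8 := by gcongr
      exact h10.trans h13
    show ((Pz x z).card : ℝ) / 8 ≤ (((Pz x z).filter (fun p => Kd z p (l : ℤ))).card : ℝ)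
    linarith

end Vale.Agent.P016.FE

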