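import Mathlib
import Vale.Agent.P016.FE.Defs
import Vale.Agent.P016.FE.DefsN
import Vale.Agent.P016.FE.S
import Vale.Agent.P016.FE.CP

/-!
# Module N: order of magnitude up to `log log x`, exceptional set `x ^ (C / log log x)`
-/

open Finset Real Filter

namespace Vale.Agent.P016.FE

/-- all the inequalities used for `L = log x` -/
structure GoodN (κ c₀ Λ M₀ C A CQ L : ℝ) : Prop where
  e0 : 3 ≤ L
  e1 : 8 * log L ≤ κ * L
  e2 : 256 * log L < c₀ * L
  e3 : (|CQ| + 1) * log L ^ 2 ≤ C * L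
  e4 : 1 ≤ M₀ * log L
  e5 : 8 * M₀ * Λ * L * log L ≤ exp (C * (L / log L) / 2)
  e6 : 2 * (M₀ * log L) * (2 * A * L + 1) + 1 ≤ L ^ 2

theorem ev_logsq (c d : ℝ) (hd : 0 < d) : ∀ᶠ L : ℝ in atTop, c * log L ^ 2 ≤ d * L := by
  have h := (isLittleO_pow_log_id_atTop (n := 2)).bound (c := d / (|c| + 1)) (by positivity)
  filter_upwards [h, eventually_ge_atTop 0] with L hL h0
  have h2 : 0 ≤ log L ^ 2 := by positivity
  rw [Real.norm_of_nonneg h2, id, Real.norm_of_nonneg h0] at hL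
  have h4 : (|c| + 1) * log L ^ 2 ≤ d * L := by
    calc (|c| + 1) * log L ^ 2 ≤ (|c| + 1) * (d / (|c| + 1) * L) := by gcongr
      _ = d * L := by field_simp
  nlinarith [le_abs_self c]

theorem goodN_ev {κ c₀ Λ M₀ C A CQ : ℝ} (hκ : 0 < κ) (hc₀ : 0 < c₀) (hΛ : 0 < Λ) (hM : 0 < M₀)
    (hC : 0 < C) : ∀ᶠ L : ℝ in atTop, GoodN κ c₀ Λ M₀ C A CQ L := by
  have hlog := tendsto_log_atTop.eventually_ge_atTop (max 1 (1 / M₀))
  filter_upwards [eventually_ge_atTop 3, ev_logsq 8 κ hκ, ev_logsq 256 (c₀ / 2) (by linarith),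
    ev_logsq (|CQ| + 1) C hC, hlog, ev_logsq (2 * (log (8 * M₀ * Λ) + 2)) C hC,
    S.ev_log (2 * M₀ * (2 * A + 1)) (1 / 2) (by norm_num), eventually_ge_atTop 4,
    ev_logsq 4 C hC]
    with L h1 h2 h3 h4 h5 h6 h7 h8 h9
  have hL0 : 0 < L := by linarith
  have hl1 : 1 ≤ log L := (le_max_left _ _).trans h5
  have hlM : 1 / M₀ ≤ log L := (le_max_right _ _).trans h5
  have hsq : log L ≤ log L ^ 2 := by nlinarith
  refine ⟨h1, by linarith, ?_, h4, ?_, ?_, ?_⟩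
  · have : 0 < c₀ * L := by positivity
    linarith
  · rw [div_le_iff₀ hM] at hlM
    linarith
  · have hpos : 0 < 8 * M₀ * Λ := by positivity
    have hpos2 : 0 < 8 * M₀ * Λ * L * log L := by positivity
    rw [← Real.log_le_iff_le_exp hpos2, Real.log_mul (by positivity) (by positivity),
      Real.log_mul (by positivity) (by positivity)]
    have h10 : log (log L) ≤ log L := by
      have := Real.log_le_sub_one_of_pos (show 0 < log L by linarith)
      linarith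
    have h11 : (log (8 * M₀ * Λ) + 2) * log L ≤ C * (L / log L) / 2 := by
      rw [mul_div_assoc', div_div, le_div_iff₀ (by positivity)]
      linarith
    have h12 : 2 * log L ≤ C * (L / log L) / 2 := by
      rw [mul_div_assoc', div_div, le_div_iff₀ (by positivity)]
      linarith
    rcases le_or_gt 0 (log (8 * M₀ * Λ)) with h13 | h13
    · nlinarith
    · linarith
  · have h10 : L ^ (1 / 2 : ℝ) ≤ L / 2 := by
      rw [← Real.sqrt_eq_rpow]
      have hs : 2 ≤ √L := by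
        rw [show (2 : ℝ) = √4 by
          rw [show (4 : ℝ) = 2 ^ 2 by norm_num, Real.sqrt_sq (by norm_num)]]
        exact Real.sqrt_le_sqrt h8
      have := Real.mul_self_sqrt hL0.le
      nlinarith
    have h11 : 2 * (M₀ * log L) * (2 * A * L + 1) ≤ (2 * M₀ * (2 * A + 1) * log L) * L := by
      have : 2 * A * L + 1 ≤ (2 * A + 1) * L := by linarith
      calc 2 * (M₀ * log L) * (2 * A * L + 1) ≤ 2 * (M₀ * log L) * ((2 * A + 1) * L) := by gcongr
        _ = _ := by ring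
    have h12 : (2 * M₀ * (2 * A + 1) * log L) * L ≤ L / 2 * L := by
      gcongr
      linarith
    nlinarith

theorem near_pow {κ c₀ Λ M₀ C A CQ L : ℝ} (hΛ : 1 ≤ Λ) (hM0 : 0 < M₀) (hC0 : 0 < C)
    (hC : C * M₀ = 4) (hg : GoodN κ c₀ Λ M₀ C A CQ L) {n : ℝ}
    (hn : exp (C * (L / log L)) / 2 ≤ n) {m k : ℕ} (hm1 : M₀ * log L ≤ m)
    (hm2 : (m : ℝ) ≤ 2 * (M₀ * log L)) {U : ℝ} (hU0 : 0 < U) (hUL : U ≤ Λ * L)
    (hk : 2 * n ≤ U * k) :
    m ≤ k ∧ n ≤ U * ((k + 1 - m : ℕ) : ℝ) ∧ 2 * exp L ≤ (((k + 1 - m : ℕ) : ℝ) / m) ^ m := by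
  obtain ⟨e0, e1, e2, e3, e4, e5, e6⟩ := hg
  have hL0 : 0 < L := by linarith
  set w := log L with hw
  have hw1 : 1 ≤ w := by
    rw [hw, Real.le_log_iff_exp_le hL0]
    have := Real.exp_one_lt_d9
    linarith
  have hw0 : 0 < w := by linarith
  have hm0 : (0 : ℝ) < m := by linarith
  have hbig : exp (C * (L / w) / 2) * (2 * (M₀ * w) * (Λ * L)) ≤ n := by
    have h1 : exp (C * (L / w)) = exp (C * (L / w) / 2) * exp (C * (L / w) / 2) := by
      rw [← Real.exp_add]; congr 1; ring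
    have h2 : exp (C * (L / w) / 2) * (8 * M₀ * Λ * L * w) ≤
        exp (C * (L / w) / 2) * exp (C * (L / w) / 2) :=
      mul_le_mul_of_nonneg_left e5 (Real.exp_pos _).le
    have h3 : 0 ≤ exp (C * (L / w) / 2) * (M₀ * w * (Λ * L)) := by positivity
    linarith
  have hD : (m : ℝ) * U * exp (C * (L / w) / 2) ≤ n := by
    calc (m : ℝ) * U * exp (C * (L / w) / 2) ≤
        (2 * (M₀ * w)) * (Λ * L) * exp (C * (L / w) / 2) := by gcongr
      _ = exp (C * (L / w) / 2) * (2 * (M₀ * w) * (Λ * L)) := by ring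
      _ ≤ n := hbig
  have hmU : (m : ℝ) * U ≤ n := by
    have h1 : 1 ≤ exp (C * (L / w) / 2) := Real.one_le_exp (by positivity)
    calc (m : ℝ) * U = m * U * 1 := (mul_one _).symm
      _ ≤ m * U * exp (C * (L / w) / 2) := by gcongr
      _ ≤ n := hD
  have hkm : (m : ℝ) ≤ k / 2 := by
    have h1 : U * m ≤ U * (k / 2) := by linarith
    exact le_of_mul_le_mul_left h1 hU0
  have hmk : m ≤ k := by
    have h0 : (0 : ℝ) ≤ k := Nat.cast_nonneg k
    have : (m : ℝ) ≤ k := by linarith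
    exact_mod_cast this
  have hDc : ((k + 1 - m : ℕ) : ℝ) = k + 1 - m := by
    rw [Nat.cast_sub (by omega)]; push_cast; ring
  have hnU : n ≤ U * ((k + 1 - m : ℕ) : ℝ) := by
    rw [hDc]
    have h1 : (k : ℝ) / 2 ≤ k + 1 - m := by linarith
    calc n ≤ U * (k / 2) := by linarith
      _ ≤ _ := by gcongr
  have hDm : exp (C * (L / w) / 2) ≤ ((k + 1 - m : ℕ) : ℝ) / m := by
    rw [le_div_iff₀ hm0]
    have h1 : U * (exp (C * (L / w) / 2) * m) ≤ U * ((k + 1 - m : ℕ) : ℝ) := by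
      calc U * (exp (C * (L / w) / 2) * m) = m * U * exp (C * (L / w) / 2) := by ring
        _ ≤ n := hD
        _ ≤ _ := hnU
    exact le_of_mul_le_mul_left h1 hU0
  refine ⟨hmk, hnU, ?_⟩
  have h2 : 2 * L ≤ m * (C * (L / w) / 2) := by
    have h3 : M₀ * w * (C * (L / w) / 2) = C * M₀ * L / 2 := by
      field_simp
    rw [hC] at h3
    have h4 : 0 ≤ C * (L / w) / 2 := by positivity
    calc 2 * L = M₀ * w * (C * (L / w) / 2) := by rw [h3]; ring
      _ ≤ _ := by gcongr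
  calc 2 * exp L ≤ exp L * exp L := by
        have : 2 ≤ exp L := by
          have := Real.add_one_le_exp L
          linarith
        have := Real.exp_pos L
        nlinarith
    _ = exp (2 * L) := by rw [← Real.exp_add]; congr 1; ring
    _ ≤ exp (m * (C * (L / w) / 2)) := Real.exp_le_exp.mpr h2
    _ = exp (C * (L / w) / 2) ^ m := by rw [Real.exp_nat_mul]
    _ ≤ _ := by gcongr

theorem near_U {Λ M₀ w : ℝ} (hΛ : 1 ≤ Λ) (hM : 4 * M₀ * (log Λ + 1) = 3) {m j : ℕ}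
    (hm2 : (m : ℝ) ≤ 2 * (M₀ * w)) (hj : 1 ≤ j) :
    (Λ * ((j : ℝ) + 1)) ^ (2 * m) ≤ exp (3 * w * j) := by
  have hj1 : (1 : ℝ) ≤ j := by exact_mod_cast hj
  have hU0 : 0 < Λ * ((j : ℝ) + 1) := by positivity
  have hlogΛ : 0 ≤ log Λ := Real.log_nonneg hΛ
  have hlogU : log (Λ * ((j : ℝ) + 1)) ≤ (log Λ + 1) * j := by
    rw [Real.log_mul (by linarith) (by positivity)]
    have h1 : log ((j : ℝ) + 1) ≤ j := by
      have := Real.log_le_sub_one_of_pos (show (0 : ℝ) < j + 1 by positivity)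
      linarith
    nlinarith
  have h1 : (Λ * ((j : ℝ) + 1)) ^ (2 * m) = exp (2 * m * log (Λ * ((j : ℝ) + 1))) := by
    rw [show (2 : ℝ) * m * log (Λ * ((j : ℝ) + 1)) = log ((Λ * ((j : ℝ) + 1)) ^ (2 * m)) by
      rw [Real.log_pow]; push_cast; ring, Real.exp_log (by positivity)]
  rw [h1]
  apply Real.exp_le_exp.mpr
  calc 2 * m * log (Λ * ((j : ℝ) + 1)) ≤ 2 * m * ((log Λ + 1) * j) := by gcongr
    _ ≤ 2 * (2 * (M₀ * w)) * ((log Λ + 1) * j) := by gcongr
    _ = (4 * M₀ * (log Λ + 1)) * w * j := by ring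
    _ = 3 * w * j := by rw [hM]

/-- upper bound for the exceptional primes with `j t ≤ log r < (j + 1) t` -/
theorem near_gb (hG3 : GM3Stmt) {E : Finset ℤ} {κ c₀ Λ M₀ C A CQ : ℝ} (hΛ : 1 ≤ Λ)
    (hM : 4 * M₀ * (log Λ + 1) = 3) (hM0 : 0 < M₀) (hC0 : 0 < C) (hC : C * M₀ = 4) (hA : 0 < A)
    {x : ℕ} (hx : 1 ≤ x) (hg : GoodN κ c₀ Λ M₀ C A CQ (log x)) (hE : Indep E)
    (hY : ∀ a ∈ E, a.natAbs ≤ ⌊(x : ℝ) ^ A⌋₊)
    (hn : exp (C * (log x / log (log x))) / 2 ≤ (E.card : ℝ)) {j : ℕ} (hj : 1 ≤ j)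
    (hjL : (j : ℝ) + 1 ≤ log x) {k : ℕ} (hk : 2 * (E.card : ℝ) ≤ Λ * (j + 1) * k) :
    ((Gb x (exp (j * (8 * log (log x)))) E k).card : ℝ) ≤ 2 * x / log x ^ 3 := by
  have hg' := hg
  obtain ⟨e0, e1, e2, e3, e4, e5, e6⟩ := hg
  have hx0 : (0 : ℝ) < x := by exact_mod_cast hx
  have hxexp : exp (log (x : ℝ)) = x := Real.exp_log hx0
  set L := log (x : ℝ) with hLdef
  set w := log L with hw
  have hL0 : 0 < L := by linarith
  have hw1 : 1 ≤ w := by
    rw [hw, Real.le_log_iff_exp_le hL0]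
    have := Real.exp_one_lt_d9
    linarith
  have hw0 : 0 < w := by linarith
  have hj1 : (1 : ℝ) ≤ j := by exact_mod_cast hj
  obtain ⟨m, hm⟩ : ∃ m : ℕ, m = ⌈M₀ * w⌉₊ := ⟨_, rfl⟩
  have hm1 : M₀ * w ≤ m := by rw [hm]; exact Nat.le_ceil _
  have hm2 : (m : ℝ) ≤ 2 * (M₀ * w) := by
    have := Nat.ceil_lt_add_one (a := M₀ * w) (by linarith)
    rw [← hm] at this
    linarith
  have hm1' : 1 ≤ m := by
    have : (1 : ℝ) ≤ m := e4.trans hm1
    exact_mod_cast this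
  have hU0 : 0 < Λ * ((j : ℝ) + 1) := by positivity
  have hUL : Λ * ((j : ℝ) + 1) ≤ Λ * L := mul_le_mul_of_nonneg_left hjL (by linarith)
  obtain ⟨hmk, hnU, hpow⟩ := near_pow hΛ hM0 hC0 hC hg' hn hm1 hm2 hU0 hUL hk
  obtain ⟨ρ, hρ⟩ : ∃ ρ : ℝ, ρ = exp (j * (8 * w)) := ⟨_, rfl⟩
  rw [← hρ]
  have hρ0 : 0 < ρ := by rw [hρ]; exact Real.exp_pos _
  have hρ1 : 1 ≤ ρ := by rw [hρ]; exact Real.one_le_exp (by positivity)
  have hch : 2 * (x : ℝ) / ρ ≤ (k.choose m : ℝ) := by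
    have hm0 : (0 : ℝ) < m := by exact_mod_cast hm1'
    calc 2 * (x : ℝ) / ρ ≤ 2 * x := div_le_self (by positivity) hρ1
      _ = 2 * exp L := by rw [hxexp]
      _ ≤ (((k + 1 - m : ℕ) : ℝ) / m) ^ m := hpow
      _ = ((k + 1 - m : ℕ) : ℝ) ^ m / (m : ℝ) ^ m := by rw [div_pow]
      _ ≤ ((k + 1 - m : ℕ) : ℝ) ^ m / (m.factorial : ℝ) := by
          gcongr
          exact_mod_cast Nat.factorial_le_pow m
      _ ≤ (k.choose m : ℝ) := by
          have := Nat.pow_le_choose (α := ℝ) m k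
          exact_mod_cast this
  have hup := S.g3_cons hG3 (E := E) (Y := ⌊(x : ℝ) ^ A⌋₊) (x := x) (m := m) (α := k) (z := ρ)
    (U := Λ * ((j : ℝ) + 1)) hY hE hm1' hρ0 hch hmk hU0.le hnU
  have hUpow := near_U hΛ hM hm2 hj
  have hlast : (m : ℝ) * ((Nat.log 2 ⌊(x : ℝ) ^ A⌋₊ : ℝ) + 1) + 1 ≤ L ^ 2 := by
    refine le_trans ?_ e6
    have h1 := S.natLog_le (x := x) hA hx
    rw [← hLdef] at h1
    gcongr
  obtain ⟨G, hG⟩ : ∃ G : ℝ, G = ((Gb x ρ E k).card : ℝ) := ⟨_, rfl⟩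
  rw [← hG] at hup ⊢
  have hG0 : 0 ≤ G := by rw [hG]; positivity
  have hfin : G * ρ ≤ 2 * x * exp (3 * w * j) * L ^ 2 := by
    refine hup.trans ?_
    have h1 : 0 ≤ (m : ℝ) * ((Nat.log 2 ⌊(x : ℝ) ^ A⌋₊ : ℝ) + 1) + 1 := by positivity
    exact mul_le_mul (mul_le_mul_of_nonneg_left hUpow (by positivity)) hlast h1 (by positivity)
  have hρ5 : exp (3 * w * j) * exp (5 * w * j) = ρ := by
    rw [hρ, ← Real.exp_add]; congr 1; ring
  have h5 : L ^ 5 ≤ exp (5 * w * j) := by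
    calc L ^ 5 = exp (5 * w) := by
          rw [show (5 : ℝ) * w = log (L ^ 5) by rw [Real.log_pow, ← hw]; norm_num,
            Real.exp_log (by positivity)]
      _ ≤ _ := by
          apply Real.exp_le_exp.mpr
          nlinarith
  rw [le_div_iff₀ (by positivity)]
  rw [← hρ5] at hfin
  have h6 : G * exp (5 * w * j) ≤ 2 * x * L ^ 2 := by
    have h7 : exp (3 * w * j) * (G * exp (5 * w * j)) ≤
        exp (3 * w * j) * (2 * x * L ^ 2) := by linarith
    exact le_of_mul_le_mul_left h7 (Real.exp_pos _)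
  have h8 : G * L ^ 5 ≤ 2 * x * L ^ 2 :=
    (mul_le_mul_of_nonneg_left h5 hG0).trans h6
  have h9 : L ^ 2 * (G * L ^ 3) ≤ L ^ 2 * (2 * x) := by linarith
  exact le_of_mul_le_mul_left h9 (by positivity)

open Classical in
/-- the exceptional primes are few -/
theorem near_exc (hG3 : GM3Stmt) {E : Finset ℤ} {κ c₀ Λ M₀ C A CQ : ℝ} (hΛ : 1 ≤ Λ)
    (hM : 4 * M₀ * (log Λ + 1) = 3) (hM0 : 0 < M₀) (hC0 : 0 < C) (hC : C * M₀ = 4) (hA : 0 < A)
    {x : ℕ} (hx : 1 ≤ x) (hg : GoodN κ c₀ Λ M₀ C A CQ (log x)) (hE : Indep E)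
    (hY : ∀ a ∈ E, a.natAbs ≤ ⌊(x : ℝ) ^ A⌋₊)
    (hn : exp (C * (log x / log (log x))) / 2 ≤ (E.card : ℝ)) {c₂ t : ℝ} (hc₂ : 0 < c₂)
    (hc₂Λ : 2 ≤ Λ * c₂) (ht : t = 8 * log (log x)) {z : ℝ} (hz0 : 0 < z) (hzt : log z = t)
    (S : Finset ℕ) (hS : ∀ p ∈ S, p.Prime ∧ p ≤ x ∧ ∃ r : ℕ, r.Prime ∧ z ≤ r ∧ r ∣ p - 1 ∧
      E.card * c₂ * t / log r ≤ (mres E p r : ℝ)) :
    (S.card : ℝ) ≤ 2 * x / log x ^ 2 := by
  have hg' := hg
  obtain ⟨e0, e1, e2, e3, e4, e5, e6⟩ := hg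
  have hx0 : (0 : ℝ) < x := by exact_mod_cast hx
  obtain ⟨L, hL⟩ : ∃ L : ℝ, L = log (x : ℝ) := ⟨_, rfl⟩
  rw [← hL] at e0 e4 ht hn hg' ⊢
  have hL0 : 0 < L := by linarith
  have hw1 : 1 ≤ log L := by
    rw [Real.le_log_iff_exp_le hL0]
    have := Real.exp_one_lt_d9
    linarith
  have ht8 : 8 ≤ t := by linarith
  have ht0 : 0 < t := by linarith
  set J : ℕ := ⌊L / t⌋₊ with hJ
  set k : ℕ → ℕ := fun j => ⌈E.card * c₂ / ((j : ℝ) + 1)⌉₊ with hk
  have hsub : S ⊆ (Finset.Icc 1 J).biUnion (fun j : ℕ => Gb x (exp (j * t)) E (k j)) := by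
    intro p hp
    obtain ⟨hpp, hpx, r, hr, hzr, hrd, hmr⟩ := hS p hp
    have hp2 := hpp.two_le
    have hr0 : (0 : ℝ) < r := by exact_mod_cast hr.pos
    have hrx : r < x := by
      have := Nat.le_of_dvd (by omega) hrd
      omega
    have hlr : t ≤ log r := by rw [← hzt]; exact Real.log_le_log hz0 hzr
    have hlr0 : 0 < log r := by linarith
    have hlrL : log r ≤ L := by
      rw [hL]
      exact Real.log_le_log hr0 (by exact_mod_cast hrx.le)
    have hq : 1 ≤ log r / t := by rw [le_div_iff₀ ht0, one_mul]; exact hlr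
    rw [Finset.mem_biUnion]
    refine ⟨⌊log r / t⌋₊, Finset.mem_Icc.2 ⟨Nat.le_floor (by exact_mod_cast hq), ?_⟩, ?_⟩
    · exact Nat.floor_le_floor (by gcongr)
    · rw [Gb, mem_filter, mem_range]
      refine ⟨by omega, hpp, r, hr, ?_, hrd, ?_⟩
      · rw [← Real.le_log_iff_exp_le hr0]
        have := Nat.floor_le (show 0 ≤ log (r : ℝ) / t by positivity)
        rwa [le_div_iff₀ ht0] at this
      · rw [hk]
        apply Nat.ceil_le.2
        refine le_trans ?_ hmr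
        have h1 := Nat.lt_floor_add_one (log (r : ℝ) / t)
        rw [div_lt_iff₀ ht0] at h1
        rw [div_le_div_iff₀ (by positivity) hlr0]
        calc (E.card : ℝ) * c₂ * log r ≤ E.card * c₂ * ((⌊log (r : ℝ) / t⌋₊ + 1) * t) := by
              gcongr
          _ = _ := by ring
  have hJL : (J : ℝ) ≤ L / 8 := by
    calc (J : ℝ) ≤ L / t := Nat.floor_le (by positivity)
      _ ≤ L / 8 := by gcongr
  have hterm : ∀ j ∈ Finset.Icc 1 J, ((Gb x (exp (j * t)) E (k j)).card : ℝ) ≤ 2 * x / L ^ 3 := by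
    intro j hj
    rw [Finset.mem_Icc] at hj
    have hj1 : (1 : ℝ) ≤ j := by exact_mod_cast hj.1
    have hjJ : (j : ℝ) ≤ J := by exact_mod_cast hj.2
    have h1 := near_gb hG3 (k := k j) hΛ hM hM0 hC0 hC hA hx (by rw [← hL]; exact hg') hE hY
      (by rw [← hL]; exact hn) hj.1 (by rw [← hL]; linarith) ?_
    · rw [← hL, ← ht] at h1
      exact h1
    · have h2 : (E.card : ℝ) * c₂ / ((j : ℝ) + 1) ≤ (k j : ℝ) := Nat.le_ceil _
      have h3 : (0 : ℝ) ≤ E.card := Nat.cast_nonneg _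
      calc 2 * (E.card : ℝ) ≤ (Λ * c₂) * E.card := by gcongr
        _ = Λ * (j + 1) * (E.card * c₂ / ((j : ℝ) + 1)) := by field_simp
        _ ≤ _ := by gcongr
  calc (S.card : ℝ) ≤ (((Finset.Icc 1 J).biUnion
        (fun j : ℕ => Gb x (exp (j * t)) E (k j))).card : ℝ) := by
        exact_mod_cast Finset.card_le_card hsub
    _ ≤ ∑ j ∈ Finset.Icc 1 J, ((Gb x (exp (j * t)) E (k j)).card : ℝ) := by
        exact_mod_cast Finset.card_biUnion_le
    _ ≤ ∑ j ∈ Finset.Icc 1 J, 2 * x / L ^ 3 := Finset.sum_le_sum hterm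
    _ = J * (2 * x / L ^ 3) := by
        rw [Finset.sum_const, nsmul_eq_mul, Nat.card_Icc]; norm_num
    _ ≤ L * (2 * x / L ^ 3) := by gcongr; linarith
    _ = 2 * x / L ^ 2 := by field_simp

open Classical in
/-- the core estimate: a set of independent integers, each killed often, is small -/
theorem near_core (hG3 : GM3Stmt) {E : Finset ℤ} {κ c₀ K Λ M₀ C A CQ : ℝ} (hc₀ : 0 < c₀)
    (hK : 0 < K) (hΛ : 1 ≤ Λ) (hΛc : 2 ≤ Λ * (c₀ / (544 * K)))
    (hM : 4 * M₀ * (log Λ + 1) = 3) (hM0 : 0 < M₀) (hC0 : 0 < C) (hC : C * M₀ = 4) (hA : 0 < A)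
    {x : ℕ} (hx : 2 ≤ x) (hg : GoodN κ c₀ Λ M₀ C A CQ (log x)) (hE : Indep E)
    (hY : ∀ a ∈ E, a.natAbs ≤ ⌊(x : ℝ) ^ A⌋₊)
    (hn : exp (C * (log x / log (log x))) / 2 ≤ (E.card : ℝ)) {z : ℝ} (hz0 : 0 < z)
    (hzt : log z = 8 * log (log x)) (hzL : log z ≤ log x)
    (h0 : c₀ * (x / (log x * log z)) ≤ ((Pz x z).card : ℝ))
    (h1 : ((Pz x z).card : ℝ) ≤ K * (x / (log x * log z)))
    (h2 : ∀ r : ℕ, r.Prime → z ≤ r → (r : ℝ) ≤ (x : ℝ) ^ (0.6 : ℝ) →
      (((Pz x z).filter (fun p => r ∣ p - 1)).card : ℝ) ≤ K * (x / (r * (log x * log z))))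
    (hk : ∀ a ∈ E, ((Pz x z).card : ℝ) / 8 ≤
      (((Pz x z).filter (fun p => Kd z p a)).card : ℝ)) : False := by
  have hg' := hg
  obtain ⟨e0, e1, e2, e3, e4, e5, e6⟩ := hg
  have hx0 : (0 : ℝ) < x := by exact_mod_cast (by omega : 0 < x)
  set L : ℝ := log x with hL
  set t : ℝ := log z with ht
  have hL0 : 0 < L := by linarith
  have hw1 : 1 ≤ log L := by
    rw [Real.le_log_iff_exp_le hL0]
    have := Real.exp_one_lt_d9
    linarith
  have ht8 : 8 ≤ t := by linarith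
  have ht0 : 0 < t := by linarith
  have hX : 0 < (x : ℝ) / (L * t) := by positivity
  set n : ℝ := (E.card : ℝ) with hndef
  have hn0 : 0 < n := by
    have := Real.exp_pos (C * (L / log L))
    linarith
  obtain ⟨c₂, hc₂⟩ : ∃ c₂ : ℝ, c₂ = c₀ / (544 * K) := ⟨_, rfl⟩
  have hc₂0 : 0 < c₂ := by rw [hc₂]; positivity
  rw [← hc₂] at hΛc
  obtain ⟨L', hL'⟩ : ∃ L' : ℝ, L' = n * c₂ * t / 2 := ⟨_, rfl⟩
  have hL'0 : 0 ≤ L' := by rw [hL']; positivity
  -- lower bound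
  have hlow2 : n * (((Pz x z).card : ℝ) / 8) ≤
      ∑ a ∈ E, (((Pz x z).filter (fun p => Kd z p a)).card : ℝ) := by
    rw [hndef, ← nsmul_eq_mul]
    exact Finset.card_nsmul_le_sum _ _ _ hk
  have hswap : ∑ a ∈ E, (((Pz x z).filter (fun p => Kd z p a)).card : ℝ) =
      ∑ p ∈ Pz x z, ((E.filter (fun a => Kd z p a)).card : ℝ) := by
    have := Finset.sum_card_bipartiteAbove_eq_sum_card_bipartiteBelow
      (s := E) (t := Pz x z) (fun a p => Kd z p a)
    simp only [Finset.bipartiteAbove, Finset.bipartiteBelow] at this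
    exact_mod_cast this
  rw [hswap] at hlow2
  set Ex : Finset ℕ := (Pz x z).filter (fun p => ∃ r : ℕ, r.Prime ∧ z ≤ r ∧ r ∣ p - 1 ∧
    2 * L' / log r ≤ (mres E p r : ℝ)) with hEx
  have hpt : ∀ p ∈ Pz x z, ((E.filter (fun a => Kd z p a)).card : ℝ) ≤
      (if p ∈ Ex then n else 0) +
        ∑ r ∈ (Rz x z).filter (fun r => r ∣ p - 1), 2 * L' / log r := by
    intro p hp
    have hnn : 0 ≤ ∑ r ∈ (Rz x z).filter (fun r => r ∣ p - 1), 2 * L' / log r := by
      apply Finset.sum_nonneg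
      intro r hr
      exact div_nonneg (by positivity) (Real.log_natCast_nonneg r)
    by_cases hpe : p ∈ Ex
    · rw [if_pos hpe]
      have : ((E.filter (fun a => Kd z p a)).card : ℝ) ≤ n := by
        rw [hndef]
        exact_mod_cast Finset.card_le_card (Finset.filter_subset _ _)
      linarith
    · rw [if_neg hpe, zero_add]
      apply cp_point x z E p hp L'
      intro hex
      exact hpe (Finset.mem_filter.2 ⟨hp, hex⟩)
  have hcp := cp_sum x z K hx hz0 (by linarith) hzL hK h1 h2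
  rw [← hL, ← ht] at hcp
  have hsum : ∑ p ∈ Pz x z, ∑ r ∈ (Rz x z).filter (fun r => r ∣ p - 1), 2 * L' / log r ≤
      c₀ / 16 * (x / (L * t)) * n := by
    have h3 : ∑ p ∈ Pz x z, ∑ r ∈ (Rz x z).filter (fun r => r ∣ p - 1), 2 * L' / log r =
        (L' / L) * ∑ p ∈ Pz x z, ∑ r ∈ (Rz x z).filter (fun r => r ∣ p - 1), 2 * L / log r := by
      rw [Finset.mul_sum]
      refine Finset.sum_congr rfl fun p _ => ?_
      rw [Finset.mul_sum]
      refine Finset.sum_congr rfl fun r _ => ?_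
      field_simp
    rw [h3]
    calc (L' / L) * ∑ p ∈ Pz x z, ∑ r ∈ (Rz x z).filter (fun r => r ∣ p - 1), 2 * L / log r ≤
        (L' / L) * (68 * K * (x / (L * t)) * (L / t)) := by gcongr
      _ = c₀ / 16 * (x / (L * t)) * n := by
          rw [hL', hc₂]
          field_simp
          ring
  have hup : ∑ p ∈ Pz x z, ((E.filter (fun a => Kd z p a)).card : ℝ) ≤
      n * Ex.card + c₀ / 16 * (x / (L * t)) * n := by
    refine (Finset.sum_le_sum hpt).trans ?_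
    rw [Finset.sum_add_distrib]
    apply add_le_add _ hsum
    rw [← Finset.sum_filter, Finset.sum_const, nsmul_eq_mul, mul_comm]
    apply mul_le_mul_of_nonneg_left _ hn0.le
    exact_mod_cast Finset.card_le_card (fun p hp => (Finset.mem_filter.1 hp).2)
  have hEx1 := near_exc hG3 hΛ hM hM0 hC0 hC hA (by omega) hg' hE hY hn hc₂0 hΛc hzt hz0 rfl Ex
    (by
      intro p hp
      rw [hEx, Finset.mem_filter] at hp
      obtain ⟨hp', r, hr1, hr2, hr3, hr4⟩ := hp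
      unfold Pz at hp'
      rw [Finset.mem_filter, Finset.mem_range] at hp'
      refine ⟨hp'.2.1, by omega, r, hr1, hr2, hr3, ?_⟩
      have h5 : n * c₂ * t / log r = 2 * L' / log r := by rw [hL']; ring
      rw [← hndef, h5]
      exact hr4)
  rw [← hL] at hEx1
  have h9 : n * (c₀ / 16 * (x / (L * t))) ≤ n * Ex.card := by
    have h10 : n * (c₀ * (x / (L * t)) / 8) ≤ n * (((Pz x z).card : ℝ) / 8) := by gcongr
    linarith
  have h10 : c₀ / 16 * (x / (L * t)) ≤ 2 * x / L ^ 2 :=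
    (le_of_mul_le_mul_left h9 hn0).trans hEx1
  rw [← mul_div_assoc, div_le_div_iff₀ (by positivity) (by positivity), hzt] at h10
  have h11 : (x * L) * (c₀ * L) ≤ (x * L) * (256 * log L) := by nlinarith
  have h12 := le_of_mul_le_mul_left h11 (by positivity)
  linarith

/-- the parameter `z = (log x) ^ 8` -/
theorem near_params {κ c₀ Λ M₀ C A CQ : ℝ} (hκ1 : κ ≤ 1) {x : ℕ} (hx : 2 ≤ x)
    (hg : GoodN κ c₀ Λ M₀ C A CQ (log x)) : ∃ z : ℝ, 3 ≤ z ∧ (log x) ^ 3 ≤ z ∧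
      z ≤ (x : ℝ) ^ κ ∧ log z = 8 * log (log x) ∧ log z ≤ log x := by
  obtain ⟨e0, e1, e2, e3, e4, e5, e6⟩ := hg
  have hx0 : (0 : ℝ) < x := by exact_mod_cast (by omega : 0 < x)
  set L := log (x : ℝ) with hLdef
  have hL0 : 0 < L := by linarith
  have hz0 : 0 < L ^ 8 := by positivity
  have hlogz : log (L ^ 8) = 8 * log L := by rw [Real.log_pow]; norm_num
  have hκL : κ * L ≤ L := by nlinarith
  refine ⟨L ^ 8, ?_, pow_le_pow_right₀ (by linarith) (by norm_num), ?_, hlogz, ?_⟩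
  · calc (3 : ℝ) ≤ L := e0
      _ = L ^ 1 := (pow_one L).symm
      _ ≤ L ^ 8 := pow_le_pow_right₀ (by linarith) (by norm_num)
  · rw [← Real.exp_log hz0, Real.rpow_def_of_pos hx0]
    apply Real.exp_le_exp.mpr
    rw [hlogz, ← hLdef]
    linarith
  · rw [hlogz]; linarith

theorem near_Qsmall {κ c₀ Λ M₀ C A CQ L : ℝ} (hg : GoodN κ c₀ Λ M₀ C A CQ L) :
    L ^ CQ ≤ exp (C * (L / log L)) / 2 := by
  obtain ⟨e0, e1, e2, e3, e4, e5, e6⟩ := hg
  have hL0 : 0 < L := by linarith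
  have hw1 : 1 ≤ log L := by
    rw [Real.le_log_iff_exp_le hL0]
    have := Real.exp_one_lt_d9
    linarith
  have hw0 : 0 < log L := by linarith
  have h1 : L ^ CQ * 2 ≤ exp (C * (L / log L)) := by
    calc L ^ CQ * 2 ≤ exp (|CQ| * log L) * exp (log L) := by
          have h2 : L ^ CQ ≤ exp (|CQ| * log L) := by
            rw [Real.rpow_def_of_pos hL0]
            apply Real.exp_le_exp.mpr
            nlinarith [le_abs_self CQ]
          have h3 : 2 ≤ exp (log L) := by rw [Real.exp_log hL0]; linarith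
          gcongr
      _ = exp ((|CQ| + 1) * log L) := by rw [← Real.exp_add]; congr 1; ring
      _ ≤ _ := by
          apply Real.exp_le_exp.mpr
          rw [mul_div_assoc', le_div_iff₀ hw0]
          linarith
  linarith

open Classical in
theorem near_kill (hK : KStmt) {x : ℕ} {z B : ℝ} {l : ℕ}
    (h4 : (Pz x z).card ≤ 4 * ((Pz x z).filter (fun p => ¬ IsSquare (l : ZMod p))).card)
    (hB : (artinCount l x : ℝ) < B) (h9 : B ≤ ((Pz x z).card : ℝ) / 8) :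
    ((Pz x z).card : ℝ) / 8 ≤ (((Pz x z).filter (fun p => Kd z p (l : ℤ))).card : ℝ) := by
  have h5 : (Pa x z (l : ℤ)).card =
      ((Pz x z).filter (fun p => ¬ IsSquare (l : ZMod p))).card := by
    refine congrArg Finset.card (Finset.ext fun p => ?_)
    rw [Pa, mem_filter, mem_filter, Int.cast_natCast]
  have h6 := hK x z (l : ℤ)
  have h7 : ((Pz x z).card : ℝ) ≤ 4 * ((artinCount (l : ℤ) x : ℝ) +
      (((Pz x z).filter (fun p => Kd z p (l : ℤ))).card : ℝ)) := by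
    have h8 : (Pz x z).card ≤ 4 * (artinCount (l : ℤ) x +
        ((Pz x z).filter (fun p => Kd z p (l : ℤ))).card) := by
      refine h4.trans (Nat.mul_le_mul_left 4 ?_)
      rw [← h5]
      exact h6
    exact_mod_cast h8
  linarith

theorem near_split {B Q : Finset ℕ} {a b : ℝ} (h1 : a < (B.card : ℝ)) (h2 : (Q.card : ℝ) ≤ b)
    (h3 : b ≤ a / 2) : a / 2 ≤ ((B \ Q).card : ℝ) := by
  have h4 : B.card ≤ (B \ Q).card + Q.card := by
    calc B.card ≤ ((B \ Q) ∪ Q).card := card_le_card (by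
          intro l hl
          by_cases hlQ : l ∈ Q
          · exact mem_union_right _ hlQ
          · exact mem_union_left _ (Finset.mem_sdiff.mpr ⟨hl, hlQ⟩))
      _ ≤ _ := card_union_le _ _
  have h5 : (B.card : ℝ) ≤ ((B \ Q).card : ℝ) + Q.card := by exact_mod_cast h4
  linarith

/-- **module N** -/
theorem near (hK : KStmt) (hG3 : GM3Stmt) (hU : UStmt) (hPz : PzStmt) (hQ : QStmt) :
    NearStmt := by
  classical
  obtain ⟨κU, K, hκU, hKpos, xU, hU⟩ := hU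
  obtain ⟨κP, c₀, hκP, hc₀, xP, hPz⟩ := hPz
  obtain ⟨Λ, hΛdef⟩ : ∃ Λ : ℝ, Λ = 1088 * K / c₀ + 1 := ⟨_, rfl⟩
  have hΛ : 1 ≤ Λ := by
    have : 0 < 1088 * K / c₀ := by positivity
    linarith
  have hlogΛ : 0 ≤ log Λ := Real.log_nonneg hΛ
  obtain ⟨M₀, hM₀⟩ : ∃ M₀ : ℝ, M₀ = 3 / (4 * (log Λ + 1)) := ⟨_, rfl⟩
  have hM0 : 0 < M₀ := by rw [hM₀]; positivity
  have hM : 4 * M₀ * (log Λ + 1) = 3 := by
    rw [hM₀]; field_simp
  obtain ⟨C, hCdef⟩ : ∃ C : ℝ, C = 4 / M₀ := ⟨_, rfl⟩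
  have hC0 : 0 < C := by rw [hCdef]; positivity
  have hC : C * M₀ = 4 := by rw [hCdef]; field_simp
  have hΛc : 2 ≤ Λ * (c₀ / (544 * K)) := by
    have h1 : Λ * (c₀ / (544 * K)) = 2 + c₀ / (544 * K) := by
      rw [hΛdef]; field_simp; ring
    rw [h1]
    have : 0 < c₀ / (544 * K) := by positivity
    linarith
  refine ⟨c₀ / 64, C, by positivity, hC0, fun A hA => ?_⟩
  obtain ⟨CQ, hCQ, xQ, hQ⟩ := hQ A hA
  obtain ⟨κ, hκ⟩ : ∃ κ : ℝ, κ = min (min κU κP) 1 := ⟨_, rfl⟩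
  have hκ0 : 0 < κ := by rw [hκ]; exact lt_min (lt_min hκU hκP) one_pos
  have hκ1 : κ ≤ 1 := by rw [hκ]; exact min_le_right _ _
  have hκU2 : κ ≤ κU := by rw [hκ]; exact (min_le_left _ _).trans (min_le_left _ _)
  have hκP2 : κ ≤ κP := by rw [hκ]; exact (min_le_left _ _).trans (min_le_right _ _)
  have hg : ∀ᶠ x : ℕ in atTop, GoodN κ c₀ Λ M₀ C A CQ (log x) :=
    (tendsto_log_atTop.comp tendsto_natCast_atTop_atTop).eventually
      (goodN_ev hκ0 hc₀ (by linarith) hM0 hC0)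
  obtain ⟨xg, hg⟩ := eventually_atTop.mp hg
  refine ⟨max (max xU xP) (max (max xQ xg) 2), fun x hx => ?_⟩
  have hxU : xU ≤ x := (le_max_left _ _).trans ((le_max_left _ _).trans hx)
  have hxP : xP ≤ x := (le_max_right _ _).trans ((le_max_left _ _).trans hx)
  have hxQ : xQ ≤ x := (le_max_left _ _).trans
    ((le_max_left _ _).trans ((le_max_right _ _).trans hx))
  have hxg : xg ≤ x := (le_max_right _ _).trans
    ((le_max_left _ _).trans ((le_max_right _ _).trans hx))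
  have hx2 : 2 ≤ x := (le_max_right _ _).trans ((le_max_right _ _).trans hx)
  have hg' := hg x hxg
  have e0 := hg'.e0
  have e2 := hg'.e2
  have hx1 : (1 : ℝ) ≤ x := by exact_mod_cast (by omega : 1 ≤ x)
  have hx0 : (0 : ℝ) < x := by linarith
  obtain ⟨z, hz3, hL3z, hzκ, hlogz, hzL⟩ := near_params hκ1 hx2 hg'
  have hz0 : 0 < z := by linarith
  have hP := hPz x hxP z hz3 (hzκ.trans (Real.rpow_le_rpow_of_exponent_le hx1 hκP2))
  obtain ⟨hU1, hU2⟩ := hU x hxU z hL3z (hzκ.trans (Real.rpow_le_rpow_of_exponent_le hx1 hκU2))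
  have hL0 : 0 < log (x : ℝ) := by linarith
  have hw0 : 0 < log (log (x : ℝ)) := Real.log_pos (by linarith)
  have hPz2 : (x : ℝ) / log x ^ 2 ≤ ((Pz x z).card : ℝ) := by
    refine le_trans ?_ hP
    rw [hlogz, ← mul_div_assoc, div_le_div_iff₀ (by positivity) (by positivity)]
    have h1 : 8 * log (log (x : ℝ)) ≤ c₀ * log x := by linarith
    nlinarith [mul_le_mul_of_nonneg_left h1 (by positivity : (0 : ℝ) ≤ x * log x)]
  have hQ1 := hQ x hxQ (Pz x z) (fun p hp => by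
    rw [Pz, mem_filter, mem_range] at hp
    exact ⟨hp.2.1, hp.2.2.1, by omega⟩) hPz2
  -- the exceptional sets
  by_contra hcon
  rw [not_le] at hcon
  have hScard := near_split hcon hQ1 (near_Qsmall hg')
  have hcard : ∀ S : Finset ℕ, (S.map Nat.castEmbedding : Finset ℤ).card = S.card :=
    fun S => Finset.card_map _
  refine near_core hG3 (E := ((range (⌊(x : ℝ) ^ A⌋₊ + 1)).filter (fun l : ℕ => l.Prime ∧
    (artinCount l x : ℝ) < c₀ / 64 * (x / (log x * log (log x)))) \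
      (range (⌊(x : ℝ) ^ A⌋₊ + 1)).filter (fun l : ℕ => l.Prime ∧
      4 * ((Pz x z).filter (fun p => ¬ IsSquare (l : ZMod p))).card < (Pz x z).card)).map
        Nat.castEmbedding) (z := z) (κ := κ) (CQ := CQ) hc₀
    hKpos hΛ hΛc hM hM0 hC0 hC hA hx2 hg' (S.indep_primes fun l hl => ?_) ?_ ?_ hz0
    hlogz hzL hP hU1 hU2 ?_
  · rw [Finset.mem_sdiff, mem_filter] at hl
    exact hl.1.2.1
  · intro a ha
    obtain ⟨q, hq, rfl⟩ := Finset.mem_map.mp ha
    rw [Finset.mem_sdiff, mem_filter, mem_range] at hq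
    exact Nat.lt_succ_iff.mp hq.1.1
  · rw [hcard]
    exact hScard
  · intro a ha
    obtain ⟨l, hl, rfl⟩ := Finset.mem_map.mp ha
    rw [Finset.mem_sdiff, mem_filter, mem_filter, mem_range] at hl
    obtain ⟨⟨hlN, hlp, hlB⟩, hlQ⟩ := hl
    refine near_kill hK ?_ hlB ?_
    · by_contra hcon
      exact hlQ ⟨hlN, hlp, not_le.mp hcon⟩
    · have h10 : c₀ / 64 * ((x : ℝ) / (log x * log (log x))) =
          c₀ * (x / (log x * log z)) / 8 := by
        rw [hlogz]; field_simp; norm_num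
      rw [h10]
      gcongr

end Vale.Agent.P016.FE
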