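import Mathlib
import Vale.Agent.P016.FE.Defs

/-!
# Module P: polylogarithmic exceptional set
-/

open Finset Real Filter

namespace Vale.Agent.P016.FE

/-- a finite set of primes is multiplicatively independent -/
theorem indep_primes (B : Finset ℕ) (hB : ∀ l ∈ B, l.Prime) :
    Indep (B.map ⟨fun l : ℕ => (l : ℤ), Nat.cast_injective⟩) := by
  intro u v h a ha
  rw [Finset.prod_map, Finset.prod_map] at h
  simp only [Function.Embedding.coeFn_mk] at h
  have h' : ∏ l ∈ B, l ^ u l = ∏ l ∈ B, l ^ v l := by exact_mod_cast h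
  rw [Finset.mem_map] at ha
  obtain ⟨l, hl, rfl⟩ := ha
  have key : ∀ w : ℤ → ℕ, (∏ q ∈ B, q ^ w q).factorization l = w l := by
    intro w
    rw [Nat.factorization_prod (fun q hq => pow_ne_zero _ (hB q hq).ne_zero)]
    rw [Finsupp.finsetSum_apply]
    rw [Finset.sum_eq_single l]
    · rw [Nat.Prime.factorization_pow (hB l hl)]; simp
    · intro q hq hne
      rw [Nat.Prime.factorization_pow (hB q hq)]
      simp [hne]
    · intro h; exact absurd hl h
  have := congrArg (fun n : ℕ => n.factorization l) h'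
  simp only [key] at this
  exact this

theorem ev_large (C₀ κ₁ κ₂ c₁ D : ℝ) (hC₀ : 0 < C₀) (h1 : 0 < κ₁) (h2 : 0 < κ₂) (hc : 0 < c₁) :
    ∃ x₁ : ℕ, ∀ x : ℕ, x₁ ≤ x → 5 ≤ log x ∧ (log x) ^ (3 : ℕ) ≤ exp (C₀ * √(log x)) ∧
      C₀ * √(log x) ≤ κ₁ * log x ∧ C₀ * √(log x) ≤ κ₂ * log x ∧ C₀ ≤ c₁ * √(log x) ∧
      D ≤ log x := by
  have hs : Tendsto (fun L : ℝ => √L) atTop atTop := tendsto_sqrt_atTop
  have e2 : ∀ᶠ L : ℝ in atTop, L ^ (3 : ℕ) ≤ exp (C₀ * √L) := by
    have := (isLittleO_pow_exp_pos_mul_atTop (k := 6) hC₀).bound (one_pos)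
    have h := hs.eventually this
    filter_upwards [h, eventually_ge_atTop (0 : ℝ)] with L hL hL0
    rw [Real.norm_eq_abs, Real.norm_eq_abs, abs_of_nonneg (by positivity),
      abs_of_pos (exp_pos _), one_mul] at hL
    have : (√L) ^ 6 = L ^ 3 := by
      calc (√L) ^ 6 = ((√L) ^ 2) ^ 3 := by ring
        _ = L ^ 3 := by rw [Real.sq_sqrt hL0]
    rw [this] at hL
    exact hL
  have e3 : ∀ κ : ℝ, 0 < κ → ∀ᶠ L : ℝ in atTop, C₀ * √L ≤ κ * L := by
    intro κ hκ
    filter_upwards [hs.eventually_ge_atTop (C₀ / κ), eventually_ge_atTop (0 : ℝ)] with L hL hL0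
    have h : C₀ ≤ κ * √L := by
      rw [div_le_iff₀ hκ] at hL; linarith
    calc C₀ * √L ≤ κ * √L * √L := mul_le_mul_of_nonneg_right h (sqrt_nonneg _)
      _ = κ * L := by rw [mul_assoc, Real.mul_self_sqrt hL0]
  have e4 : ∀ᶠ L : ℝ in atTop, C₀ ≤ c₁ * √L := by
    filter_upwards [hs.eventually_ge_atTop (C₀ / c₁)] with L hL
    rw [div_le_iff₀ hc] at hL; linarith
  have all : ∀ᶠ L : ℝ in atTop, 5 ≤ L ∧ L ^ (3 : ℕ) ≤ exp (C₀ * √L) ∧
      C₀ * √L ≤ κ₁ * L ∧ C₀ * √L ≤ κ₂ * L ∧ C₀ ≤ c₁ * √L ∧ D ≤ L := by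
    filter_upwards [eventually_ge_atTop (5 : ℝ), e2, e3 κ₁ h1, e3 κ₂ h2, e4,
      eventually_ge_atTop D] with L a b c d e f
    exact ⟨a, b, c, d, e, f⟩
  have ht : Tendsto (fun x : ℕ => log (x : ℝ)) atTop atTop :=
    Real.tendsto_log_atTop.comp tendsto_natCast_atTop_atTop
  exact eventually_atTop.1 (ht.eventually all)

/-- **Module P.** -/
theorem poly (hCP : CPStmt) (hL : LStmt) (hQ : QStmt) : PolyStmt := by
  classical
  obtain ⟨κL, c₁, hκL, hc₁, hL⟩ := hL
  obtain ⟨κ, C, C₀, hκ, hC, hC₀, hCP⟩ := hCP (c₁ / 4) (by positivity)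
  refine ⟨c₁ / (8 * C₀), by positivity, fun A hA => ?_⟩
  obtain ⟨CQ, hCQ, xQ, hQ⟩ := hQ A hA
  obtain ⟨xC, hCP⟩ := hCP A hA
  obtain ⟨xL, hL⟩ := hL 1 one_pos
  obtain ⟨x₁, hx₁⟩ := ev_large C₀ κL κ c₁ (2 * (C / C₀)) hC₀ hκL hκ hc₁
  refine ⟨CQ + 2, by positivity, max (max xQ xC) (max xL x₁), fun x hx => ?_⟩
  have hxQ : xQ ≤ x := le_trans (le_trans (le_max_left _ _) (le_max_left _ _)) hx
  have hxC : xC ≤ x := le_trans (le_trans (le_max_right _ _) (le_max_left _ _)) hx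
  have hxL : xL ≤ x := le_trans (le_trans (le_max_left _ _) (le_max_right _ _)) hx
  have hx1 : x₁ ≤ x := le_trans (le_trans (le_max_right _ _) (le_max_right _ _)) hx
  obtain ⟨h5, h3, hk1, hk2, h4, hD⟩ := hx₁ x hx1
  set L : ℝ := log x with hLdef
  have hLpos : 0 < L := by linarith
  have hxpos : 0 < (x : ℝ) := by
    rcases Nat.eq_zero_or_pos x with h | h
    · rw [h] at hLdef; simp at hLdef; linarith
    · exact_mod_cast h
  set z : ℝ := exp (C₀ * √L) with hz
  have hlogz : log z = C₀ * √L := by rw [hz, log_exp]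
  have hsq : 0 < √L := sqrt_pos.2 hLpos
  have hzpos : 0 < z := exp_pos _
  have hpow : ∀ k : ℝ, C₀ * √L ≤ k * L → z ≤ (x : ℝ) ^ k := by
    intro k hk
    rw [Real.rpow_def_of_pos hxpos, hz]
    apply exp_le_exp.2
    rw [← hLdef]; linarith
  -- lower bound for `Pz`
  have hP5 := hL x hxL z (by
      have : (1 : ℝ) + 2 = ((3 : ℕ) : ℝ) := by norm_num
      rw [this, Real.rpow_natCast]; exact h3) (hpow κL hk1) 1 5 one_ne_zero (by norm_num)
      le_rfl (by norm_num) (by rw [Real.rpow_one]; norm_num; exact h5)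
  have hPz : c₁ * (x / (L * log z)) ≤ ((Pz x z).card : ℝ) := by
    refine hP5.trans ?_
    exact_mod_cast Finset.card_le_card (Finset.filter_subset _ _)
  have hL2 : (x : ℝ) / L ^ 2 ≤ ((Pz x z).card : ℝ) := by
    refine le_trans ?_ hPz
    rw [hlogz]
    rw [← mul_div_assoc, div_le_div_iff₀ (by positivity) (by positivity)]
    have e : c₁ * (x : ℝ) * L ^ 2 = x * L * (c₁ * √L * √L) := by
      rw [mul_assoc c₁ (√L) (√L), Real.mul_self_sqrt hLpos.le]; ring
    rw [e]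
    have : (x : ℝ) * (L * (C₀ * √L)) = x * L * (C₀ * √L) := by ring
    rw [this]
    apply mul_le_mul_of_nonneg_left _ (by positivity)
    exact mul_le_mul_of_nonneg_right h4 hsq.le
  -- the exceptional set of the quadratic condition
  obtain ⟨Qs, hQs, hQm⟩ : ∃ Qs : Finset ℕ, (Qs.card : ℝ) ≤ L ^ CQ ∧
      ∀ l ∈ range (⌊(x : ℝ) ^ A⌋₊ + 1), l.Prime → l ∉ Qs →
        (Pz x z).card ≤ 4 * (Pa x z (l : ℤ)).card := by
    refine ⟨_, hQ x hxQ (Pz x z) ?_ hL2, ?_⟩
    · intro p hp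
      have hp' := (Finset.mem_filter.1 hp)
      exact ⟨hp'.2.1, hp'.2.2.1, Nat.lt_succ_iff.1 (Finset.mem_range.1 hp'.1)⟩
    · intro l hl hpl hn
      by_contra hlt
      rw [not_le] at hlt
      apply hn
      refine Finset.mem_filter.2 ⟨hl, hpl, lt_of_le_of_lt ?_ hlt⟩
      apply Nat.mul_le_mul_left
      apply Finset.card_le_card
      intro p hp
      rw [Finset.mem_filter] at hp
      refine Finset.mem_filter.2 ⟨hp.1, ?_⟩
      have := hp.2
      simpa using this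
  -- the bad primes outside
  set Bd : Finset ℕ := (range (⌊(x : ℝ) ^ A⌋₊ + 1)).filter (fun l : ℕ => l.Prime ∧
    (artinCount l x : ℝ) < c₁ / (8 * C₀) * (x / L ^ (3 / 2 : ℝ)) ∧ l ∉ Qs) with hBd
  have hL32 : L ^ (3 / 2 : ℝ) = L * √L := by
    rw [show (3 / 2 : ℝ) = 1 + 1 / 2 by norm_num, Real.rpow_add hLpos, Real.rpow_one,
      Real.sqrt_eq_rpow]
  have hmain := hCP x hxC z hzpos (by rw [hlogz]) (hpow κ hk2)
    (Bd.map ⟨fun l : ℕ => (l : ℤ), Nat.cast_injective⟩)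
    (by
      intro a ha
      rw [Finset.mem_map] at ha
      obtain ⟨l, hl, rfl⟩ := ha
      rw [hBd, Finset.mem_filter, Finset.mem_range] at hl
      have h : l ≤ ⌊(x : ℝ) ^ A⌋₊ := Nat.lt_succ_iff.1 hl.1
      have h' : (l : ℝ) ≤ (x : ℝ) ^ A := le_trans (by exact_mod_cast h)
        (Nat.floor_le (by positivity))
      simpa using h')
    (indep_primes Bd (fun l hl => by
      rw [hBd, Finset.mem_filter] at hl; exact hl.2.1))
    (by
      intro a ha
      rw [Finset.mem_map] at ha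
      obtain ⟨l, hl, rfl⟩ := ha
      rw [hBd, Finset.mem_filter] at hl
      obtain ⟨hr, hp, hN, hnQ⟩ := hl
      have h := hQm l hr hp hnQ
      have h' : ((Pz x z).card : ℝ) ≤ 4 * ((Pa x z (l : ℤ)).card : ℝ) := by exact_mod_cast h
      refine ⟨?_, ?_⟩
      · simp only [Function.Embedding.coeFn_mk]
        linarith
      · simp only [Function.Embedding.coeFn_mk]
        refine hN.le.trans (le_of_eq ?_)
        rw [← hLdef, hlogz, hL32]
        field_simp
        norm_num)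
  rw [Finset.card_map, hlogz, ← hLdef] at hmain
  -- conclusion
  have hsub : ∀ S : Finset ℕ, (∀ l ∈ S, l ∈ range (⌊(x : ℝ) ^ A⌋₊ + 1) ∧ l.Prime ∧
      (artinCount l x : ℝ) < c₁ / (8 * C₀) * (x / L ^ (3 / 2 : ℝ))) → S ⊆ Qs ∪ Bd := by
    intro S hS l hl
    obtain ⟨h1, h2, h3⟩ := hS l hl
    rw [Finset.mem_union]
    by_cases hq : l ∈ Qs
    · exact Or.inl hq
    · exact Or.inr (Finset.mem_filter.2 ⟨h1, h2, h3, hq⟩)
  have hcard : ∀ S : Finset ℕ, S ⊆ Qs ∪ Bd → (S.card : ℝ) ≤ L ^ (CQ + 2) := by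
    intro S hS
    have h1 : (S.card : ℝ) ≤ (Qs.card : ℝ) + (Bd.card : ℝ) := by
      exact_mod_cast (Finset.card_le_card hS).trans (Finset.card_union_le _ _)
    have h2 : C * (L / (C₀ * √L)) = C / C₀ * √L := by
      have : L = √L * √L := (Real.mul_self_sqrt hLpos.le).symm
      rw [div_mul_eq_mul_div, mul_div_assoc']
      rw [div_eq_div_iff (by positivity) (by positivity)]
      nth_rewrite 1 [this]
      ring
    rw [h2] at hmain
    have h3 : √L ≤ L := by
      have : √L ≤ √L * √L := by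
        have : 1 ≤ √L := by
          rw [show (1 : ℝ) = √1 by simp]
          exact Real.sqrt_le_sqrt (by linarith)
        nlinarith
      rwa [Real.mul_self_sqrt hLpos.le] at this
    have h4 : L ^ (CQ + 2) = L ^ CQ * (L * L) := by
      rw [Real.rpow_add hLpos]; norm_num [sq]
    have h5' : 1 ≤ L ^ CQ := Real.one_le_rpow (by linarith) hCQ.le
    have h6 : C / C₀ * √L ≤ L * L / 2 := by
      have : C / C₀ ≤ L / 2 := by linarith
      calc C / C₀ * √L ≤ L / 2 * L := mul_le_mul this h3 hsq.le (by positivity)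
        _ = L * L / 2 := by ring
    rw [h4]
    nlinarith [mul_le_mul_of_nonneg_left (show (2 : ℝ) ≤ L * L / 1 by nlinarith) (by linarith :
      (0 : ℝ) ≤ L ^ CQ), mul_le_mul_of_nonneg_right h5' (by positivity : 0 ≤ L * L)]
  apply hcard
  apply hsub
  intro l hl
  have := Finset.mem_filter.1 hl
  exact ⟨this.1, this.2.1, this.2.2⟩

end Vale.Agent.P016.FE
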