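import Vale.Agent.P016.FE.DefsN
import Vale.Agent.P016.FE.L

namespace Vale.Agent.P016.FE

theorem pz : PzStmt := by
  obtain ⟨κ, c, hκ, hc, x₀, h⟩ := pz_lower
  refine ⟨κ, c, hκ, hc, x₀, fun x hx z hz hzx => (h x hx z hz hzx).trans ?_⟩
  exact_mod_cast Finset.card_le_card (fun p hp => (mem_Ptop.1 hp).1)

end Vale.Agent.P016.FE
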