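import Vale.Agent.P016.FE.Defs
import Vale.Agent.P013.Bdl.B6

/-!
# Module U: upper bounds for `Pz` (arithmetic large sieve and Rankin's trick)
-/

open Finset Real

namespace Vale.Agent.P016.FE.UU

open Vale.Agent.P013.J

/-- half of the denominator of the large sieve comes from small products (any set of primes) -/
theorem half (D : ℕ) (P : Finset ℕ) (hP3 : ∀ p ∈ P, 3 ≤ p) (y c : ℝ) (hc : 0 < c)
    (hc0 : c ≤ 1 / 40) (hy1 : 1 < y) (hE1 : 4 * log 4 ≤ c * log y) (Q : ℕ) (hQ1 : 1 ≤ Q)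
    (hQ19 : y ^ (0.19 : ℝ) ≤ Q) (A : Finset ℕ) (hA : ∀ s ∈ A, s.Prime ∧ (s : ℝ) < y ^ c) :
    ∏ s ∈ A, (1 + ((s : ℝ) / ((s - uRho D P s : ℕ) : ℝ) - 1)) ≤
      2 * ∑ T ∈ A.powerset.filter (fun T => ∏ p ∈ T, p ≤ Q),
        ∏ s ∈ T, ((s : ℝ) / ((s - uRho D P s : ℕ) : ℝ) - 1) := by
  have hy0 : (0 : ℝ) < y := by linarith only [hy1]
  have hlogy : 0 < log y := Real.log_pos hy1
  have hcl : 0 < c * log y := by positivity
  have hAp : ∀ s ∈ A, s.Prime := fun s hs => (hA s hs).1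
  obtain ⟨η, hη⟩ : ∃ η : ℝ, η = 1 / (c * log y) := ⟨_, rfl⟩
  have hη0 : 0 < η := by rw [hη]; positivity
  have hηs : ∀ s ∈ A, η * log s ≤ 1 := by
    intro s hs
    obtain ⟨h1, h2⟩ := hA s hs
    have h3 : log s ≤ c * log y := by
      rw [← Real.log_rpow hy0]
      exact Real.log_le_log (by exact_mod_cast h1.pos) h2.le
    rw [hη, one_div, inv_mul_le_iff₀ hcl]
    linarith only [h3]
  have hh : ∀ s ∈ A, 0 ≤ (s : ℝ) / ((s - uRho D P s : ℕ) : ℝ) - 1 :=
    fun s hs => u_hnn hP3 (hAp s hs)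
  have hrank := u_rankin A (fun s => (s : ℝ) / ((s - uRho D P s : ℕ) : ℝ) - 1) hh Q hQ1 η hη0.le
  have hratio := u_ratio D P hP3 A hAp η hη0.le hηs
  obtain ⟨Pr, hPr⟩ : ∃ Pr : ℝ, Pr = ∏ s ∈ A, (1 + ((s : ℝ) / ((s - uRho D P s : ℕ) : ℝ) - 1)) :=
    ⟨_, rfl⟩
  have hPr0 : 0 < Pr := by
    rw [hPr]
    exact Finset.prod_pos fun s hs => by
      have := hh s hs
      linarith only [this]
  rw [← hPr] at hratio hrank ⊢
  have h1 : (Q : ℝ) ^ (-η) ≤ exp (-6) := by
    calc (Q : ℝ) ^ (-η) ≤ ((y : ℝ) ^ (0.19 : ℝ)) ^ (-η) :=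
          Real.rpow_le_rpow_of_nonpos (by positivity) hQ19 (by linarith only [hη0])
      _ = exp (-(0.19 / c)) := by
          rw [← Real.rpow_mul hy0.le, Real.rpow_def_of_pos hy0, hη]
          congr 1
          field_simp
      _ ≤ exp (-6) := by
          apply Real.exp_le_exp.2
          have : 6 ≤ 0.19 / c := by
            rw [le_div_iff₀ hc]
            linarith only [hc0, hc]
          linarith only [this]
  have h2 : exp (4 * η * ∑ s ∈ A, log s / s) ≤ exp 5 := by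
    apply Real.exp_le_exp.2
    obtain ⟨x0, hx0⟩ : ∃ x0, x0 = ⌈y ^ c⌉₊ := ⟨_, rfl⟩
    have hyc1 : 1 < y ^ c := Real.one_lt_rpow hy1 hc
    have hx02 : 2 ≤ x0 := by
      rw [hx0]
      have : 1 < ⌈(y : ℝ) ^ c⌉₊ := by
        rw [Nat.lt_ceil]
        exact_mod_cast hyc1
      omega
    have hsub : A ⊆ (range x0).filter Nat.Prime := by
      intro s hs
      exact (u_mem hx0 s).2 (hA s hs)
    have h3 : ∑ s ∈ A, log s / (s : ℝ) ≤ c * log y + log 4 := by
      obtain ⟨n, hn⟩ : ∃ n, x0 = n + 1 := ⟨x0 - 1, by omega⟩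
      have h4 := Vale.Agent.P013.sum_log_le n (by omega)
      rw [← hn] at h4
      have h4' : ∑ s ∈ A, log s / (s : ℝ) ≤ ∑ p ∈ (range x0).filter Nat.Prime, log p / p := by
        refine Finset.sum_le_sum_of_subset_of_nonneg hsub ?_
        intro i hi _
        rw [mem_filter] at hi
        have : (1 : ℝ) ≤ i := by exact_mod_cast hi.2.one_lt.le
        exact div_nonneg (Real.log_nonneg this) (by positivity)
      have h5 : log n ≤ c * log y := by
        rw [← Real.log_rpow hy0]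
        apply Real.log_le_log
        · have : 1 ≤ n := by omega
          exact_mod_cast this
        · have : n < ⌈(y : ℝ) ^ c⌉₊ := by rw [← hx0]; omega
          exact (Nat.lt_ceil.1 this).le
      linarith only [h4, h4', h5]
    calc 4 * η * ∑ s ∈ A, log s / s ≤ 4 * η * (c * log y + log 4) := by gcongr
      _ = 4 + 4 * log 4 / (c * log y) := by
          rw [hη]
          field_simp
      _ ≤ 5 := by
          have : 4 * log 4 / (c * log y) ≤ 1 := by
            rw [div_le_one hcl]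
            exact hE1
          linarith only [this]
  have h4 : (Q : ℝ) ^ (-η) * ∏ s ∈ A, (1 + ((s : ℝ) / ((s - uRho D P s : ℕ) : ℝ) - 1) *
      (s : ℝ) ^ η) ≤ Pr / 2 := by
    calc _ ≤ exp (-6) * (exp (4 * η * ∑ s ∈ A, log s / s) * Pr) := by
          refine mul_le_mul h1 hratio ?_ (Real.exp_pos _).le
          refine Finset.prod_nonneg fun s hs => ?_
          have := hh s hs
          have h5 : 0 ≤ (s : ℝ) ^ η := by positivity
          have h6 := mul_nonneg this h5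
          linarith only [h6]
      _ ≤ exp (-6) * (exp 5 * Pr) := by gcongr
      _ = exp (-1) * Pr := by
          rw [← mul_assoc, ← Real.exp_add]
          norm_num
      _ ≤ Pr / 2 := by
          have h6 : exp (-1) ≤ 1 / 2 := by
            rw [Real.exp_neg, ← one_div]
            apply one_div_le_one_div_of_le (by norm_num)
            have := Real.add_one_le_exp (1 : ℝ)
            linarith only [this]
          nlinarith only [hPr0, h6]
  linarith only [hrank, h4]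

/-- the sieve bound, the modulus `q` may be small -/
theorem count (D R Y : ℕ) (hD : 1 ≤ D) (P : Finset ℕ) (a : ℕ → ℤ) (y c : ℝ) (hc : 0 < c)
    (hc0 : c ≤ 1 / 40) (hy100 : (2 : ℝ) ^ (100 : ℕ) ≤ y) (hE1 : 4 * log 4 ≤ c * log y)
    (hP : ∀ p ∈ P, p.Prime ∧ 3 ≤ p ∧ (p : ℝ) < y ^ c)
    (hPD : ∀ p ∈ P, ¬ (p : ℤ) ∣ D * a p + R) (hR : y ^ c ≤ R) (hY : (Y : ℝ) ≤ y)
    (q : ℕ) (b : ℤ) (hq : q.Prime) (hq6 : (q : ℝ) ≤ y ^ (0.6 : ℝ)) :
    (((gset D R Y P a).filter (fun k : ℕ => (q : ℤ) ∣ (k : ℤ) - b)).card : ℝ) ≤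
      18 * Vale.Agent.P001.cLS * (y / q) *
        ((1 / (c * log y)) * ((D : ℝ) / (Nat.totient D : ℝ)) * ∏ p ∈ P, (1 - gD D p)) := by
  classical
  obtain ⟨hy1, hE3, hyc1, hQ19, h19, hQle⟩ := u_size y c hc hc0 hy100
  have hy0 : (0 : ℝ) < y := by linarith only [hy1]
  have hcLS := Vale.Agent.P001.cLS_pos
  obtain ⟨Q, hQ⟩ : ∃ Q, Q = ⌊(y : ℝ) ^ (0.2 : ℝ)⌋₊ := ⟨_, rfl⟩
  rw [← hQ] at hQ19 hQle
  have hQ1 : 1 ≤ Q := by
    have : (1 : ℝ) ≤ Q := h19.trans hQ19
    exact_mod_cast this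
  obtain ⟨x0, hx0⟩ : ∃ x0, x0 = ⌈(y : ℝ) ^ c⌉₊ := ⟨_, rfl⟩
  have hx02 : 2 ≤ x0 := by
    rw [hx0]
    have : 1 < ⌈(y : ℝ) ^ c⌉₊ := by
      rw [Nat.lt_ceil]
      exact_mod_cast hyc1
    omega
  have hP3 : ∀ p ∈ P, 3 ≤ p := fun p hp => (hP p hp).2.1
  obtain ⟨A, hAdef⟩ : ∃ A, A = ((range x0).filter Nat.Prime).erase q := ⟨_, rfl⟩
  have hAmem : ∀ s ∈ A, s.Prime ∧ (s : ℝ) < y ^ c ∧ s ≠ q := by
    intro s hs
    rw [hAdef, mem_erase] at hs
    obtain ⟨h1, h2⟩ := (u_mem hx0 s).1 hs.2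
    exact ⟨h1, h2, hs.1⟩
  have hA' : ∀ s ∈ A, s.Prime ∧ s ≠ q ∧ s < R := by
    intro s hs
    obtain ⟨h1, h2, h3⟩ := hAmem s hs
    refine ⟨h1, h3, ?_⟩
    have : (s : ℝ) < R := by linarith only [hR, h2]
    exact_mod_cast this
  have hls := u_sieve D R Y P a hP3 hPD q b hq _ hA' Q hQ1
  have hhalf := half D P hP3 y c hc hc0 hy1 hE1 Q hQ1 hQ19 A
    (fun s hs => ⟨(hAmem s hs).1, (hAmem s hs).2.1⟩)
  have hprod := u_prodinv mertUp D hD P y c hy1 hc hP x0 hx0 hx02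
  have hlen := u_len y hy1 Y q Q hq.pos hY hq6 hQle
  have hPrA0 : 0 < ∏ s ∈ A, (1 + ((s : ℝ) / ((s - uRho D P s : ℕ) : ℝ) - 1)) :=
    Finset.prod_pos fun s hs => by
      have := u_hnn (D := D) hP3 (hA' s hs).1
      linarith only [this]
  have hPr0 : 0 < ∏ s ∈ (range x0).filter Nat.Prime,
      (1 + ((s : ℝ) / ((s - uRho D P s : ℕ) : ℝ) - 1)) :=
    Finset.prod_pos fun s hs => by
      have := u_hnn (D := D) hP3 ((u_mem hx0 s).1 hs).1
      linarith only [this]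
  have hcmp : ∏ s ∈ (range x0).filter Nat.Prime,
      (1 + ((s : ℝ) / ((s - uRho D P s : ℕ) : ℝ) - 1)) ≤
      3 * ∏ s ∈ A, (1 + ((s : ℝ) / ((s - uRho D P s : ℕ) : ℝ) - 1)) := by
    by_cases hqm : q ∈ (range x0).filter Nat.Prime
    · rw [← Finset.mul_prod_erase _ _ hqm, ← hAdef]
      refine mul_le_mul_of_nonneg_right ?_ hPrA0.le
      obtain ⟨h1, h2⟩ := u_nu (D := D) hP3 hq
      have h3 : 1 + ((q : ℝ) / ((q - uRho D P q : ℕ) : ℝ) - 1) =
        (q : ℝ) / ((q - uRho D P q : ℕ) : ℝ) := by ring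
      rw [h3, div_le_iff₀ h1]
      have h4 := uRho_lt D P hP3 hq
      have h5 := uRho_le D P q
      have h6 := hq.two_le
      have h7 : q ≤ 3 * (q - uRho D P q) := by omega
      exact_mod_cast h7
    · rw [hAdef, Finset.erase_eq_of_notMem hqm]
      rw [hAdef, Finset.erase_eq_of_notMem hqm] at hPrA0
      linarith only [hPrA0]
  generalize (∏ s ∈ (range x0).filter Nat.Prime,
    (1 + ((s : ℝ) / ((s - uRho D P s : ℕ) : ℝ) - 1))) = Pr at hcmp hprod hPr0
  generalize (∏ s ∈ A, (1 + ((s : ℝ) / ((s - uRho D P s : ℕ) : ℝ) - 1))) = PrA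
    at hcmp hhalf hPrA0
  generalize (∑ T ∈ A.powerset.filter (fun T => ∏ p ∈ T, p ≤ Q),
        ∏ s ∈ T, ((s : ℝ) / ((s - uRho D P s : ℕ) : ℝ) - 1)) = SF at hls hhalf
  generalize hS : (((gset D R Y P a).filter (fun k : ℕ => (q : ℤ) ∣ (k : ℤ) - b)).card : ℝ) = S
    at hls
  have hS0 : 0 ≤ S := by rw [← hS]; (clear * -; positivity)
  have hyq0 : 0 ≤ (y : ℝ) / q := by (clear * - hy0; positivity)
  have h1 : S * Pr ≤ 18 * Vale.Agent.P001.cLS * ((y : ℝ) / q) := by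
    calc S * Pr ≤ S * (3 * PrA) := mul_le_mul_of_nonneg_left hcmp hS0
      _ ≤ S * (3 * (2 * SF)) := by
          refine mul_le_mul_of_nonneg_left ?_ hS0
          linarith only [hhalf]
      _ = 6 * (S * SF) := by ring
      _ ≤ 6 * (Vale.Agent.P001.cLS * (3 * ((y : ℝ) / q))) := by
          refine mul_le_mul_of_nonneg_left ?_ (by norm_num)
          exact hls.trans (mul_le_mul_of_nonneg_left hlen hcLS.le)
      _ = _ := by ring
  have h2 : S ≤ 18 * Vale.Agent.P001.cLS * ((y : ℝ) / q) * (1 / Pr) := by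
    rw [mul_one_div, le_div_iff₀ hPr0]
    exact h1
  refine h2.trans ?_
  exact mul_le_mul_of_nonneg_left hprod (by positivity)

/-- the odd primes `< z` -/
noncomputable def oddP (z : ℝ) : Finset ℕ := ((range ⌈z⌉₊).filter Nat.Prime).filter (fun p => 3 ≤ p)

theorem mem_oddP (z : ℝ) (p : ℕ) : p ∈ oddP z ↔ p.Prime ∧ 3 ≤ p ∧ (p : ℝ) < z := by
  unfold oddP
  rw [mem_filter, mem_filter, mem_range, Nat.lt_ceil]
  tauto

theorem prod_oddP (z : ℝ) (hz : 2 < z) : ∏ p ∈ oddP z, (1 - gD 4 p) ≤ 2 / log z := by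
  have hz1 : 2 ≤ ⌈z⌉₊ := by
    have : 2 < ⌈z⌉₊ := by
      rw [Nat.lt_ceil]
      exact_mod_cast hz
    omega
  have hM := mertUp ⌈z⌉₊ hz1
  have hlogz : 0 < log z := Real.log_pos (by linarith only [hz])
  have h1 : ∏ p ∈ oddP z, (1 - gD 4 p) ≤ ∏ p ∈ oddP z, (1 - 1 / (p : ℝ)) := by
    refine Finset.prod_le_prod ?_ ?_
    · intro p hp
      obtain ⟨h1, h2, h3⟩ := (mem_oddP z p).1 hp
      have h2' : (3 : ℝ) ≤ p := by exact_mod_cast h2
      unfold gD
      split_ifs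
      · have : 1 / (p : ℝ) ≤ 1 := by
          rw [div_le_one (by linarith only [h2'])]
          linarith only [h2']
        linarith only [this]
      · have : 1 / ((p : ℝ) - 1) ≤ 1 := by
          rw [div_le_one (by linarith only [h2'])]
          linarith only [h2']
        linarith only [this]
    · intro p hp
      obtain ⟨h1, h2, h3⟩ := (mem_oddP z p).1 hp
      have h2' : (3 : ℝ) ≤ p := by exact_mod_cast h2
      unfold gD
      split_ifs
      · exact le_rfl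
      · have : 1 / (p : ℝ) ≤ 1 / ((p : ℝ) - 1) := by
          apply one_div_le_one_div_of_le <;> linarith only [h2']
        linarith only [this]
  have h2 : ∏ p ∈ (range ⌈z⌉₊).filter Nat.Prime, (1 - 1 / (p : ℝ)) =
      (1 / 2) * ∏ p ∈ oddP z, (1 - 1 / (p : ℝ)) := by
    have hmem : 2 ∈ (range ⌈z⌉₊).filter Nat.Prime := by
      rw [mem_filter, mem_range]
      refine ⟨?_, Nat.prime_two⟩
      rw [Nat.lt_ceil]
      exact_mod_cast hz
    have he : oddP z = ((range ⌈z⌉₊).filter Nat.Prime).erase 2 := by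
      ext p
      unfold oddP
      rw [mem_filter, mem_erase]
      constructor
      · rintro ⟨h1, h2⟩
        exact ⟨by omega, h1⟩
      · rintro ⟨h1, h2⟩
        refine ⟨h2, ?_⟩
        have := (mem_filter.1 h2).2.two_le
        omega
    rw [← Finset.mul_prod_erase _ _ hmem, he]
    norm_num
  have h3 : 1 / log (⌈z⌉₊ : ℝ) ≤ 1 / log z := by
    apply one_div_le_one_div_of_le hlogz
    exact Real.log_le_log (by linarith only [hz]) (Nat.le_ceil z)
  rw [h2] at hM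
  have h4 : (2 : ℝ) / log z = 2 * (1 / log z) := by ring
  rw [h4]
  linarith only [h1, hM, h3]

/-- solution of `4 a + R - 1 ≡ 0` mod an odd prime -/
def sol (R p : ℕ) : ℤ := (1 - (R : ℤ)) * (((p : ℤ) + 1) / 2) ^ 2

theorem sol_spec (R p : ℕ) (hp : p % 2 = 1) :
    4 * sol R p + R - 1 = (1 - (R : ℤ)) * ((p : ℤ) * (p + 2)) := by
  obtain ⟨t, ht⟩ : ∃ t : ℕ, p = 2 * t + 1 := ⟨p / 2, by omega⟩
  subst ht
  have : (((2 * t + 1 : ℕ) : ℤ) + 1) / 2 = t + 1 := by
    push_cast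
    omega
  unfold sol
  rw [this]
  push_cast
  ring

theorem odd_of (p : ℕ) (hp : p.Prime) (h3 : 3 ≤ p) : p % 2 = 1 := by
  rcases hp.eq_two_or_odd with h | h
  · omega
  · exact h

/-- the primes of `Pz` above `R`, in terms of `gset` -/
theorem mem_g (x : ℕ) (z : ℝ) (R : ℕ) (hR : R % 4 = 3) (p : ℕ) (hp : p ∈ Pz x z) (hpR : R < p) :
    ∃ k ∈ gset 4 R x (oddP z) (sol R), p = 4 * k + R := by
  classical
  unfold Pz at hp
  rw [mem_filter, mem_range] at hp
  obtain ⟨hpx, hpp, hp4, hpz⟩ := hp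
  refine ⟨(p - R) / 4, ?_, by omega⟩
  unfold gset
  rw [mem_filter, mem_Icc]
  refine ⟨⟨by omega, by omega⟩, ?_, ?_⟩
  · intro s hs hdvd
    obtain ⟨h1, h2, h3⟩ := (mem_oddP z s).1 hs
    apply hpz s h1 h2 h3
    have h4 := sol_spec R s (odd_of s h1 h2)
    have h5 : ((p - 1 : ℕ) : ℤ) = 4 * ((((p - R) / 4 : ℕ) : ℤ) - sol R s) +
        (4 * sol R s + R - 1) := by
      omega
    have h6 : (s : ℤ) ∣ ((p - 1 : ℕ) : ℤ) := by
      rw [h5, h4]
      refine dvd_add (Dvd.dvd.mul_left hdvd _) ?_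
      exact Dvd.dvd.mul_left (Dvd.intro _ rfl) _
    exact_mod_cast h6
  · have : 4 * ((p - R) / 4) + R = p := by omega
    rw [this]
    exact hpp

theorem sol_ndvd (R p : ℕ) (hp : p.Prime) (h3 : 3 ≤ p) : ¬ (p : ℤ) ∣ ((4 : ℕ) : ℤ) * sol R p + R := by
  intro h
  have h4 := sol_spec R p (odd_of p hp h3)
  have h5 : ((4 : ℕ) : ℤ) * sol R p + R = (1 - (R : ℤ)) * ((p : ℤ) * (p + 2)) + 1 := by
    push_cast
    linarith only [h4]
  rw [h5] at h
  have h6 : (p : ℤ) ∣ (1 - (R : ℤ)) * ((p : ℤ) * (p + 2)) :=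
    Dvd.dvd.mul_left (Dvd.intro _ rfl) _
  have h7 : (p : ℤ) ∣ 1 := (Int.dvd_add_right h6).1 h
  have h8 : p ∣ 1 := by exact_mod_cast h7
  have := Nat.le_of_dvd (by norm_num) h8
  omega

/-- elementary estimate for the small primes -/
theorem small (x : ℝ) (hx : (2 : ℝ) ^ (400 : ℕ) ≤ x) (r L : ℝ) (hr : 0 < r)
    (hr6 : r ≤ x ^ (0.6 : ℝ)) (hL0 : 0 < L) (hL : L ≤ log x) :
    4 * x ^ (1 / 40 : ℝ) + 9 ≤ x / (r * (log x * L)) := by
  have hx1 : (1 : ℝ) < x := lt_of_lt_of_le (one_lt_pow₀ (by norm_num) (by norm_num)) hx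
  have hx0 : (0 : ℝ) < x := by linarith only [hx1]
  have hlog : 0 < log x := Real.log_pos hx1
  rw [le_div_iff₀ (by positivity)]
  have h1 : log x ≤ 10 * x ^ (0.1 : ℝ) := by
    have := Real.log_le_rpow_div hx0.le (ε := 0.1) (by norm_num)
    calc log x ≤ x ^ (0.1 : ℝ) / 0.1 := this
      _ = 10 * x ^ (0.1 : ℝ) := by ring
  have h2 : r * (log x * L) ≤ x ^ (0.6 : ℝ) * ((10 * x ^ (0.1 : ℝ)) * (10 * x ^ (0.1 : ℝ))) := by
    have hL' : L ≤ 10 * x ^ (0.1 : ℝ) := hL.trans h1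
    gcongr
  have h3 : (1 : ℝ) ≤ x ^ (1 / 40 : ℝ) := Real.one_le_rpow hx1.le (by norm_num)
  have h4 : 4 * x ^ (1 / 40 : ℝ) + 9 ≤ 13 * x ^ (1 / 40 : ℝ) := by linarith only [h3]
  have h5 : (1300 : ℝ) ≤ x ^ (0.175 : ℝ) := by
    calc (1300 : ℝ) ≤ 2 ^ (70 : ℝ) := by
          rw [show (70 : ℝ) = ((70 : ℕ) : ℝ) by norm_num, Real.rpow_natCast]
          norm_num
      _ = ((2 : ℝ) ^ (400 : ℕ)) ^ (0.175 : ℝ) := by
          rw [← Real.rpow_natCast, ← Real.rpow_mul (by norm_num)]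
          norm_num
      _ ≤ x ^ (0.175 : ℝ) := Real.rpow_le_rpow (by norm_num) hx (by norm_num)
  calc (4 * x ^ (1 / 40 : ℝ) + 9) * (r * (log x * L))
      ≤ (13 * x ^ (1 / 40 : ℝ)) *
        (x ^ (0.6 : ℝ) * ((10 * x ^ (0.1 : ℝ)) * (10 * x ^ (0.1 : ℝ)))) := by
        gcongr
    _ = 1300 * (x ^ (1 / 40 : ℝ) * x ^ (0.6 : ℝ) * x ^ (0.1 : ℝ) * x ^ (0.1 : ℝ)) := by ring
    _ ≤ x ^ (0.175 : ℝ) * (x ^ (1 / 40 : ℝ) * x ^ (0.6 : ℝ) * x ^ (0.1 : ℝ) * x ^ (0.1 : ℝ)) := by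
        gcongr
    _ = x := by
        rw [← Real.rpow_add hx0, ← Real.rpow_add hx0, ← Real.rpow_add hx0, ← Real.rpow_add hx0]
        norm_num

/-- the common bound -/
theorem main (x : ℕ) (hx : (2 : ℝ) ^ (400 : ℕ) ≤ x) (z : ℝ) (hz3 : 3 ≤ z)
    (hzx : z ≤ (x : ℝ) ^ (1 / 40 : ℝ)) (R : ℕ) (hR1 : (x : ℝ) ^ (1 / 40 : ℝ) ≤ R)
    (q : ℕ) (b : ℤ) (hq : q.Prime) (hq6 : (q : ℝ) ≤ (x : ℝ) ^ (0.6 : ℝ)) :
    (((gset 4 R x (oddP z) (sol R)).filter (fun k : ℕ => (q : ℤ) ∣ (k : ℤ) - b)).card : ℝ) ≤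
      2880 * Vale.Agent.P001.cLS * (x / (q * (log x * log z))) := by
  have hx1 : (1 : ℝ) < x := lt_of_lt_of_le (one_lt_pow₀ (by norm_num) (by norm_num)) hx
  have hx0 : (0 : ℝ) < x := by linarith only [hx1]
  have hlogx : 400 * log 2 ≤ log x := by
    have := Real.log_le_log (by positivity) hx
    rw [Real.log_pow] at this
    exact_mod_cast this
  have hlog2 : 0 < log 2 := Real.log_pos (by norm_num)
  have hlogx0 : 0 < log (x : ℝ) := by linarith only [hlogx, hlog2]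
  have hlogz : 0 < log z := Real.log_pos (by linarith only [hz3])
  have hE1 : 4 * log 4 ≤ 1 / 40 * log x := by
    have : log 4 = 2 * log 2 := by
      rw [show (4 : ℝ) = 2 ^ 2 by norm_num, Real.log_pow]
      norm_num
    rw [this]
    linarith only [hlogx, hlog2]
  have hq0 : (0 : ℝ) < q := by exact_mod_cast hq.pos
  have hcLS := Vale.Agent.P001.cLS_pos
  have h := count 4 R x (by norm_num) (oddP z) (sol R) x (1 / 40) (by norm_num) le_rfl
    (le_trans (pow_le_pow_right₀ (by norm_num) (by norm_num)) hx) hE1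
    (fun p hp => by
      obtain ⟨h1, h2, h3⟩ := (mem_oddP z p).1 hp
      exact ⟨h1, h2, lt_of_lt_of_le h3 hzx⟩)
    (fun p hp => by
      obtain ⟨h1, h2, h3⟩ := (mem_oddP z p).1 hp
      exact sol_ndvd R p h1 h2) hR1 le_rfl q b hq hq6
  refine h.trans ?_
  have h4 : (Nat.totient 4 : ℝ) = 2 := by
    have : Nat.totient 4 = 2 := by decide
    rw [this]
    norm_num
  have h5 := prod_oddP z (by linarith only [hz3])
  rw [h4]
  calc 18 * Vale.Agent.P001.cLS * ((x : ℝ) / q) *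
        ((1 / (1 / 40 * log x)) * (((4 : ℕ) : ℝ) / 2) * ∏ p ∈ oddP z, (1 - gD 4 p))
      ≤ 18 * Vale.Agent.P001.cLS * ((x : ℝ) / q) *
        ((1 / (1 / 40 * log x)) * (((4 : ℕ) : ℝ) / 2) * (2 / log z)) := by
        gcongr
    _ = _ := by
        push_cast
        field_simp
        ring

end Vale.Agent.P016.FE.UU

namespace Vale.Agent.P016.FE

open UU Vale.Agent.P013.J

theorem u : UStmt := by
  have hcLS := Vale.Agent.P001.cLS_pos
  refine ⟨1 / 40, 2880 * Vale.Agent.P001.cLS + 1, by norm_num, by positivity, 2 ^ 400, ?_⟩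
  intro x hxN z hz1 hz2
  have hx : (2 : ℝ) ^ (400 : ℕ) ≤ x := by exact_mod_cast hxN
  have hx1 : (1 : ℝ) < x := lt_of_lt_of_le (one_lt_pow₀ (by norm_num) (by norm_num)) hx
  have hx0 : (0 : ℝ) < x := by linarith only [hx1]
  have hlogx : 400 * log 2 ≤ log x := by
    have := Real.log_le_log (by positivity) hx
    rw [Real.log_pow] at this
    exact_mod_cast this
  have hlog2 : 0.69 < log 2 := by
    have := Real.log_two_gt_d9
    linarith only [this]
  have hlogx0 : 200 < log (x : ℝ) := by linarith only [hlogx, hlog2]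
  have hz3 : 3 ≤ z := by
    have : (200 : ℝ) ^ 3 ≤ (log x) ^ 3 := by gcongr
    linarith only [this, hz1]
  have hlogz : 0 < log z := Real.log_pos (by linarith only [hz3])
  have hlogzx : log z ≤ log x := by
    apply Real.log_le_log (by linarith only [hz3])
    refine hz2.trans ?_
    calc (x : ℝ) ^ (1 / 40 : ℝ) ≤ (x : ℝ) ^ (1 : ℝ) :=
          Real.rpow_le_rpow_of_exponent_le hx1.le (by norm_num)
      _ = x := Real.rpow_one _
  obtain ⟨R, hRdef⟩ : ∃ R, R = 4 * ⌈(x : ℝ) ^ (1 / 40 : ℝ)⌉₊ + 3 := ⟨_, rfl⟩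
  have hR4 : R % 4 = 3 := by omega
  have hceil := Nat.le_ceil ((x : ℝ) ^ (1 / 40 : ℝ))
  have hceil2 := Nat.ceil_lt_add_one (show 0 ≤ (x : ℝ) ^ (1 / 40 : ℝ) by positivity)
  have hR1 : (x : ℝ) ^ (1 / 40 : ℝ) ≤ R := by
    rw [hRdef]
    push_cast
    have : (0 : ℝ) ≤ (⌈(x : ℝ) ^ (1 / 40 : ℝ)⌉₊ : ℝ) := by positivity
    linarith only [hceil, this]
  have hR2 : (R : ℝ) + 1 ≤ 4 * (x : ℝ) ^ (1 / 40 : ℝ) + 9 := by
    rw [hRdef]
    push_cast
    linarith only [hceil2]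
  have h26 : ((2 : ℕ) : ℝ) ≤ (x : ℝ) ^ (0.6 : ℝ) := by
    have h1 : ((2 : ℝ) ^ (400 : ℕ)) ^ (0.6 : ℝ) ≤ (x : ℝ) ^ (0.6 : ℝ) :=
      Real.rpow_le_rpow (by norm_num) hx (by norm_num)
    refine le_trans ?_ h1
    rw [← Real.rpow_natCast, ← Real.rpow_mul (by norm_num)]
    norm_num
  have hcover : ∀ q : ℕ, ∀ B : Finset ℤ,
      (∀ p ∈ Pz x z, R < p → q ∣ p - 1 → ∀ k : ℕ, p = 4 * k + R → ∃ b ∈ B, (q : ℤ) ∣ (k : ℤ) - b) →
      (((Pz x z).filter (fun p => q ∣ p - 1)).card : ℝ) ≤ (R : ℝ) + 1 +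
        ∑ b ∈ B, (((gset 4 R x (oddP z) (sol R)).filter
          (fun k : ℕ => (q : ℤ) ∣ (k : ℤ) - b)).card : ℝ) := by
    intro q B hB
    have hsub : (Pz x z).filter (fun p => q ∣ p - 1) ⊆ range (R + 1) ∪
        B.biUnion (fun b => ((gset 4 R x (oddP z) (sol R)).filter
          (fun k : ℕ => (q : ℤ) ∣ (k : ℤ) - b)).image (fun k => 4 * k + R)) := by
      intro p hp
      rw [mem_filter] at hp
      rw [mem_union, mem_range]
      by_cases hpR : R < p
      · right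
        obtain ⟨k, hk, hpk⟩ := mem_g x z R hR4 p hp.1 hpR
        obtain ⟨b, hb, hbk⟩ := hB p hp.1 hpR hp.2 k hpk
        rw [mem_biUnion]
        refine ⟨b, hb, ?_⟩
        rw [mem_image]
        exact ⟨k, mem_filter.2 ⟨hk, hbk⟩, hpk.symm⟩
      · left
        omega
    have h1 := Finset.card_le_card hsub
    have h2 := h1.trans (Finset.card_union_le _ _)
    rw [card_range] at h2
    have h3 : (B.biUnion (fun b => ((gset 4 R x (oddP z) (sol R)).filter
          (fun k : ℕ => (q : ℤ) ∣ (k : ℤ) - b)).image (fun k => 4 * k + R))).card ≤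
          ∑ b ∈ B, ((gset 4 R x (oddP z) (sol R)).filter
          (fun k : ℕ => (q : ℤ) ∣ (k : ℤ) - b)).card := by
      refine Finset.card_biUnion_le.trans ?_
      exact Finset.sum_le_sum fun b _ => Finset.card_image_le
    have h4 := h2.trans (Nat.add_le_add_left h3 _)
    exact_mod_cast h4
  constructor
  · have h1 := hcover 1 {0} (by
      intro p _ _ _ k _
      exact ⟨0, by simp, by simp⟩)
    have h2 : (Pz x z).filter (fun p => 1 ∣ p - 1) = Pz x z := by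
      rw [Finset.filter_true_of_mem]
      intro p _
      exact one_dvd _
    rw [h2, Finset.sum_singleton] at h1
    have h3 : (((gset 4 R x (oddP z) (sol R)).filter
        (fun k : ℕ => ((1 : ℕ) : ℤ) ∣ (k : ℤ) - 0)).card : ℝ) ≤
        (((gset 4 R x (oddP z) (sol R)).filter (fun k : ℕ => ((2 : ℕ) : ℤ) ∣ (k : ℤ) - 0)).card : ℝ)
        + (((gset 4 R x (oddP z) (sol R)).filter
          (fun k : ℕ => ((2 : ℕ) : ℤ) ∣ (k : ℤ) - 1)).card : ℝ) := by
      have : (gset 4 R x (oddP z) (sol R)).filter (fun k : ℕ => ((1 : ℕ) : ℤ) ∣ (k : ℤ) - 0) ⊆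
          (gset 4 R x (oddP z) (sol R)).filter (fun k : ℕ => ((2 : ℕ) : ℤ) ∣ (k : ℤ) - 0) ∪
          (gset 4 R x (oddP z) (sol R)).filter (fun k : ℕ => ((2 : ℕ) : ℤ) ∣ (k : ℤ) - 1) := by
        intro k hk
        rw [mem_filter] at hk
        rw [mem_union, mem_filter, mem_filter]
        rcases Nat.even_or_odd k with ⟨t, ht⟩ | ⟨t, ht⟩
        · left
          refine ⟨hk.1, ?_⟩
          push_cast
          exact ⟨t, by omega⟩
        · right
          refine ⟨hk.1, ?_⟩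
          push_cast
          exact ⟨t, by omega⟩
      have h5 := (Finset.card_le_card this).trans (Finset.card_union_le _ _)
      exact_mod_cast h5
    have hm0 := main x hx z hz3 hz2 R hR1 2 0 Nat.prime_two h26
    have hm1 := main x hx z hz3 hz2 R hR1 2 1 Nat.prime_two h26
    have hsm := small x hx 1 (log z) (by norm_num)
      (by
        have := h26
        push_cast at this
        linarith only [this]) hlogz hlogzx
    rw [one_mul] at hsm
    have e1 : 2880 * Vale.Agent.P001.cLS * ((x : ℝ) / (((2 : ℕ) : ℝ) * (log x * log z))) =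
        1440 * Vale.Agent.P001.cLS * ((x : ℝ) / (log x * log z)) := by
      push_cast
      field_simp
      ring
    rw [e1] at hm0 hm1
    have e2 : (2880 * Vale.Agent.P001.cLS + 1) * ((x : ℝ) / (log x * log z)) =
        1440 * Vale.Agent.P001.cLS * ((x : ℝ) / (log x * log z)) +
        1440 * Vale.Agent.P001.cLS * ((x : ℝ) / (log x * log z)) +
        (x : ℝ) / (log x * log z) := by ring
    rw [e2]
    have f1 := h3.trans (add_le_add hm0 hm1)
    have f2 := h1.trans (add_le_add_right f1 _)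
    linarith only [f2, hsm, hR2]
  · intro r hr hzr hr6
    have hr3 : 3 ≤ r := by
      have : (3 : ℝ) ≤ r := hz3.trans hzr
      exact_mod_cast this
    have h1 := hcover r {sol R r} (by
      intro p hp hpR hrp k hpk
      refine ⟨_, mem_singleton_self _, ?_⟩
      have h4 := sol_spec R r (odd_of r hr hr3)
      have h5 : (4 : ℤ) * ((k : ℤ) - sol R r) = ((p - 1 : ℕ) : ℤ) - (4 * sol R r + R - 1) := by
        omega
      have h6 : (r : ℤ) ∣ 4 * ((k : ℤ) - sol R r) := by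
        rw [h5, h4]
        refine dvd_sub (by exact_mod_cast hrp) ?_
        exact Dvd.dvd.mul_left (Dvd.intro _ rfl) _
      have hrp' : Prime (r : ℤ) := Nat.prime_iff_prime_int.1 hr
      rcases hrp'.dvd_or_dvd h6 with h7 | h7
      · exfalso
        have h8 : r ∣ 4 := by exact_mod_cast h7
        have h9 : r ∣ 2 ^ 2 := by simpa using h8
        have h10 := (Nat.prime_dvd_prime_iff_eq hr Nat.prime_two).1 (hr.dvd_of_dvd_pow h9)
        omega
      · exact h7)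
    rw [Finset.sum_singleton] at h1
    have hm := main x hx z hz3 hz2 R hR1 r (sol R r) hr hr6
    have hsm := small x hx r (log z) (by exact_mod_cast hr.pos) hr6 hlogz hlogzx
    have e2 : (2880 * Vale.Agent.P001.cLS + 1) * ((x : ℝ) / (r * (log x * log z))) =
        2880 * Vale.Agent.P001.cLS * ((x : ℝ) / (r * (log x * log z))) +
        (x : ℝ) / (r * (log x * log z)) := by ring
    rw [e2]
    linarith only [h1, hm, hsm, hR2]

end Vale.Agent.P016.FE
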